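import Crest.Agent.R195.Defs

/-! Row 195: partitions as antitone functions, lists, dominance. -/

set_option autoImplicit false
open Finset

namespace Crest.Agent.R195

variable {n : ℕ} {κ κ' : ℕ → ℕ}

theorem psum_succ (κ : ℕ → ℕ) (k : ℕ) : psum κ (k + 1) = psum κ k + κ k := by
  simp [psum, Finset.sum_range_succ]

theorem psum_zero (κ : ℕ → ℕ) : psum κ 0 = 0 := by simp [psum]

theorem psum_mono (κ : ℕ → ℕ) : Monotone (psum κ) := by
  refine monotone_nat_of_le_succ fun k => ?_
  rw [psum_succ]; omega

theorem IsPart.eq_zero (h : IsPart n κ) {i : ℕ} (hi : n ≤ i) : κ i = 0 := by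
  have := h.1 hi
  have h0 := h.2.1
  omega

theorem part_psum_const {N : ℕ} (h0 : ∀ i, N ≤ i → κ i = 0) {k : ℕ} (hk : N ≤ k) :
    psum κ k = psum κ N := by
  induction k, hk using Nat.le_induction with
  | base => rfl
  | succ k hk ih => rw [psum_succ, ih, h0 k hk, add_zero]

theorem IsPart.psum_eq (h : IsPart n κ) {k : ℕ} (hk : n ≤ k) : psum κ k = n := by
  rw [part_psum_const (fun i hi => h.eq_zero hi) hk, h.2.2]

theorem IsPart.psum_le (h : IsPart n κ) (k : ℕ) : psum κ k ≤ n := by
  rcases le_total k n with hk | hk
  · have := psum_mono κ hk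
    rw [h.2.2] at this
    exact this
  · exact (h.psum_eq hk).le

theorem IsPart.unique {m : ℕ} (h : IsPart n κ) (h' : IsPart m κ) : n = m := by
  have h1 := h.psum_eq (le_max_left n m)
  have h2 := h'.psum_eq (le_max_right n m)
  omega

theorem part_le_psum (ha : Antitone κ) (k : ℕ) : k * κ k ≤ psum κ k := by
  unfold psum
  have : ∑ _i ∈ range k, κ k ≤ ∑ i ∈ range k, κ i :=
    Finset.sum_le_sum fun i hi => ha (Finset.mem_range.1 hi).le
  simpa using this

/-- How to prove `IsPart`. -/
theorem isPart_of (ha : Antitone κ) {N : ℕ} (h0 : κ N = 0) (hs : psum κ N = n) : IsPart n κ := by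
  have hz : ∀ i, N ≤ i → κ i = 0 := fun i hi => by
    have := ha hi
    omega
  have hn : κ n = 0 := by
    by_contra hne
    have hlt : n < N := by
      by_contra hge
      exact hne (hz n (by omega))
    have h1 := part_le_psum ha n
    have h2 := psum_mono κ (show n + 1 ≤ N by omega)
    rw [psum_succ] at h2
    have h3 : n * 1 ≤ n * κ n := Nat.mul_le_mul_left n (by omega)
    omega
  refine ⟨ha, hn, ?_⟩
  have hz' : ∀ i, n ≤ i → κ i = 0 := fun i hi => by
    have := ha hi
    omega
  rcases le_total n N with hk | hk
  · rw [← part_psum_const hz' hk, hs]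
  · rw [part_psum_const hz hk, hs]

/-- Concavity of partial sums. -/
theorem psum_concave (ha : Antitone κ) {k i : ℕ} (hki : k ≤ i) : k * psum κ i ≤ i * psum κ k := by
  induction i, hki using Nat.le_induction with
  | base => exact le_rfl
  | succ i hi ih =>
    rw [psum_succ, mul_add, add_mul, one_mul]
    have h1 := part_le_psum ha k
    have h2 : k * κ i ≤ k * κ k := Nat.mul_le_mul_left k (ha hi)
    omega

/-- Partial sums grow by at least one until they reach `n`. -/
theorem IsPart.min_le_psum (h : IsPart n κ) (i t : ℕ) :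
    min n (psum κ i + t) ≤ psum κ (i + t) := by
  induction t with
  | zero => simp
  | succ t ih =>
    rw [← add_assoc i t 1, psum_succ]
    by_cases h0 : κ (i + t) = 0
    · have hz : ∀ j, i + t ≤ j → κ j = 0 := fun j hj => by
        have := h.1 hj
        omega
      have h1 := part_psum_const hz (le_max_left (i + t) n)
      have h2 := h.psum_eq (le_max_right (i + t) n)
      omega
    · omega

theorem IsConjP.symm (h : IsConjP κ κ') : IsConjP κ' κ := fun i j => (h j i).symm

theorem IsConjP.unique {κ'' : ℕ → ℕ} (h : IsConjP κ κ') (h' : IsConjP κ κ'') : κ' = κ'' := by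
  funext j
  refine eq_of_forall_lt_iff fun i => ?_
  rw [← h i j, ← h' i j]

theorem IsConjP.anti (h : IsConjP κ κ') : Antitone κ' := by
  intro a b hab
  refine le_of_forall_lt fun i hi => ?_
  have := (h i b).2 hi
  exact (h i a).1 (by omega)

theorem part_sum_ite_lt (m k : ℕ) : ∑ j ∈ range k, (if j < m then 1 else 0) = min m k := by
  induction k with
  | zero => simp
  | succ k ih =>
    rw [Finset.sum_range_succ, ih]
    split_ifs <;> omega

theorem IsPart.conj_le (h : IsPart n κ) (hc : IsConjP κ κ') (j : ℕ) : κ' j ≤ n := by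
  by_contra hlt
  have := (hc n j).2 (by omega)
  have h0 := h.2.1
  omega

theorem IsPart.psum_conj (h : IsPart n κ) (hc : IsConjP κ κ') (k : ℕ) :
    psum κ' k = ∑ i ∈ range n, min (κ i) k := by
  have h1 : ∀ j, κ' j = ∑ i ∈ range n, (if j < κ i then 1 else 0) := by
    intro j
    have : ∑ i ∈ range n, (if j < κ i then 1 else 0) =
        ∑ i ∈ range n, (if i < κ' j then 1 else 0) :=
      Finset.sum_congr rfl fun i _ => by simp only [hc i j]
    rw [this, part_sum_ite_lt]
    have := h.conj_le hc j
    omega
  unfold psum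
  rw [Finset.sum_congr rfl fun j _ => h1 j, Finset.sum_comm]
  exact Finset.sum_congr rfl fun i _ => part_sum_ite_lt _ _

theorem IsPart.le (h : IsPart n κ) (i : ℕ) : κ i ≤ n := by
  have h1 := h.psum_le (i + 1)
  rw [psum_succ] at h1
  omega

theorem IsPart.conj (h : IsPart n κ) (hc : IsConjP κ κ') : IsPart n κ' := by
  refine ⟨hc.anti, ?_, ?_⟩
  · by_contra hne
    have := (hc 0 n).2 (by omega)
    have := h.le 0
    omega
  · rw [h.psum_conj hc]
    have : ∑ i ∈ range n, min (κ i) n = psum κ n :=
      Finset.sum_congr rfl fun i _ => min_eq_left (h.le i)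
    rw [this, h.2.2]

theorem IsPart.exists_conj (h : IsPart n κ) : ∃ κ', IsConjP κ κ' := by
  have hex : ∀ j, ∃ i, κ i ≤ j := fun j => ⟨n, by rw [h.2.1]; exact Nat.zero_le _⟩
  refine ⟨fun j => Nat.find (hex j), fun i j => ?_⟩
  rw [Nat.lt_find_iff]
  constructor
  · intro hj m hm
    have := h.1 hm
    omega
  · intro hm
    have := hm i le_rfl
    omega

theorem toF_nil : toF [] = fun _ => 0 := by
  funext i
  simp [toF]

theorem toF_cons (b : ℕ) (l : List ℕ) : toF (b :: l) = rcons b (toF l) := by
  funext i
  cases i <;> simp [toF, rcons]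

theorem psum_rcons (b : ℕ) (α : ℕ → ℕ) (k : ℕ) : psum (rcons b α) (k + 1) = b + psum α k := by
  unfold psum
  rw [Finset.sum_range_succ']
  simp [rcons, add_comm]

theorem psum_toF (l : List ℕ) (k : ℕ) : psum (toF l) k = (l.take k).sum := by
  induction l generalizing k with
  | nil => simp [toF_nil, psum]
  | cons b l ih =>
    cases k with
    | zero => simp [psum]
    | succ k => rw [toF_cons, psum_rcons, ih]; simp

theorem toF_of_le {l : List ℕ} {i : ℕ} (h : l.length ≤ i) : toF l i = 0 := by
  simp [toF, List.getD_eq_getElem?_getD, List.getElem?_eq_none h]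

theorem toF_of_lt {l : List ℕ} {i : ℕ} (h : i < l.length) : toF l i = l[i] := by
  simp [toF, List.getD_eq_getElem?_getD, List.getElem?_eq_getElem h]

theorem toF_anti {l : List ℕ} (h : l.Pairwise (· ≥ ·)) : Antitone (toF l) := by
  intro a b hab
  by_cases hb : b < l.length
  · rw [toF_of_lt hb, toF_of_lt (show a < l.length by omega)]
    rcases hab.eq_or_lt with rfl | hlt
    · exact le_rfl
    · exact List.pairwise_iff_getElem.1 h a b _ hb hlt
  · rw [toF_of_le (by omega)]
    exact Nat.zero_le _

theorem isPart_toF {l : List ℕ} (h : l.Pairwise (· ≥ ·)) : IsPart l.sum (toF l) := by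
  refine isPart_of (toF_anti h) (N := l.length) (toF_of_le le_rfl) ?_
  rw [psum_toF, List.take_length]

theorem part_le_headD {l : List ℕ} (h : l.Pairwise (· ≥ ·)) {x : ℕ} (hx : x ∈ l) :
    x ≤ l.headD 0 := by
  cases l with
  | nil => simp at hx
  | cons b t =>
    rw [List.pairwise_cons] at h
    rcases List.mem_cons.1 hx with rfl | hx
    · simp
    · simpa using h.1 x hx

theorem part_lt_toF_iff {l : List ℕ} (h : l.Pairwise (· ≥ ·)) (i j : ℕ) :
    j < toF l i ↔ i < l.countP fun x => j < x := by
  induction l generalizing i with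
  | nil => simp [toF_nil]
  | cons b t ih =>
    rw [List.pairwise_cons] at h
    rw [toF_cons, List.countP_cons]
    by_cases hb : j < b
    · cases i with
      | zero => simp [rcons, hb]
      | succ i =>
        simp only [rcons, hb, decide_true, if_true]
        rw [ih h.2]; omega
    · have h0 : (t.countP fun x => j < x) = 0 := by
        rw [List.countP_eq_zero]
        intro x hx
        have := h.1 x hx
        simp only [decide_eq_true_eq]
        omega
      cases i with
      | zero => simp [rcons, hb, h0]
      | succ i =>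
        simp only [rcons, hb, decide_false]
        rw [ih h.2, h0]; simp

theorem isConj_conjL {l : List ℕ} (h : l.Pairwise (· ≥ ·)) : IsConjP (toF l) (toF (conjL l)) := by
  intro i j
  rw [part_lt_toF_iff h]
  have hlen : (conjL l).length = l.headD 0 := by simp [conjL]
  by_cases hj : j < l.headD 0
  · rw [toF_of_lt (by omega)]
    simp [conjL]
  · rw [toF_of_le (by omega)]
    have h0 : (l.countP fun x => j < x) = 0 := by
      rw [List.countP_eq_zero]
      intro x hx
      have := part_le_headD h hx
      simp only [decide_eq_true_eq]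
      omega
    rw [h0]

theorem conjL_sorted (l : List ℕ) : (conjL l).Pairwise (· ≥ ·) := by
  unfold conjL
  rw [List.pairwise_map]
  refine List.Pairwise.imp ?_ (List.pairwise_lt_range (n := l.headD 0))
  intro a b hab
  refine List.countP_mono_left fun x _ hx => ?_
  simp only [decide_eq_true_eq] at hx ⊢
  omega

theorem toF_hookL {q : ℕ} {l : List ℕ} (h : l.length + 1 ≤ q) :
    toF (hookL q l) = hookF q (toF l) := by
  funext i
  unfold hookL
  rw [toF_cons]
  cases i with
  | zero => simp [rcons, hookF]
  | succ i =>
    simp only [rcons, hookF, Nat.succ_ne_zero, if_false, Nat.add_sub_cancel]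
    by_cases h1 : i < l.length
    · rw [if_pos (by omega), toF_of_lt h1, toF_of_lt (by simp; omega)]
      rw [List.getElem_append_left (by simpa using h1)]
      simp
    · by_cases h2 : i + 1 < q
      · rw [if_pos h2, toF_of_le (show l.length ≤ i by omega), toF_of_lt (by simp; omega)]
        rw [List.getElem_append_right (by simp; omega)]
        simp
      · rw [if_neg h2, toF_of_le (by simp; omega)]

theorem part_sum_map_succ (l : List ℕ) : (l.map (· + 1)).sum = l.sum + l.length := by
  induction l with
  | nil => simp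
  | cons b t ih => simp only [List.map_cons, List.sum_cons, List.length_cons, ih]; omega

theorem sum_hookL {q : ℕ} {l : List ℕ} (h : l.length + 1 ≤ q) :
    (hookL q l).sum + 1 = l.sum + 2 * q := by
  unfold hookL
  rw [List.sum_cons, List.sum_append, part_sum_map_succ, List.sum_replicate, smul_eq_mul]
  omega

theorem hookL_sorted {q : ℕ} {l : List ℕ} (hl : l.Pairwise (· ≥ ·)) (h : l.headD 0 + 1 ≤ q) :
    (hookL q l).Pairwise (· ≥ ·) := by
  unfold hookL
  rw [List.pairwise_cons, List.pairwise_append]
  refine ⟨?_, ?_, ?_, ?_⟩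
  · intro a ha
    rcases List.mem_append.1 ha with ha | ha
    · obtain ⟨x, hx, rfl⟩ := List.mem_map.1 ha
      have := part_le_headD hl hx
      omega
    · have := (List.mem_replicate.1 ha).2
      omega
  · rw [List.pairwise_map]
    refine hl.imp ?_
    intro a b hab
    simp only [ge_iff_le] at hab ⊢
    omega
  · rw [List.pairwise_replicate]
    right; exact le_rfl
  · intro a ha b hb
    obtain ⟨x, hx, rfl⟩ := List.mem_map.1 ha
    have := (List.mem_replicate.1 hb).2
    omega

/-- Threshold bound for sub-multisets. -/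
theorem part_sum_le_thr {u w : Multiset ℕ} (hu : u ≤ w) (t : ℕ) :
    u.sum ≤ u.card * t + (w.map fun x => x - t).sum := by
  have h1 : u.sum ≤ u.card * t + (u.map fun x => x - t).sum := by
    induction u using Multiset.induction_on with
    | empty => simp
    | cons a s ih =>
      have := ih (le_trans (Multiset.le_cons_self s a) hu)
      simp only [Multiset.sum_cons, Multiset.card_cons, Multiset.map_cons, add_mul, one_mul]
      omega
  obtain ⟨v, rfl⟩ := Multiset.le_iff_exists_add.1 hu
  rw [Multiset.map_add, Multiset.sum_add]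
  omega

theorem part_psum_eq_thr (ha : Antitone κ) {k N : ℕ} (hk : k ≤ N) :
    k * κ k + ∑ t ∈ range N, (κ t - κ k) = psum κ k := by
  have h1 : ∑ t ∈ range N, (κ t - κ k) = ∑ t ∈ range k, (κ t - κ k) := by
    symm
    refine Finset.sum_subset (Finset.range_subset_range.2 hk) fun t _ ht => ?_
    have := ha (show k ≤ t by simpa using ht)
    omega
  rw [h1]
  unfold psum
  have h2 : k * κ k = ∑ _t ∈ range k, κ k := by simp
  rw [h2, ← Finset.sum_add_distrib]
  refine Finset.sum_congr rfl fun t ht => ?_
  have := ha (Finset.mem_range.1 ht).le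
  omega

theorem part_sum_map_toF (l : List ℕ) (f : ℕ → ℕ) :
    (l.map f).sum = ∑ t ∈ range l.length, f (toF l t) := by
  induction l with
  | nil => simp
  | cons b t ih =>
    rw [List.map_cons, List.sum_cons, List.length_cons, Finset.sum_range_succ', toF_cons, ih]
    simp [rcons, add_comm]

/-- Sub-multisets are bounded by the top sums of the sorted rearrangement. -/
theorem sum_le_take_of_le {w ws : List ℕ} (hp : ws.Perm w) (hs : ws.Pairwise (· ≥ ·))
    (u : Multiset ℕ) (hu : u ≤ (w : Multiset ℕ)) : u.sum ≤ (ws.take u.card).sum := by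
  have hw : (w : Multiset ℕ) = (ws : Multiset ℕ) := Quot.sound hp.symm
  rw [hw] at hu
  have hc : u.card ≤ ws.length := by simpa using Multiset.card_le_card hu
  have h1 := part_sum_le_thr hu (toF ws u.card)
  rw [← psum_toF, ← part_psum_eq_thr (toF_anti hs) hc]
  rw [Multiset.map_coe, Multiset.sum_coe, part_sum_map_toF] at h1
  exact h1

/-- Dominance from the sorted rearrangement. -/
theorem dom_of_sorted {w ws : List ℕ} (hp : ws.Perm w) (hs : ws.Pairwise (· ≥ ·))
    (h : ∀ k, k ≤ ws.length → (ws.take k).sum ≤ psum κ k) : Dom κ w := by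
  intro u hu
  have hc : u.card ≤ ws.length := by
    have := Multiset.card_le_card hu
    rw [hp.length_eq]
    simpa using this
  exact (sum_le_take_of_le hp hs u hu).trans (h _ hc)

theorem part_sum_min_add (w : List ℕ) (i : ℕ) :
    (w.map fun x => min x i).sum + (w.map fun x => x - i).sum = w.sum := by
  induction w with
  | nil => simp
  | cons a t ih => simp only [List.map_cons, List.sum_cons]; omega

/-- Dominance from the column sums. -/
theorem dom_of_min {w : List ℕ} (h : IsPart n κ) (hc : IsConjP κ κ') (hw : w.sum = n)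
    (hm : ∀ i, psum κ' i ≤ (w.map fun x => min x i).sum) : Dom κ w := by
  intro u hu
  rcases le_total u.card n with hk | hk
  · have h1 := part_sum_le_thr hu (κ u.card)
    rw [Multiset.map_coe, Multiset.sum_coe] at h1
    have h2 := part_sum_min_add w (κ u.card)
    have h3 := hm (κ u.card)
    rw [h.psum_conj hc] at h3
    have h4 := part_psum_eq_thr h.1 hk
    have h5 : ∑ t ∈ range n, min (κ t) (κ u.card) + ∑ t ∈ range n, (κ t - κ u.card) = n := by
      rw [← Finset.sum_add_distrib]
      have : ∑ t ∈ range n, (min (κ t) (κ u.card) + (κ t - κ u.card)) = psum κ n :=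
        Finset.sum_congr rfl fun t _ => by omega
      rw [this, h.2.2]
    omega
  · rw [h.psum_eq hk, ← hw]
    obtain ⟨v, hv⟩ := Multiset.le_iff_exists_add.1 hu
    have : (w : Multiset ℕ).sum = u.sum + v.sum := by rw [hv, Multiset.sum_add]
    rw [Multiset.sum_coe] at this
    omega

end Crest.Agent.R195
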