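import Crest.Agent.R195.Eps
import Crest.Agent.R195.Part

/-! Row 195: the sl2 lemma, moves, Muirhead descent. -/

set_option autoImplicit false
open Finset Equiv

namespace Crest.Agent.R195

variable {Ω : Type} [Fintype Ω] [DecidableEq Ω]

/-- The averaging operator over the coset representatives `1`, `(s y)`, `s ∈ S`. -/
noncomputable def reachT (S : Finset Ω) (y : Ω) (z : Perm Ω → ℝ) : Perm Ω → ℝ :=
  fun g => z g + ∑ s ∈ S, z (swap s y * g)

omit [Fintype Ω] in
theorem reachT_swap {S : Finset Ω} {y : Ω} (hy : y ∉ S) {z : Perm Ω → ℝ}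
    (hz : ∀ a ∈ S, ∀ b ∈ S, ∀ g, z (swap a b * g) = z g) {s : Ω} (hs : s ∈ S) (g : Perm Ω) :
    reachT S y z (swap s y * g) = reachT S y z g := by
  unfold reachT
  rw [← add_sum_erase S _ hs, ← add_sum_erase S (fun a => z (swap a y * g)) hs,
    swap_mul_self_mul, add_left_comm]
  congr 2
  refine sum_congr rfl fun a ha => ?_
  obtain ⟨has, ha⟩ := mem_erase.1 ha
  have hay : a ≠ y := fun h => hy (h ▸ ha)
  have hsy : s ≠ y := fun h => hy (h ▸ hs)
  have : swap a y * swap s y = swap a s * swap a y := by
    rw [swap_mul_eq_mul_swap (swap a y) a s, swap_inv, swap_apply_left,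
      swap_apply_of_ne_of_ne has.symm hsy, swap_comm y s]
  rw [← mul_assoc, this, mul_assoc, hz a ha s hs]

omit [Fintype Ω] in
theorem reachT_perm {S : Finset Ω} {y : Ω} {z : Perm Ω → ℝ} (τ : Perm Ω) (hy : τ y = y)
    (hS : ∀ a, a ∈ S ↔ τ a ∈ S) (hz : ∀ g, z (τ * g) = z g) (g : Perm Ω) :
    reachT S y z (τ * g) = reachT S y z g := by
  unfold reachT
  rw [hz]
  congr 1
  refine (sum_equiv τ hS fun a _ => ?_).symm
  rw [← hz (swap a y * g), ← mul_assoc, mul_swap_eq_swap_mul, hy, mul_assoc]

/-- The sl2 (averaging) lemma. -/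
theorem nk (K Y : Finset Ω) (hd : Disjoint K Y) (m : Ω) (hm : m ∈ K) (hc : Y.card < K.card)
    (z : Perm Ω → ℝ) (hK : ∀ a ∈ K, ∀ b ∈ K, ∀ g, z (swap a b * g) = z g)
    (h0 : ∀ g, z g + ∑ y ∈ Y, z (swap m y * g) = 0) : z = 0 := by
  have hYK : ∀ y ∈ Y, y ∉ K := fun y hy => disjoint_right.1 hd hy
  have h1 : ∀ a ∈ K, ∀ g, ∑ y ∈ Y, z (swap a y * g) = -z g := by
    intro a ha g
    have h := h0 (swap m a * g)
    rw [hK m hm a ha] at h
    rw [eq_neg_iff_add_eq_zero, add_comm, ← h]
    congr 1
    refine sum_congr rfl fun y hy => ?_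
    have hym : y ≠ m := fun e => hYK y hy (e ▸ hm)
    have hya : y ≠ a := fun e => hYK y hy (e ▸ ha)
    rw [← mul_assoc, swap_mul_eq_mul_swap (swap m a) m y, swap_inv, swap_apply_left,
      swap_apply_of_ne_of_ne hym hya, mul_assoc, hK m hm a ha]
  have h2 : ∀ y ∈ Y, 0 ≤ ∑ g, reachT K y z g * z g := by
    intro y hy
    have e : ∑ g, reachT K y z g * reachT K y z g =
        ((K.card : ℝ) + 1) * ∑ g, reachT K y z g * z g := by
      have e1 : ∀ a ∈ K, ∑ g, reachT K y z g * z (swap a y * g) =
          ∑ g, reachT K y z g * z g := by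
        intro a ha
        refine Fintype.sum_equiv (Equiv.mulLeft (swap a y)) _ _ fun g => ?_
        rw [Equiv.coe_mulLeft, reachT_swap (hYK y hy) hK ha]
      calc ∑ g, reachT K y z g * reachT K y z g
          = ∑ g, (reachT K y z g * z g + ∑ a ∈ K, reachT K y z g * z (swap a y * g)) :=
            sum_congr rfl fun g _ => by rw [← mul_sum, ← mul_add]; rfl
        _ = _ := by
            rw [sum_add_distrib, sum_comm, sum_congr rfl e1, sum_const, nsmul_eq_mul]
            ring
    have hp : (0 : ℝ) < (K.card : ℝ) + 1 := by positivity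
    refine nonneg_of_mul_nonneg_right ?_ hp
    rw [← e]
    exact sum_nonneg fun g _ => mul_self_nonneg _
  have h3 : ∑ y ∈ Y, ∑ g, reachT K y z g * z g = ((Y.card : ℝ) - K.card) * ∑ g, z g * z g := by
    rw [sum_comm, mul_sum]
    refine sum_congr rfl fun g _ => ?_
    rw [← sum_mul]
    unfold reachT
    rw [sum_add_distrib, sum_comm, sum_congr rfl fun a ha => h1 a ha g, sum_const, sum_const,
      nsmul_eq_mul, nsmul_eq_mul]
    ring
  have h4 : ∑ g, z g * z g ≤ 0 := by
    have h5 := sum_nonneg h2
    rw [h3] at h5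
    have h6 : (Y.card : ℝ) - K.card < 0 := sub_neg.2 (by exact_mod_cast hc)
    by_contra h7
    exact absurd h5 (not_le.2 (mul_neg_of_neg_of_pos h6 (not_le.1 h7)))
  funext g
  have h8 := (sum_eq_zero_iff_of_nonneg fun g _ => mul_self_nonneg (z g)).1
    (h4.antisymm (sum_nonneg fun g _ => mul_self_nonneg _)) g (mem_univ g)
  exact mul_self_eq_zero.1 h8

/-- One move: invariance. -/
theorem reach_move_inv {K : Type} [DecidableEq K] {p : Ω → K} {m : Ω} {l : K} (hl : p m ≠ l)
    {z : Perm Ω → ℝ} (hz : LInv p z) :
    LInv (Function.update p m l) (reachT (univ.filter fun y => p y = l) m z) := by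
  have hm : m ∉ univ.filter fun y => p y = l := by simpa using hl
  have hS : ∀ a ∈ univ.filter fun y => p y = l, ∀ b ∈ univ.filter fun y => p y = l, ∀ g,
      z (swap a b * g) = z g := fun a ha b hb =>
    hz a b ((mem_filter.1 ha).2.trans (mem_filter.1 hb).2.symm)
  intro x y hxy g
  by_cases hx : x = m
  · subst hx
    by_cases hy : y = x
    · rw [hy, swap_self, ← Perm.one_def, one_mul]
    · rw [Function.update_self, Function.update_of_ne hy] at hxy
      rw [swap_comm]
      exact reachT_swap hm hS (by simpa using hxy.symm) g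
  · by_cases hy : y = m
    · subst hy
      rw [Function.update_self, Function.update_of_ne hx] at hxy
      exact reachT_swap hm hS (by simpa using hxy) g
    · rw [Function.update_of_ne hx, Function.update_of_ne hy] at hxy
      refine reachT_perm _ (swap_apply_of_ne_of_ne (Ne.symm hx) (Ne.symm hy)) (fun a => ?_)
        (hz x y hxy) g
      simp only [mem_filter, mem_univ, true_and]
      rw [apply_swap_eq_self hxy]

/-- One move: injectivity. -/
theorem reach_move_inj {K : Type} [DecidableEq K] {p : Ω → K} {m : Ω} {l : K}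
    (hc : (univ.filter fun y => p y = l).card < (univ.filter fun y => p y = p m).card)
    {z : Perm Ω → ℝ} (hz : LInv p z) (h0 : reachT (univ.filter fun y => p y = l) m z = 0) :
    z = 0 := by
  have hl : p m ≠ l := fun e => by rw [e] at hc; exact lt_irrefl _ hc
  refine nk (univ.filter fun y => p y = p m) (univ.filter fun y => p y = l) ?_ m (by simp) hc z
    (fun a ha b hb => hz a b ((mem_filter.1 ha).2.trans (mem_filter.1 hb).2.symm)) fun g => ?_
  · exact disjoint_filter.2 fun x _ h1 h2 => hl (h1.symm.trans h2)
  · have := congrFun h0 g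
    simpa only [reachT, swap_comm m, Pi.zero_apply] using this

theorem reach_move {K K' : Type} [DecidableEq K] [DecidableEq K'] {q : Ω → K} {p : Ω → K'}
    {m : Ω} {l : K'}
    (hc : (univ.filter fun y => p y = l).card < (univ.filter fun y => p y = p m).card)
    (hq : ∀ y, p y = l → q y = q m) (h : Reach q (Function.update p m l)) : Reach q p := by
  have hl : p m ≠ l := fun e => by rw [e] at hc; exact lt_irrefl _ hc
  intro z hz h0
  refine reach_move_inj hc hz (h _ (reach_move_inv hl hz) (funext fun g => ?_))
  have h1 : ∑ π ∈ stab q, z (π * g) = 0 := congrFun h0 g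
  change ∑ π ∈ stab q, (z (π * g) + ∑ s ∈ _, z (swap s m * (π * g))) = 0
  rw [sum_add_distrib, h1, zero_add, sum_comm]
  refine sum_eq_zero fun y hy => Eq.trans ?_ h1
  have hy' := hq y (mem_filter.1 hy).2
  refine sum_equiv (Equiv.mulLeft (swap y m)) (fun π => ?_) fun π _ => ?_
  · simp only [mem_stab, Equiv.coe_mulLeft, Perm.mul_apply, apply_swap_eq_self hy']
  · rw [Equiv.coe_mulLeft, mul_assoc]

theorem reach_of_coarser {K K' : Type} [DecidableEq K] {q : Ω → K} {p : Ω → K'}
    (h : ∀ x y, q x = q y → p x = p y) : Reach q p := by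
  intro z hz h0
  funext g
  have h1 : ∑ π ∈ stab q, z (π * g) = 0 := congrFun h0 g
  rw [sum_congr rfl fun π hπ => hz.perm π (fun x => h _ _ (mem_stab.1 hπ x)) g, sum_const,
    nsmul_eq_mul] at h1
  have h2 : (stab q).card ≠ 0 := card_ne_zero.2 ⟨1, mem_stab.2 fun _ => rfl⟩
  exact (mul_eq_zero.1 h1).resolve_left (by exact_mod_cast h2)

theorem Reach.refine {K K' K'' : Type} [DecidableEq K] {q : Ω → K} {p : Ω → K'} {p1 : Ω → K''}
    (h : ∀ x y, p1 x = p1 y → p x = p y) (h1 : Reach q p1) : Reach q p :=
  fun z hz => h1 z fun x y hxy => hz x y (h x y hxy)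

/-- Move the elements of `B` out of the blob `A`, one at a time, into their `b`-classes. -/
theorem reach_moves {K K' : Type} [DecidableEq K] [DecidableEq K'] (q : Ω → K) (b : Ω → K')
    (A B : Finset Ω) (hBA : B ⊆ A)
    (hinj : ∀ x ∈ B, ∀ y ∈ B, b x = b y → x = y)
    (hq : ∀ m ∈ B, ∀ y, y ∉ A → b y = b m → q y = q m)
    (hcard : ∀ t : ℕ,
      (B.filter fun m => t < (univ.filter fun y => y ∉ A ∧ b y = b m).card).card = 0 ∨
      (B.filter fun m => t < (univ.filter fun y => y ∉ A ∧ b y = b m).card).card + t + 1 ≤ A.card)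
    (h : Reach q (blob (A \ B) b)) : Reach q (blob A b) := by
  induction hn : B.card generalizing A B with
  | zero =>
    rwa [card_eq_zero.1 hn, sdiff_empty] at h
  | succ n ih =>
    obtain ⟨m, hm, hmax⟩ := exists_max_image B
      (fun m => (univ.filter fun y => y ∉ A ∧ b y = b m).card) (card_pos.1 (by omega))
    have hmA := hBA hm
    have hY : ∀ m' ∈ B.erase m, ∀ y, (y ∉ A.erase m ∧ b y = b m') ↔ (y ∉ A ∧ b y = b m') := by
      intro m' hm' y
      obtain ⟨hne, hm''⟩ := mem_erase.1 hm'
      refine and_congr_left fun hy => not_congr ?_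
      rw [mem_erase, and_iff_right]
      intro e
      exact hne (hinj _ hm'' _ hm (by rw [← hy, e]))
    have e1 : (univ.filter fun y => blob A b y = some (b m)) =
        univ.filter fun y => y ∉ A ∧ b y = b m := by
      refine filter_congr fun y _ => ?_
      by_cases hy : y ∈ A <;> simp [blob, hy]
    have e2 : (univ.filter fun y => blob A b y = blob A b m) = A := by
      ext y
      by_cases hy : y ∈ A <;> simp [blob, hy, hmA]
    have e3 : Function.update (blob A b) m (some (b m)) = blob (A.erase m) b := by
      funext y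
      by_cases hy : y = m
      · simp [blob, hy]
      · simp [blob, hy]
    refine reach_move (m := m) (l := some (b m)) ?_ (fun y hy => ?_) ?_
    · rw [e1, e2]
      rcases Nat.eq_zero_or_pos (univ.filter fun y => y ∉ A ∧ b y = b m).card with h0 | h0
      · rw [h0]
        exact card_pos.2 ⟨m, hmA⟩
      · have hp : 0 < (B.filter fun m' => (univ.filter fun y => y ∉ A ∧ b y = b m).card - 1 <
            (univ.filter fun y => y ∉ A ∧ b y = b m').card).card :=
          card_pos.2 ⟨m, mem_filter.2 ⟨hm, by omega⟩⟩
        have := hcard ((univ.filter fun y => y ∉ A ∧ b y = b m).card - 1)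
        omega
    · have : y ∈ univ.filter fun y => blob A b y = some (b m) := by simpa using hy
      rw [e1] at this
      exact hq m hm y (mem_filter.1 this).2.1 (mem_filter.1 this).2.2
    · rw [e3]
      refine ih (A.erase m) (B.erase m) (erase_subset_erase _ hBA)
        (fun x hx y hy => hinj x (mem_of_mem_erase hx) y (mem_of_mem_erase hy))
        (fun m' hm' y hy e => ?_) (fun t => ?_) ?_ (by rw [card_erase_of_mem hm]; omega)
      · exact hq m' (mem_of_mem_erase hm') y ((hY m' hm' y).1 ⟨hy, e⟩).1 e
      · have e4 : ((B.erase m).filter fun m' =>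
            t < (univ.filter fun y => y ∉ A.erase m ∧ b y = b m').card) =
            (B.filter fun m' => t < (univ.filter fun y => y ∉ A ∧ b y = b m').card).erase m := by
          rw [← filter_erase]
          refine filter_congr fun m' hm' => ?_
          rw [filter_congr fun y _ => hY m' hm' y]
        rw [e4, card_erase_of_mem hmA]
        by_cases ht : t < (univ.filter fun y => y ∉ A ∧ b y = b m).card
        · have hm' : m ∈ B.filter fun m' =>
              t < (univ.filter fun y => y ∉ A ∧ b y = b m').card := mem_filter.2 ⟨hm, ht⟩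
          have hp := card_pos.2 ⟨m, hm'⟩
          rw [card_erase_of_mem hm']
          have := hcard t
          omega
        · left
          rw [filter_eq_empty_iff.2 fun m' hm' h' => ht (h'.trans_le (hmax m' hm'))]
          rfl
      · have e5 : A.erase m \ B.erase m = A \ B := by
          ext y
          by_cases hy : y = m
          · simp [hy, hm]
          · simp [hy]
        rwa [e5]

theorem reach_run {a b : ℕ → ℕ} (h0 : a 0 = b 0) (hle : ∀ k, a k ≤ b k) {N : ℕ}
    (hN : ∀ k, N ≤ k → a k = b k) (hne : ∃ k, a k < b k) :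
    ∃ i j, i < j ∧ j < N ∧ a i = b i ∧ a (j + 1) = b (j + 1) ∧
      ∀ k, i < k → k ≤ j → a k < b k := by
  classical
  have hi := Nat.find_spec hne
  have hi' := fun k => Nat.find_min hne (m := k)
  obtain ⟨i, e⟩ : ∃ i, Nat.find hne = i + 1 :=
    Nat.exists_eq_succ_of_ne_zero fun e => by rw [e] at hi; omega
  rw [e] at hi hi'
  have hex : ∃ k, i + 1 ≤ k ∧ a k = b k := ⟨max N (i + 1), le_max_right _ _, hN _ (le_max_left _ _)⟩
  have hj := Nat.find_spec hex
  have hj' := fun k => Nat.find_min hex (m := k)
  obtain ⟨j, e'⟩ : ∃ j, Nat.find hex = j + 1 :=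
    Nat.exists_eq_succ_of_ne_zero fun e => by rw [e] at hj; omega
  rw [e'] at hj hj'
  have hij : i < j := by
    rcases Nat.lt_or_ge i j with h | h
    · exact h
    · obtain rfl : i = j := by omega
      omega
  have hk : ∀ k, i < k → k ≤ j → a k < b k := fun k h1 h2 =>
    lt_of_le_of_ne (hle k) fun e => hj' k (by omega) ⟨h1, e⟩
  refine ⟨i, j, hij, ?_, ?_, hj.2, hk⟩
  · by_contra h
    exact (hk j hij le_rfl).ne (hN j (not_lt.1 h))
  · exact (hle i).antisymm (not_lt.1 (hi' i (by omega)))

omit [DecidableEq Ω] in
theorem reach_card_lt_succ (r : Ω → ℕ) (k : ℕ) : (univ.filter fun x => r x < k + 1).card =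
    (univ.filter fun x => r x < k).card + (univ.filter fun x => r x = k).card := by
  classical
  rw [← card_union_of_disjoint (disjoint_filter.2 fun x _ h1 h2 => by omega), ← filter_or]
  congr 1
  exact filter_congr fun x _ => by omega

theorem reach_descent (I : Submodule ℝ (Perm Ω → ℝ))
    (hI : ∀ z ∈ I, ∀ τ : Perm Ω, (fun g => z (τ * g)) ∈ I) (p : Ω → ℕ) (N : ℕ)
    (hN : ∀ x, p x < N) (hp : Antitone fun i => (univ.filter fun x => p x = i).card)
    (n : ℕ) (r : Ω → ℕ) (hn : ∑ x, (N - r x) < n)
    (hd : ∀ k, (univ.filter fun x => p x < k).card ≤ (univ.filter fun x => r x < k).card)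
    {z : Perm Ω → ℝ} (hz : z ∈ I) (hz0 : z ≠ 0) (hinv : LInv r z) :
    ∃ z' ∈ I, z' ≠ 0 ∧ LInv p z' := by
  induction n generalizing r z with
  | zero => omega
  | succ n ih =>
    by_cases hne : ∃ k, (univ.filter fun x => p x < k).card < (univ.filter fun x => r x < k).card
    · obtain ⟨i, j, hij, hjN, hi, hj, hk⟩ := reach_run (N := N) (by simp) hd (fun k hk =>
        (hd k).antisymm (card_le_card fun x _ => by simpa using (hN x).trans_le hk)) hne
      have h1 := hk (i + 1) (by omega) hij
      have h2 := hk j hij le_rfl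
      have h3 : (univ.filter fun x => p x = j).card ≤ (univ.filter fun x => p x = i).card :=
        hp hij.le
      rw [reach_card_lt_succ, reach_card_lt_succ] at h1 hj
      have h4 : (univ.filter fun x => r x = j).card < (univ.filter fun x => r x = i).card := by
        omega
      obtain ⟨m, hm⟩ := card_pos.1 (Nat.zero_lt_of_lt h4)
      obtain rfl : r m = i := (mem_filter.1 hm).2
      refine ih (Function.update r m j) ?_ (fun k => ?_)
        (z := reachT (univ.filter fun y => r y = j) m z) ?_
        (fun h => hz0 (reach_move_inj h4 hinv h)) (reach_move_inv hij.ne hinv)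
      · refine lt_of_lt_of_le (sum_lt_sum (fun x _ => ?_) ⟨m, mem_univ m, ?_⟩)
          (Nat.le_of_lt_succ hn)
        · by_cases hx : x = m
          · rw [hx, Function.update_self]; omega
          · rw [Function.update_of_ne hx]
        · rw [Function.update_self]; omega
      · by_cases hk' : r m < k ∧ k ≤ j
        · have e : (univ.filter fun x => Function.update r m j x < k) =
              (univ.filter fun x => r x < k).erase m := by
            ext x
            by_cases hx : x = m
            · simp [hx, hk'.2]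
            · simp [hx]
          rw [e, card_erase_of_mem (by simpa using hk'.1)]
          have := hk k hk'.1 hk'.2
          omega
        · refine (hd k).trans (card_le_card fun x hx => ?_)
          rw [mem_filter] at hx ⊢
          refine ⟨hx.1, ?_⟩
          by_cases hx' : x = m
          · rw [hx'] at hx ⊢
            rw [Function.update_self]
            omega
          · rw [Function.update_of_ne hx']
            exact hx.2
      · have e : reachT (univ.filter fun y => r y = j) m z =
            z + ∑ s ∈ univ.filter fun y => r y = j, fun g => z (swap s m * g) := by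
          funext g
          rw [Pi.add_apply, Finset.sum_apply]
          rfl
        rw [e]
        exact I.add_mem hz (I.sum_mem fun s _ => hI z hz _)
    · have he : ∀ k, (univ.filter fun x => p x < k).card = (univ.filter fun x => r x < k).card :=
        fun k => (hd k).antisymm (not_lt.1 fun h => hne ⟨k, h⟩)
      obtain ⟨τ, hτ⟩ := exists_equiv_of_card_fiber p r fun k => by
        have h1 := he (k + 1)
        have h2 := he k
        rw [reach_card_lt_succ, reach_card_lt_succ] at h1
        omega
      refine ⟨_, hI z hz τ, fun h => hz0 (funext fun g => ?_), fun x y hxy g => ?_⟩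
      · have := congrFun h (τ⁻¹ * g)
        simpa using this
      · change z (τ * (swap x y * g)) = z (τ * g)
        rw [← mul_assoc, mul_swap_eq_swap_mul, mul_assoc,
          hinv _ _ (by rw [hτ, hτ, hxy])]

/-- Muirhead descent: invariant vectors exist for every dominated content. -/
theorem muirhead (I : Submodule ℝ (Perm Ω → ℝ))
    (hI : ∀ z ∈ I, ∀ τ : Perm Ω, (fun g => z (τ * g)) ∈ I) {κ : ℕ → ℕ} (r : Ω → ℕ)
    (hr : ∀ i, (univ.filter fun x => r x = i).card = κ i) {z : Perm Ω → ℝ} (hz : z ∈ I)
    (hz0 : z ≠ 0) (hinv : LInv r z) {ι : Type} [Fintype ι] [DecidableEq ι] (p : Ω → ι)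
    (hdom : ∀ s : Finset ι, (univ.filter fun x => p x ∈ s).card ≤ psum κ s.card) :
    ∃ z' ∈ I, z' ≠ 0 ∧ LInv p z' := by
  let c : Fin (Fintype.card ι) → ℕᵒᵈ := fun i =>
    OrderDual.toDual (univ.filter fun x => p x = (Fintype.equivFin ι).symm i).card
  let e : Fin (Fintype.card ι) ≃ ι := (Tuple.sort c).trans (Fintype.equivFin ι).symm
  have hmono : ∀ i j : Fin (Fintype.card ι), i ≤ j →
      (univ.filter fun x => p x = e j).card ≤ (univ.filter fun x => p x = e i).card :=
    fun i j hij => Tuple.monotone_sort c hij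
  have hfib : ∀ i : Fin (Fintype.card ι),
      (univ.filter fun x => (e.symm (p x) : ℕ) = i) = univ.filter fun x => p x = e i :=
    fun i => filter_congr fun x _ => by rw [Fin.val_inj, Equiv.symm_apply_eq]
  have hps : ∀ k, (univ.filter fun x => r x < k).card = psum κ k := by
    intro k
    induction k with
    | zero => simp [psum]
    | succ k ih => rw [reach_card_lt_succ, ih, hr, psum_succ]
  obtain ⟨z', h1, h2, h3⟩ := reach_descent I hI (fun x => (e.symm (p x) : ℕ)) (Fintype.card ι)
    (fun x => (e.symm (p x)).2) (fun i j hij => by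
      by_cases hj : j < Fintype.card ι
      · have h := hmono ⟨i, hij.trans_lt hj⟩ ⟨j, hj⟩ hij
        rwa [← hfib, ← hfib] at h
      · refine le_trans (le_of_eq (card_eq_zero.2 (filter_eq_empty_iff.2 fun x _ h => hj ?_)))
          (Nat.zero_le _)
        exact h ▸ (e.symm (p x)).2) _ r (Nat.lt_succ_self _) (fun k => by
      have h := hdom (univ.filter fun a => (e.symm a : ℕ) < k)
      simp only [mem_filter, mem_univ, true_and] at h
      rw [hps]
      refine h.trans (sum_le_sum_of_subset (range_subset_range.2 ?_))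
      rw [← card_range k]
      exact card_le_card_of_injOn (fun a => (e.symm a : ℕ)) (fun a ha => by simpa using ha)
        fun a _ a' _ h => e.symm.injective (Fin.ext h)) hz hz0 hinv
  exact ⟨z', h1, h2, fun x y hxy => h3 x y (by simp only [hxy])⟩

end Crest.Agent.R195
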