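import Crest.Agent.R195.Tab
import Crest.Agent.R195.Reach

/-! Row 195: Theorem B, the clusters (equal rows). -/

set_option autoImplicit false
open Finset Equiv

namespace Crest.Agent.R195

variable {Ω : Type} [Fintype Ω] [DecidableEq Ω] {sz : ℕ → ℕ} {c1 c2 ρ : Ω → ℕ}

/-- Colouring: cells in a cluster of `C` get the (first index of the) cluster, the others keep
their position. -/
def bandC_col {Ω : Type} (pos : Ω → ℕ × ℕ) (ρ : Ω → ℕ) : List (ℕ × ℕ) → Ω → ℕ ⊕ (ℕ × ℕ)
  | [], x => Sum.inr (pos x)
  | p :: C, x => if ρ x = p.1 ∨ ρ x = p.2 then Sum.inl p.1 else bandC_col pos ρ C x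

omit [Fintype Ω] [DecidableEq Ω] in
theorem bandC_col_out (pos : Ω → ℕ × ℕ) (C : List (ℕ × ℕ)) (x : Ω)
    (h1 : ρ x ∉ C.map Prod.fst) (h2 : ρ x ∉ C.map Prod.snd) :
    bandC_col pos ρ C x = Sum.inr (pos x) := by
  induction C with
  | nil => rfl
  | cons p C ih =>
    simp only [List.map_cons, List.mem_cons, not_or] at h1 h2
    rw [bandC_col, if_neg (by tauto)]
    exact ih h1.2 h2.2

omit [Fintype Ω] [DecidableEq Ω] in
theorem bandC_col_inr (pos : Ω → ℕ × ℕ) (C : List (ℕ × ℕ)) (x : Ω) (q : ℕ × ℕ)
    (h : bandC_col pos ρ C x = Sum.inr q) :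
    ρ x ∉ C.map Prod.fst ∧ pos x = q := by
  induction C with
  | nil => exact ⟨by simp, by simpa [bandC_col] using h⟩
  | cons p C ih =>
    rw [bandC_col] at h
    split_ifs at h with hx
    push Not at hx
    obtain ⟨h1, h2⟩ := ih h
    refine ⟨?_, h2⟩
    simp only [List.map_cons, List.mem_cons, not_or]
    exact ⟨hx.1, h1⟩

omit [Fintype Ω] [DecidableEq Ω] in
theorem bandC_col_inl (pos : Ω → ℕ × ℕ) (C : List (ℕ × ℕ)) (x : Ω) (k : ℕ)
    (h : bandC_col pos ρ C x = Sum.inl k) :
    ∃ p ∈ C, p.1 = k ∧ (ρ x = p.1 ∨ ρ x = p.2) := by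
  induction C with
  | nil => simp [bandC_col] at h
  | cons p C ih =>
    rw [bandC_col] at h
    split_ifs at h with hx
    · exact ⟨p, List.mem_cons_self, by simpa using h, hx⟩
    · obtain ⟨p', hp', h'⟩ := ih h
      exact ⟨p', List.mem_cons_of_mem _ hp', h'⟩

theorem bandC_main (g1 : IsGrid sz c1 ρ) (hanti : ∀ x, c1 x + c2 x + 1 = sz (ρ x)) :
    ∀ (C : List (ℕ × ℕ)) (D : List ℕ),
      (∀ i ∈ D, i ∉ C.map Prod.snd) → (C.map Prod.fst ++ C.map Prod.snd).Nodup →
      (∀ i j, i ∉ D → i ∉ C.map Prod.fst → j ∉ D → j ∉ C.map Prod.fst → sz i = sz j →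
        0 < sz i → i = j) →
      clOK (D.map sz) (C.map fun p => (sz p.1, sz p.2)) = true →
      Reach (fun x => (c1 x, c2 x)) (bandC_col (fun x => (c1 x, c2 x)) ρ C) := by
  intro C
  induction C with
  | nil =>
    intro D _ _ _ _
    exact reach_of_coarser fun x y h => by simp only [bandC_col]; rw [h]
  | cons p C ih =>
    obtain ⟨e, d⟩ := p
    intro D hD hnd hfree hcl
    set pos : Ω → ℕ × ℕ := fun x => (c1 x, c2 x) with hpos
    have hps : ∀ x y, pos x = pos y → c1 x = c1 y ∧ sz (ρ x) = sz (ρ y) := by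
      intro x y h
      simp only [hpos, Prod.mk.injEq] at h
      refine ⟨h.1, ?_⟩
      rw [← hanti x, ← hanti y, h.1, h.2]
    simp only [List.map_cons, clOK, Bool.and_eq_true, decide_eq_true_eq, Bool.not_eq_true',
      List.contains_eq_mem, decide_eq_false_iff_not, List.mem_cons, not_or] at hcl
    obtain ⟨⟨hcnt, hde, hdD⟩, hcl⟩ := hcl
    simp only [List.map_cons, List.cons_append, List.nodup_cons, List.mem_append, List.mem_cons,
      not_or, List.nodup_middle] at hnd
    obtain ⟨⟨he1, hed, he2⟩, ⟨hd1, hd2⟩, hnd⟩ := hnd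
    have hdD' : d ∉ D := fun h => hD d h (by simp)
    have hfree' : ∀ i j, i ∉ e :: D → i ∉ C.map Prod.fst → j ∉ e :: D → j ∉ C.map Prod.fst →
        sz i = sz j → 0 < sz i → i = j := by
      intro i j hi hi' hj hj' h h'
      simp only [List.mem_cons, not_or] at hi hj
      refine hfree i j hi.2 ?_ hj.2 ?_ h h'
      · simp only [List.map_cons, List.mem_cons, not_or]; exact ⟨hi.1, hi'⟩
      · simp only [List.map_cons, List.mem_cons, not_or]; exact ⟨hj.1, hj'⟩
    have IH := ih (e :: D) (by
      intro i hi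
      rcases List.mem_cons.1 hi with rfl | hi
      · exact he2
      · exact fun h => hD i hi (by simp only [List.map_cons, List.mem_cons]; exact Or.inr h))
      hnd hfree' (by simpa using hcl)
    set b := bandC_col pos ρ C with hb
    set A : Finset Ω := univ.filter fun x => ρ x = e ∨ ρ x = d with hA
    set B : Finset Ω := univ.filter fun x => ρ x = e with hB
    have hbe : ∀ x, ρ x = e → b x = Sum.inr (pos x) := fun x hx =>
      bandC_col_out pos C x (hx ▸ he1) (hx ▸ he2)
    have hbd : ∀ x, ρ x = d → b x = Sum.inr (pos x) := fun x hx =>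
      bandC_col_out pos C x (hx ▸ hd1) (hx ▸ hd2)
    have hAB : ∀ x, x ∈ A \ B ↔ ρ x = d := by
      intro x
      simp only [hA, hB, mem_sdiff, mem_filter, mem_univ, true_and]
      constructor
      · rintro ⟨h | h, h'⟩
        · exact absurd h h'
        · exact h
      · intro h
        exact ⟨Or.inr h, fun h' => hed (h'.symm.trans h)⟩
    have key : ∀ x y, b x = b y → ρ x = d → ρ y = d := by
      intro x y hxy hx
      rw [hbd x hx] at hxy
      obtain ⟨hy1, hy2⟩ := bandC_col_inr pos C y _ hxy.symm
      obtain ⟨-, hs⟩ := hps y x hy2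
      rw [hx] at hs
      have hpos' : 0 < sz d := by have := g1.mem x; rw [hx] at this; omega
      refine hfree' (ρ y) d ?_ hy1 ?_ hd1 hs (hs ▸ hpos')
      · simp only [List.mem_cons, not_or]
        refine ⟨fun h => hde ?_, fun h => hdD ?_⟩
        · rw [← hs, h]
        · rw [← hs]; exact List.mem_map_of_mem h
      · simp only [List.mem_cons, not_or]
        exact ⟨fun h => hed h.symm, hdD'⟩
    have h1 : Reach pos (blob (A \ B) b) := by
      refine Reach.refine (fun x y hxy => ?_) IH
      simp only [blob, hAB]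
      by_cases hx : ρ x = d
      · rw [if_pos hx, if_pos (key x y hxy hx)]
      · rw [if_neg hx, if_neg (fun hy => hx (key y x hxy.symm hy)), hxy]
    have hcA : A.card = sz e + sz d := by
      rw [hA, filter_or, card_union_of_disjoint, g1.card_row, g1.card_row]
      rw [disjoint_filter]
      intro x _ h h'
      exact hed (h.symm.trans h')
    have hcB : B.card = sz e := g1.card_row e
    have hN : ∀ m ∈ B, (univ.filter fun y => y ∉ A ∧ b y = b m).card ≤ sz d := by
      intro m hm
      have hm' : ρ m = e := by simpa [hB] using hm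
      set S := univ.filter fun y => y ∉ A ∧ b y = b m with hS
      have hSm : ∀ y ∈ S, ρ y ≠ e ∧ ρ y ∉ C.map Prod.fst ∧ c1 y = c1 m ∧ sz (ρ y) = sz e := by
        intro y hy
        simp only [hS, hA, mem_filter, mem_univ, true_and, not_or] at hy
        obtain ⟨⟨hy1, -⟩, hy2⟩ := hy
        rw [hbe m hm'] at hy2
        obtain ⟨h3, h4⟩ := bandC_col_inr pos C y _ hy2
        obtain ⟨h5, h6⟩ := hps y m h4
        exact ⟨hy1, h3, h5, hm' ▸ h6⟩
      have hpe : 0 < sz e := by have := g1.mem m; rw [hm'] at this; omega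
      have s1 : (S.filter fun y => ρ y ∈ D).card ≤ (D.map sz).count (sz e) := by
        calc (S.filter fun y => ρ y ∈ D).card
            ≤ (D.filter fun i => sz i == sz e).toFinset.card := by
              refine card_le_card_of_injOn ρ ?_ ?_
              · intro y hy
                simp only [coe_filter, Set.mem_ofPred_eq] at hy
                simp only [List.coe_toFinset, List.mem_filter, beq_iff_eq, Set.mem_ofPred_eq]
                exact ⟨hy.2, (hSm y hy.1).2.2.2⟩
              · intro y hy y' hy' h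
                simp only [coe_filter, Set.mem_ofPred_eq] at hy hy'
                exact g1.inj y y' h ((hSm y hy.1).2.2.1.trans (hSm y' hy'.1).2.2.1.symm)
          _ ≤ (D.filter fun i => sz i == sz e).length := List.toFinset_card_le _
          _ = (D.map sz).count (sz e) := by
              rw [List.count_eq_countP, List.countP_map, List.countP_eq_length_filter]
              rfl
      have s2 : (S.filter fun y => ¬ ρ y ∈ D).card ≤ 1 := by
        rw [card_le_one]
        intro y hy y' hy'
        rw [mem_filter] at hy hy'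
        obtain ⟨a1, a2, a3, a4⟩ := hSm y hy.1
        obtain ⟨b1, b2, b3, b4⟩ := hSm y' hy'.1
        refine g1.inj y y' ?_ (a3.trans b3.symm)
        refine hfree' _ _ ?_ a2 ?_ b2 (a4.trans b4.symm) (a4 ▸ hpe)
        · simp only [List.mem_cons, not_or]; exact ⟨a1, hy.2⟩
        · simp only [List.mem_cons, not_or]; exact ⟨b1, hy'.2⟩
      have := card_filter_add_card_filter_not (s := S) (fun y => ρ y ∈ D)
      omega
    have h2 : Reach pos (blob A b) := by
      refine reach_moves pos b A B ?_ ?_ ?_ ?_ h1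
      · intro x hx
        simp only [hA, hB, mem_filter, mem_univ, true_and] at hx ⊢
        exact Or.inl hx
      · intro x hx y hy hxy
        have hx' : ρ x = e := by simpa [hB] using hx
        have hy' : ρ y = e := by simpa [hB] using hy
        rw [hbe x hx', hbe y hy'] at hxy
        exact g1.inj x y (hx'.trans hy'.symm) (hps x y (Sum.inr.inj hxy)).1
      · intro m hm y _ hy
        have hm' : ρ m = e := by simpa [hB] using hm
        rw [hbe m hm'] at hy
        exact (bandC_col_inr pos C y _ hy).2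
      · intro t
        rcases Nat.eq_zero_or_pos
          (B.filter fun m => t < (univ.filter fun y => y ∉ A ∧ b y = b m).card).card with h | h
        · exact Or.inl h
        · right
          obtain ⟨m, hm⟩ := card_pos.1 h
          rw [mem_filter] at hm
          have h3 := hN m hm.1
          have h4 := card_filter_le B
            (fun m => t < (univ.filter fun y => y ∉ A ∧ b y = b m).card)
          have h5 := hm.2
          omega
    refine Reach.refine (fun x y hxy => ?_) h2
    simp only [blob, hA, mem_filter, mem_univ, true_and] at hxy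
    simp only [bandC_col]
    by_cases hx : ρ x = e ∨ ρ x = d
    · by_cases hy : ρ y = e ∨ ρ y = d
      · rw [if_pos hx, if_pos hy]
      · rw [if_pos hx, if_neg hy] at hxy; exact absurd hxy (by simp)
    · by_cases hy : ρ y = e ∨ ρ y = d
      · rw [if_neg hx, if_pos hy] at hxy; exact absurd hxy (by simp)
      · rw [if_neg hx, if_neg hy] at hxy ⊢
        exact Option.some.inj hxy

/-- `C` lists pairs (index of an extra row, index of its donor row). -/
theorem band_clusters (g1 : IsGrid sz c1 ρ) (hanti : ∀ x, c1 x + c2 x + 1 = sz (ρ x))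
    (C : List (ℕ × ℕ)) (hnd : (C.map Prod.fst ++ C.map Prod.snd).Nodup)
    (hfree : ∀ i j, i ∉ C.map Prod.fst → j ∉ C.map Prod.fst → sz i = sz j → 0 < sz i → i = j)
    (hcl : clOK [] (C.map fun p => (sz p.1, sz p.2)) = true) (u : Perm Ω → ℝ)
    (hu : ∀ p ∈ C, ∀ x y, (ρ x = p.1 ∨ ρ x = p.2) → (ρ y = p.1 ∨ ρ y = p.2) →
      ∀ g, u (swap x y * g) = u g)
    (h0 : symz (fun x => (c1 x, c2 x)) u = 0) : u = 0 := by
  have hR := bandC_main g1 hanti C [] (by simp) hnd
    (fun i j _ hi _ hj h h' => hfree i j hi hj h h') hcl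
  refine hR u ?_ h0
  intro x y hxy g
  rcases hx : bandC_col (fun x => (c1 x, c2 x)) ρ C x with k | q
  · obtain ⟨p, hp, hpk, hxp⟩ := bandC_col_inl _ C x k hx
    obtain ⟨p', hp', hpk', hyp⟩ := bandC_col_inl _ C y k (hxy ▸ hx)
    have hpp : p' = p :=
      List.inj_on_of_nodup_map (List.Nodup.of_append_left hnd) hp' hp (hpk'.trans hpk.symm)
    subst hpp
    exact hu p' hp x y hxp hyp g
  · obtain ⟨h1, h2⟩ := bandC_col_inr _ C x q hx
    obtain ⟨h3, h4⟩ := bandC_col_inr _ C y q (hxy ▸ hx)
    have h5 := h2.trans h4.symm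
    simp only [Prod.mk.injEq] at h5
    have h6 : sz (ρ x) = sz (ρ y) := by rw [← hanti x, ← hanti y, h5.1, h5.2]
    have h7 : ρ x = ρ y := hfree _ _ h1 h3 h6 (by have := g1.mem x; omega)
    have h8 : x = y := g1.inj x y h7 h5.1
    subst h8
    rw [swap_self]
    rfl

end Crest.Agent.R195
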