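import Crest.Agent.R195.Tab

/-! Row 195: Theorem B, extraction identity. -/

set_option autoImplicit false
open Finset Equiv

namespace Crest.Agent.R195

variable {Ω : Type} [Fintype Ω] [DecidableEq Ω] {sz : ℕ → ℕ} {s : ℕ} {c1 c2 ρ : Ω → ℕ}

omit [DecidableEq Ω] in
/-- Counting along a permutation. -/
theorem bandE_card_perm (γ : Perm Ω) (P Q : Ω → Prop) [DecidablePred P] [DecidablePred Q]
    (h : ∀ y, P (γ y) ↔ Q y) : (univ.filter P).card = (univ.filter Q).card := by
  symm
  refine Finset.card_bij (fun y _ => γ y) ?_ ?_ ?_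
  · intro y hy
    simp only [mem_filter, mem_univ, true_and] at hy ⊢
    exact (h y).2 hy
  · intro a _ b _ hab
    exact γ.injective hab
  · intro x hx
    simp only [mem_filter, mem_univ, true_and] at hx
    refine ⟨γ.symm x, ?_, by simp⟩
    simp only [mem_filter, mem_univ, true_and]
    exact (h _).1 (by simpa using hx)

omit [DecidableEq Ω] in
/-- Summing along a permutation. -/
theorem bandE_sum_perm (γ : Perm Ω) (P Q : Ω → Prop) [DecidablePred P] [DecidablePred Q]
    (h : ∀ y, P (γ y) ↔ Q y) (f : Ω → ℤ) (hf : ∀ y, f (γ y) = f y) :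
    ∑ x, (if P x then f x else 0) = ∑ x, (if Q x then f x else 0) := by
  rw [← Equiv.sum_comp γ]
  refine Finset.sum_congr rfl fun y _ => ?_
  by_cases hy : Q y
  · rw [if_pos hy, if_pos ((h y).2 hy), hf]
  · rw [if_neg hy, if_neg (fun h' => hy ((h y).1 h'))]

omit [DecidableEq Ω] in
/-- Threshold lemma. -/
theorem bandE_threshold (P Q : Ω → Prop) [DecidablePred P] [DecidablePred Q] (f : Ω → ℤ)
    (hsum : ∑ x, (if P x then f x else 0) = ∑ x, (if Q x then f x else 0))
    (hQ : ∀ x, Q x → 0 ≤ f x) (hQ' : ∀ x, ¬ Q x → f x ≤ 0) (x : Ω) :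
    (P x → 0 ≤ f x) ∧ (¬ P x → f x ≤ 0) := by
  have hnn : ∀ y ∈ (univ : Finset Ω),
      0 ≤ (if Q y then f y else 0) - (if P y then f y else 0) := by
    intro y _
    by_cases hq : Q y <;> by_cases hp : P y <;> simp [hq, hp]
    · exact hQ y hq
    · exact hQ' y hq
  have hz : ∑ y, ((if Q y then f y else 0) - (if P y then f y else 0)) = 0 := by
    rw [Finset.sum_sub_distrib, hsum, sub_self]
  have hx := (Finset.sum_eq_zero_iff_of_nonneg hnn).1 hz x (mem_univ x)
  by_cases hq : Q x <;> by_cases hp : P x <;> simp [hq, hp] at hx ⊢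
  · exact hQ x hq
  · exact hx.le
  · exact hx.ge
  · exact hQ' x hq

/-- Two sets living on two neighbouring antidiagonals with equal marginals have equal joint
counts. -/
theorem bandE_two_diag (L : ℕ) (P Q : Ω → Prop) [DecidablePred P] [DecidablePred Q]
    (hP : ∀ x, P x → c1 x + c2 x + 1 = L ∨ c1 x + c2 x + 2 = L)
    (hQ : ∀ x, Q x → c1 x + c2 x + 1 = L ∨ c1 x + c2 x + 2 = L)
    (h1 : ∀ j, (univ.filter fun x => P x ∧ c1 x = j).card =
      (univ.filter fun x => Q x ∧ c1 x = j).card)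
    (h2 : ∀ j, (univ.filter fun x => P x ∧ c2 x = j).card =
      (univ.filter fun x => Q x ∧ c2 x = j).card) (j1 : ℕ) :
    ∀ j2, (univ.filter fun x => P x ∧ c1 x = j1 ∧ c2 x = j2).card =
      (univ.filter fun x => Q x ∧ c1 x = j1 ∧ c2 x = j2).card := by
  -- splitting lemmas
  have split2 : ∀ (R : Ω → Prop) [DecidablePred R],
      (∀ x, R x → c1 x + c2 x + 1 = L ∨ c1 x + c2 x + 2 = L) → ∀ j1 j2, j1 + j2 + 1 = L →
      (univ.filter fun x => R x ∧ c2 x = j2).card =
        (univ.filter fun x => R x ∧ c1 x = j1 ∧ c2 x = j2).card +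
        (univ.filter fun x => R x ∧ c1 x + 1 = j1 ∧ c2 x = j2).card := by
    intro R _ hR j1 j2 hj
    rw [← Finset.card_union_of_disjoint]
    · congr 1
      ext x
      simp only [mem_filter, mem_univ, true_and, mem_union]
      constructor
      · rintro ⟨hx, hc⟩
        rcases hR x hx with h | h
        · exact Or.inl ⟨hx, by omega, hc⟩
        · exact Or.inr ⟨hx, by omega, hc⟩
      · rintro (⟨hx, _, hc⟩ | ⟨hx, _, hc⟩) <;> exact ⟨hx, hc⟩
    · rw [Finset.disjoint_filter]
      rintro x _ ⟨_, ha, _⟩ ⟨_, hb, _⟩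
      omega
  have split1 : ∀ (R : Ω → Prop) [DecidablePred R],
      (∀ x, R x → c1 x + c2 x + 1 = L ∨ c1 x + c2 x + 2 = L) → ∀ j1 j2, j1 + j2 + 2 = L →
      (univ.filter fun x => R x ∧ c1 x = j1).card =
        (univ.filter fun x => R x ∧ c1 x = j1 ∧ c2 x = j2).card +
        (univ.filter fun x => R x ∧ c1 x = j1 ∧ c2 x = j2 + 1).card := by
    intro R _ hR j1 j2 hj
    rw [← Finset.card_union_of_disjoint]
    · congr 1
      ext x
      simp only [mem_filter, mem_univ, true_and, mem_union]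
      constructor
      · rintro ⟨hx, hc⟩
        rcases hR x hx with h | h
        · exact Or.inr ⟨hx, hc, by omega⟩
        · exact Or.inl ⟨hx, hc, by omega⟩
      · rintro (⟨hx, hc, _⟩ | ⟨hx, hc, _⟩) <;> exact ⟨hx, hc⟩
    · rw [Finset.disjoint_filter]
      rintro x _ ⟨_, _, ha⟩ ⟨_, _, hb⟩
      omega
  have zero : ∀ (R : Ω → Prop) [DecidablePred R],
      (∀ x, R x → c1 x + c2 x + 1 = L ∨ c1 x + c2 x + 2 = L) → ∀ j1 j2, j1 + j2 + 1 ≠ L →
      j1 + j2 + 2 ≠ L → (univ.filter fun x => R x ∧ c1 x = j1 ∧ c2 x = j2).card = 0 := by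
    intro R _ hR j1 j2 ha hb
    rw [Finset.card_eq_zero, Finset.filter_eq_empty_iff]
    rintro x _ ⟨hx, h3, h4⟩
    rcases hR x hx with h | h <;> omega
  induction j1 using Nat.strong_induction_on with
  | _ j1 ih =>
    have top : ∀ j2, j1 + j2 + 1 = L →
        (univ.filter fun x => P x ∧ c1 x = j1 ∧ c2 x = j2).card =
        (univ.filter fun x => Q x ∧ c1 x = j1 ∧ c2 x = j2).card := by
      intro j2 hj
      have e1 := split2 P hP j1 j2 hj
      have e2 := split2 Q hQ j1 j2 hj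
      have e3 : (univ.filter fun x => P x ∧ c1 x + 1 = j1 ∧ c2 x = j2).card =
          (univ.filter fun x => Q x ∧ c1 x + 1 = j1 ∧ c2 x = j2).card := by
        rcases j1 with _ | j
        · simp
        · have := ih j (Nat.lt_succ_self j) j2
          simpa using this
      have e4 := h2 j2
      omega
    intro j2
    by_cases ha : j1 + j2 + 1 = L
    · exact top j2 ha
    by_cases hb : j1 + j2 + 2 = L
    · have e1 := split1 P hP j1 j2 hb
      have e2 := split1 Q hQ j1 j2 hb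
      have e3 := top (j2 + 1) (by omega)
      have e4 := h1 j1
      omega
    · rw [zero P hP j1 j2 ha hb, zero Q hQ j1 j2 ha hb]

omit [Fintype Ω] [DecidableEq Ω] in
theorem bandE_grp_eq {i : ℕ} (h : s ≤ grp s i) : grp s i = i ∧ 2 * s ≤ i := by
  unfold grp at h ⊢; split_ifs at h ⊢ <;> omega

omit [Fintype Ω] [DecidableEq Ω] in
/-- Sizes of the rows of a group. -/
theorem bandE_size (hB : Band sz s c1 c2 ρ) (i : ℕ) :
    (grp s i < s ∧ (sz i = sz (grp s i) ∨ sz i + 1 = sz (grp s i))) ∨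
      (s ≤ grp s i ∧ sz i = sz (grp s i)) := by
  unfold grp
  split_ifs with h
  · left
    refine ⟨by omega, Or.inr ?_⟩
    have := hB.pair (i - s) (by omega)
    rwa [show s + (i - s) = i by omega] at this
  · by_cases hi : i < s
    · exact Or.inl ⟨hi, Or.inl rfl⟩
    · exact Or.inr ⟨by omega, rfl⟩

/-- Lemma E: the group pattern of a surviving term is unique up to parallel cells. -/
theorem band_pattern (hB : Band sz s c1 c2 ρ) {a1 a2 : Ω → ℕ} (ha1 : Compat s ρ a1)
    (ha2 : Compat s ρ a2) (σ : Perm Ω) (h1 : eps c1 ρ (a1 ∘ σ) ≠ 0) (h2 : eps c2 ρ (a2 ∘ σ) ≠ 0) :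
    ∃ π : Perm Ω, (∀ x, c1 (π x) = c1 x) ∧ (∀ x, c2 (π x) = c2 x) ∧
      ∀ x, grp s (ρ (σ x)) = grp s (ρ (π x)) := by
  classical
  obtain ⟨γ1, hγ1c, hγ1a⟩ := exists_of_eps_ne h1
  obtain ⟨γ2, hγ2c, hγ2a⟩ := exists_of_eps_ne h2
  have hg1 : ∀ y, grp s (ρ (σ (γ1 y))) = grp s (ρ y) := by
    intro y
    rw [← ha1, ← hγ1a y]; rfl
  have hg2 : ∀ y, grp s (ρ (σ (γ2 y))) = grp s (ρ y) := by
    intro y
    rw [← ha2, ← hγ2a y]; rfl
  -- shifted weight
  let wt : ℕ → ℕ := fun k => if k < s then 2 * sz k else 2 * sz k + 1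
  have hwt : ∀ i, 2 * sz i ≤ wt (grp s i) ∧ wt (grp s i) ≤ 2 * sz i + 2 := by
    intro i
    rcases bandE_size hB i with ⟨hk, h | h⟩ | ⟨hk, h⟩
    · simp only [wt, if_pos hk]; omega
    · simp only [wt, if_pos hk]; omega
    · simp only [wt, if_neg (not_lt.2 hk)]; omega
  have hwt' : ∀ i, wt (grp s i) = 2 * sz i + 2 → grp s i < s := by
    intro i hi
    rcases bandE_size hB i with ⟨hk, _⟩ | ⟨hk, h⟩
    · exact hk
    · simp only [wt, if_neg (not_lt.2 hk)] at hi; omega
  have hthr : ∀ (w : ℕ) (x : Ω),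
      (w + 1 ≤ wt (grp s (ρ (σ x))) → w / 2 ≤ c1 x + c2 x + 1) ∧
      (¬ w + 1 ≤ wt (grp s (ρ (σ x))) → c1 x + c2 x + 1 ≤ w / 2) := by
    intro w x
    have e1 := bandE_sum_perm γ1 (fun x => w + 1 ≤ wt (grp s (ρ (σ x))))
      (fun x => w + 1 ≤ wt (grp s (ρ x))) (fun y => by rw [hg1])
      (fun x => (c1 x : ℤ) + 1 - (w / 2 : ℕ)) (fun y => by rw [hγ1c])
    have e2 := bandE_sum_perm γ2 (fun x => w + 1 ≤ wt (grp s (ρ (σ x))))
      (fun x => w + 1 ≤ wt (grp s (ρ x))) (fun y => by rw [hg2])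
      (fun x => (c2 x : ℤ)) (fun y => by rw [hγ2c])
    have e3 : ∀ (R : Ω → Prop) [DecidablePred R],
        ∑ x, (if R x then ((c1 x : ℤ) + c2 x + 1 - (w / 2 : ℕ)) else 0) =
        ∑ x, (if R x then ((c1 x : ℤ) + 1 - (w / 2 : ℕ)) else 0) +
        ∑ x, (if R x then (c2 x : ℤ) else 0) := by
      intro R _
      rw [← Finset.sum_add_distrib]
      refine Finset.sum_congr rfl fun y _ => ?_
      split_ifs <;> ring
    have key := bandE_threshold (fun x => w + 1 ≤ wt (grp s (ρ (σ x))))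
      (fun x => w + 1 ≤ wt (grp s (ρ x))) (fun x => (c1 x : ℤ) + c2 x + 1 - (w / 2 : ℕ))
      (by rw [e3, e3, e1, e2])
      (fun y hy => by
        have := hwt (ρ y)
        have := hB.anti y
        omega)
      (fun y hy => by
        have := hwt (ρ y)
        have := hB.anti y
        omega) x
    constructor
    · intro hw
      have := key.1 hw
      omega
    · intro hw
      have := key.2 hw
      omega
  have hsz1 : ∀ x, c1 x + c2 x + 1 = sz (grp s (ρ (σ x))) ∨
      c1 x + c2 x + 2 = sz (grp s (ρ (σ x))) := by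
    intro x
    have hup := (hthr (wt (grp s (ρ (σ x)))) x).2 (by omega)
    by_cases hk : grp s (ρ (σ x)) < s
    · have hw : wt (grp s (ρ (σ x))) = 2 * sz (grp s (ρ (σ x))) := by simp only [wt, if_pos hk]
      have hpos := hB.pair _ hk
      have hlo := (hthr (2 * sz (grp s (ρ (σ x))) - 1) x).1 (by omega)
      omega
    · have hw : wt (grp s (ρ (σ x))) = 2 * sz (grp s (ρ (σ x))) + 1 := by
        simp only [wt, if_neg hk]
      have hlo := (hthr (2 * sz (grp s (ρ (σ x)))) x).1 (by omega)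
      omega
  have hsz0 : ∀ x, c1 x + c2 x + 1 = sz (grp s (ρ x)) ∨ c1 x + c2 x + 2 = sz (grp s (ρ x)) := by
    intro x
    have := hB.anti x
    rcases bandE_size hB (ρ x) with ⟨_, h | h⟩ | ⟨_, h⟩ <;> omega
  obtain ⟨e, he⟩ := exists_equiv_of_card_fiber (Ω := Ω) (Ω' := Ω)
    (fun x => (grp s (ρ (σ x)), c1 x, c2 x)) (fun x => (grp s (ρ x), c1 x, c2 x)) (by
      rintro ⟨k, j1, j2⟩
      have := bandE_two_diag (c1 := c1) (c2 := c2) (sz k) (fun x => grp s (ρ (σ x)) = k)
        (fun x => grp s (ρ x) = k) (fun x hx => by rw [← hx]; exact hsz1 x)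
        (fun x hx => by rw [← hx]; exact hsz0 x)
        (fun j => bandE_card_perm γ1 _ _ (fun y => by rw [hg1, hγ1c]))
        (fun j => bandE_card_perm γ2 _ _ (fun y => by rw [hg2, hγ2c])) j1 j2
      simpa only [Prod.mk.injEq] using this)
  refine ⟨e, fun x => ?_, fun x => ?_, fun x => ?_⟩
  · exact congrArg (fun p => p.2.1) (he x)
  · exact congrArg (fun p => p.2.2) (he x)
  · exact (congrArg (fun p => p.1) (he x)).symm

theorem bandE_stab_sub {K : Type} [DecidableEq K] (q : Ω → K) :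
    ∀ x ∈ stab q, ∀ y ∈ stab q, x * y⁻¹ ∈ stab q := by
  intro x hx y hy
  rw [mem_stab] at hx hy ⊢
  intro t
  rw [Perm.mul_apply, hx, ← hy (y⁻¹ t)]
  simp

theorem bandE_fix_sub (q : Ω → ℕ) (R : Ω → Prop) [DecidablePred R] :
    ∀ x ∈ (univ : Finset (Perm Ω)).filter
        (fun h => (∀ t, q (h t) = q t) ∧ ∀ t, R t → h t = t),
      ∀ y ∈ (univ : Finset (Perm Ω)).filter
        (fun h => (∀ t, q (h t) = q t) ∧ ∀ t, R t → h t = t),
      x * y⁻¹ ∈ (univ : Finset (Perm Ω)).filter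
        (fun h => (∀ t, q (h t) = q t) ∧ ∀ t, R t → h t = t) := by
  intro x hx y hy
  simp only [mem_filter, mem_univ, true_and] at hx hy ⊢
  refine ⟨fun t => ?_, fun t ht => ?_⟩
  · rw [Perm.mul_apply, hx.1, ← hy.1 (y⁻¹ t)]
    simp
  · have : y⁻¹ t = t := by
      rw [Perm.inv_eq_iff_eq]; exact (hy.2 t ht).symm
    rw [Perm.mul_apply, this, hx.2 t ht]

theorem band_sum (hB : Band sz s c1 c2 ρ) {a1 a2 : Ω → ℕ} (ha1 : Compat s ρ a1)
    (ha2 : Compat s ρ a2) (z : Perm Ω → ℝ)
    (hrow : ∀ x y, 2 * s ≤ ρ x → ρ x = ρ y → ∀ g, z (swap x y * g) = z g)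
    (h0 : ∀ g, ∑ σ : Perm Ω,
      ((eps c1 ρ (a1 ∘ σ) * eps c2 ρ (a2 ∘ σ) : ℤ) : ℝ) * z (σ * g) = 0) :
    symz (fun x => (c1 x, c2 x)) (pairOp s s c1 c2 ρ a1 a2 z) = 0 := by
  classical
  set F : Perm Ω → ℝ := fun σ => ((eps c1 ρ (a1 ∘ σ) * eps c2 ρ (a2 ∘ σ) : ℤ) : ℝ) with hF
  set g0 : Ω → ℕ := fun x => grp s (ρ x) with hg0
  set Par := stab (fun x => (c1 x, c2 x)) with hPar
  set Hall := stab g0 with hHall
  set Hp := (univ : Finset (Perm Ω)).filter
    (fun h => (∀ t, g0 (h t) = g0 t) ∧ ∀ t, s ≤ g0 t → h t = t) with hHp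
  set Hs := (univ : Finset (Perm Ω)).filter
    (fun h => (∀ t, g0 (h t) = g0 t) ∧ ∀ t, g0 t < s → h t = t) with hHs
  have hFpar : ∀ h π, π ∈ Par → F (h * π) = F h := by
    intro h π hπ
    rw [hPar, mem_stab] at hπ
    have e1 : a1 ∘ ⇑(h * π) = (a1 ∘ h) ∘ π := rfl
    have e2 : a2 ∘ ⇑(h * π) = (a2 ∘ h) ∘ π := rfl
    simp only [hF]
    rw [e1, e2, eps_comp_col c1 ρ _ π (fun y => congrArg Prod.fst (hπ y)),
      eps_comp_col c2 ρ _ π (fun y => congrArg Prod.snd (hπ y))]
    congr 1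
    have : ((Perm.sign π : ℤˣ) : ℤ) * ((Perm.sign π : ℤˣ) : ℤ) = 1 := by
      rw [← Units.val_mul, Int.units_mul_self, Units.val_one]
    linear_combination (eps c1 ρ (a1 ∘ h) * eps c2 ρ (a2 ∘ h)) * this
  obtain ⟨c, _, hc⟩ := sum_mul_subgroups Hall Par (by rw [hHall, mem_stab]; intro x; rfl)
    (bandE_stab_sub _) (by rw [hPar, mem_stab]; intro x; rfl) (bandE_stab_sub _)
  have step1 : ∀ g, ∑ π ∈ Par, ∑ h ∈ Hall, F h * z (h * (π * g)) = 0 := by
    intro g
    have := hc (fun σ => F σ * z (σ * g)) (by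
      intro σ hσ
      have hFσ : F σ ≠ 0 := left_ne_zero_of_mul hσ
      simp only [hF, Int.cast_mul, ne_eq, mul_eq_zero, Int.cast_eq_zero, not_or] at hFσ
      obtain ⟨π, hπ1, hπ2, hπ3⟩ := band_pattern hB ha1 ha2 σ hFσ.1 hFσ.2
      refine ⟨σ * π⁻¹, ?_, π, ?_, by simp⟩
      · rw [hHall, mem_stab]
        intro x
        simp only [hg0, Perm.mul_apply]
        rw [hπ3]; simp
      · rw [hPar, mem_stab]
        intro x
        rw [hπ1, hπ2])
    rw [h0 g, mul_zero, Finset.sum_comm] at this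
    rw [← this]
    refine Finset.sum_congr rfl fun π hπ => Finset.sum_congr rfl fun h _ => ?_
    rw [hFpar h π hπ, mul_assoc]
  obtain ⟨c', _, hc'⟩ := sum_mul_subgroups Hp Hs (by simp [hHp]) (bandE_fix_sub g0 _)
    (by simp [hHs]) (bandE_fix_sub g0 _)
  have hL : LInv (fun x => if g0 x < s then (Sum.inr x : ℕ ⊕ Ω) else Sum.inl (ρ x)) z := by
    intro x y hxy g
    by_cases hx : g0 x < s <;> by_cases hy : g0 y < s <;> simp only [hx, hy, if_true, if_false,
      Sum.inr.injEq, Sum.inl.injEq, reduceCtorEq] at hxy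
    · subst hxy
      rw [swap_self, ← Perm.one_def, one_mul]
    · exact hrow x y (bandE_grp_eq (not_lt.1 hx)).2 hxy g
  have step2 : ∀ g, (Hs.card : ℝ) * pairOp s s c1 c2 ρ a1 a2 z g =
      c' * ∑ h ∈ Hall, F h * z (h * g) := by
    intro g
    have := hc' (fun σ => if σ ∈ Hall then F σ * z (σ * g) else 0) (by
      intro σ hσ
      have hσH : σ ∈ Hall := by
        by_contra hn
        exact hσ (if_neg hn)
      rw [hHall, mem_stab] at hσH
      have hσH' : ∀ x, g0 (σ⁻¹ x) = g0 x := by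
        intro x
        rw [← hσH (σ⁻¹ x)]; simp
      let h2 : Perm Ω :=
        { toFun := fun x => if g0 x < s then x else σ x
          invFun := fun x => if g0 x < s then x else σ⁻¹ x
          left_inv := fun x => by
            by_cases hx : g0 x < s
            · simp only [if_pos hx]
            · simp only [if_neg hx, hσH]; simp
          right_inv := fun x => by
            by_cases hx : g0 x < s
            · simp only [if_pos hx]
            · simp only [if_neg hx, hσH']; simp }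
      have h2a : ∀ x, h2 x = if g0 x < s then x else σ x := fun x => rfl
      have h2b : ∀ x, h2⁻¹ x = if g0 x < s then x else σ⁻¹ x := fun x => rfl
      refine ⟨σ * h2⁻¹, ?_, h2, ?_, by simp⟩
      · simp only [hHp, mem_filter, mem_univ, true_and, Perm.mul_apply]
        refine ⟨fun t => ?_, fun t ht => ?_⟩
        · rw [hσH, h2b]
          split_ifs
          · rfl
          · exact hσH' t
        · rw [h2b, if_neg (not_lt.2 ht)]; simp
      · simp only [hHs, mem_filter, mem_univ, true_and]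
        refine ⟨fun t => ?_, fun t ht => ?_⟩
        · rw [h2a]
          split_ifs
          · rfl
          · exact hσH t
        · rw [h2a, if_pos ht])
    rw [Finset.sum_ite_mem, Finset.univ_inter] at this
    rw [← this, pairOp, Finset.mul_sum]
    refine Finset.sum_congr rfl fun h hh => ?_
    rw [← nsmul_eq_mul, ← Finset.sum_const]
    refine Finset.sum_congr rfl fun k hk => ?_
    simp only [hHp, hHs, mem_filter, mem_univ, true_and] at hh hk
    have hmem : h * k ∈ Hall := by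
      rw [hHall, mem_stab]
      intro x
      rw [Perm.mul_apply, hh.1, hk.1]
    rw [if_pos hmem]
    have ha : ∀ a : Ω → ℕ, Compat s ρ a → a ∘ ⇑(h * k) = a ∘ h := by
      intro a hca
      funext x
      simp only [Function.comp, Perm.mul_apply]
      by_cases hx : g0 x < s
      · rw [hk.2 x hx]
      · have hx' : s ≤ g0 x := not_lt.1 hx
        have hkx : s ≤ g0 (k x) := by rw [hk.1]; exact hx'
        rw [hh.2 _ hkx, hh.2 _ hx']
        have e1 := bandE_grp_eq (s := s) (i := a (k x)) (by rw [hca]; exact hkx)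
        have e2 := bandE_grp_eq (s := s) (i := a x) (by rw [hca]; exact hx')
        rw [← e1.1, ← e2.1, hca, hca]
        exact hk.1 x
    have hcomm : h * k = k * h := by
      have : Perm.Disjoint h k := by
        intro x
        by_cases hx : g0 x < s
        · exact Or.inr (hk.2 x hx)
        · exact Or.inl (hh.2 x (not_lt.1 hx))
      exact this.commute.eq
    have hz : z (h * k * g) = z (h * g) := by
      rw [hcomm, mul_assoc]
      refine hL.perm k (fun x => ?_) _
      by_cases hx : g0 x < s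
      · rw [hk.2 x hx]
      · have hkx : ¬ g0 (k x) < s := by rw [hk.1]; exact hx
        simp only [if_neg hx, if_neg hkx]
        congr 1
        have e1 := (bandE_grp_eq (not_lt.1 hkx)).1
        have e2 := (bandE_grp_eq (not_lt.1 hx)).1
        rw [← e1, ← e2]
        exact hk.1 x
    simp only [hF]
    rw [ha a1 ha1, ha a2 ha2, hz]
  funext g
  have hpos : (0 : ℝ) < Hs.card := by
    have : (1 : Perm Ω) ∈ Hs := by simp [hHs]
    exact_mod_cast Finset.card_pos.2 ⟨1, this⟩
  have : (Hs.card : ℝ) * symz (fun x => (c1 x, c2 x)) (pairOp s s c1 c2 ρ a1 a2 z) g = 0 := by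
    rw [symz, Finset.mul_sum]
    simp only [step2]
    rw [← Finset.mul_sum, step1 g, mul_zero]
  exact (mul_eq_zero.1 this).resolve_left hpos.ne'

omit [Fintype Ω] [DecidableEq Ω] in
theorem two_mul_le_grp {i : ℕ} (h : 2 * s ≤ i) : s ≤ grp s i := by
  unfold grp; split_ifs <;> omega

/-- `pairOp` commutes with transpositions of cells it fixes. -/
theorem pairOp_swap (k : ℕ) (a1 a2 : Ω → ℕ) (z : Perm Ω → ℝ) {x y : Ω}
    (hx : k ≤ grp s (ρ x)) (hy : k ≤ grp s (ρ y)) (h : ∀ g, z (swap x y * g) = z g) (g : Perm Ω) :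
    pairOp s k c1 c2 ρ a1 a2 z (swap x y * g) = pairOp s k c1 c2 ρ a1 a2 z g := by
  unfold pairOp
  refine Finset.sum_congr rfl fun t ht => ?_
  simp only [mem_filter, mem_univ, true_and] at ht
  rw [← mul_assoc, Equiv.mul_swap_eq_swap_mul, ht.2 x hx, ht.2 y hy, mul_assoc, h]

end Crest.Agent.R195
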