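import Crest.Agent.R195.Tab
import Crest.Agent.R195.Part

/-! Row 195: the blocks span all functions on the symmetric group. -/

set_option autoImplicit false
open Finset Equiv

namespace Crest.Agent.R195

namespace Complete

section Group
variable {G : Type} [Group G] [Fintype G]

/-- all two-sided translates are orthogonal -/
def TO (φ ψ : G → ℝ) : Prop := ∀ u v : G, ∑ σ, φ σ * ψ (u * σ * v) = 0

theorem sum_shift (F : G → ℝ) (u v : G) : ∑ σ, F (u * σ * v) = ∑ σ, F σ :=
  Fintype.sum_equiv ((Equiv.mulLeft u).trans (Equiv.mulRight v)) _ _ fun _ => rfl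

theorem TO.two {φ ψ : G → ℝ} (h : TO φ ψ) (u v u' v' : G) :
    ∑ σ, φ (u * σ * v) * ψ (u' * σ * v') = 0 := by
  rw [← h (u' * u⁻¹) (v⁻¹ * v'), ← sum_shift (fun σ => φ σ * ψ (u' * u⁻¹ * σ * (v⁻¹ * v'))) u v]
  refine sum_congr rfl fun σ _ => ?_
  congr 2
  group

theorem TO.symm {φ ψ : G → ℝ} (h : TO φ ψ) : TO ψ φ := fun u v => by
  rw [← h.two u v 1 1]
  exact sum_congr rfl fun σ _ => by rw [one_mul, mul_one, mul_comm]

/-- the class function attached to `φ` -/
def Z (φ : G → ℝ) (k : G) : ℝ := ∑ g, ∑ σ, φ (g⁻¹ * k * (g * σ)) * φ σ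

theorem Z_conj (φ : G → ℝ) {k k' : G} (h : IsConj k k') : Z φ k = Z φ k' := by
  obtain ⟨c, rfl⟩ := isConj_iff.1 h
  refine Fintype.sum_equiv (Equiv.mulLeft c) _ _ fun g => sum_congr rfl fun σ _ => ?_
  congr 2
  simp only [Equiv.coe_mulLeft]
  group

theorem Z_one {φ : G → ℝ} (h : φ ≠ 0) : Z φ 1 ≠ 0 := by
  obtain ⟨σ, hσ⟩ := Function.ne_iff.1 h
  have e : ∀ g σ : G, g⁻¹ * 1 * (g * σ) = σ := fun g σ => by group
  simp only [Z, e]
  refine (sum_pos (fun g _ => ?_) univ_nonempty).ne'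
  exact sum_pos' (fun σ _ => mul_self_nonneg _) ⟨σ, mem_univ _, mul_self_pos.2 hσ⟩

theorem Z_orth {φ ψ : G → ℝ} (h : TO φ ψ) : ∑ k, Z φ k * Z ψ k = 0 := by
  simp only [Z, sum_mul_sum]
  rw [sum_comm]
  refine sum_eq_zero fun g _ => ?_
  rw [sum_comm]
  refine sum_eq_zero fun g' _ => ?_
  rw [sum_comm]
  refine sum_eq_zero fun σ _ => ?_
  rw [sum_comm]
  refine sum_eq_zero fun σ' _ => ?_
  have := h.two g⁻¹ (g * σ) g'⁻¹ (g' * σ')
  calc _ = (φ σ * ψ σ') * ∑ k, φ (g⁻¹ * k * (g * σ)) * ψ (g'⁻¹ * k * (g' * σ')) := by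
        rw [mul_sum]; exact sum_congr rfl fun k _ => by ring
    _ = 0 := by rw [this, mul_zero]

theorem card_le {ι P : Type} [Fintype ι] [Fintype P] (π : G → P)
    (hπ : ∀ a b, π a = π b → IsConj a b) (φ : ι → G → ℝ) (h0 : ∀ i, φ i ≠ 0)
    (h : ∀ i j, i ≠ j → TO (φ i) (φ j)) : Fintype.card ι ≤ Fintype.card P := by
  classical
  let Y : ι → P → ℝ := fun i p => if hp : ∃ k, π k = p then Z (φ i) hp.choose else 0
  have hY : ∀ i k, Y i (π k) = Z (φ i) k := fun i k => by
    have hp : ∃ k', π k' = π k := ⟨k, rfl⟩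
    simp only [Y, dif_pos hp]
    exact Z_conj _ (hπ _ _ hp.choose_spec)
  have hli : LinearIndependent ℝ Y := by
    refine Fintype.linearIndependent_iff.2 fun a ha j => ?_
    have h1 : ∀ k, ∑ i, a i * Z (φ i) k = 0 := fun k => by
      have := congrFun ha (π k)
      simpa [Finset.sum_apply, hY] using this
    have h2 : ∑ i, a i * ∑ k, Z (φ i) k * Z (φ j) k = 0 := by
      simp only [mul_sum, ← mul_assoc]
      rw [sum_comm]
      exact sum_eq_zero fun k _ => by rw [← sum_mul, h1, zero_mul]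
    rw [sum_eq_single j (fun i _ hij => by rw [Z_orth (h i j hij), mul_zero]) (by simp)] at h2
    refine (mul_eq_zero.1 h2).resolve_right (ne_of_gt ?_)
    exact sum_pos' (fun k _ => mul_self_nonneg _) ⟨1, mem_univ _, mul_self_pos.2 (Z_one (h0 j))⟩
  simpa using hli.fintype_card_le_finrank

end Group

variable {Ω : Type} [Fintype Ω] [DecidableEq Ω]

omit [DecidableEq Ω] in
theorem card_comp (b : Ω → ℕ) (σ : Perm Ω) (k : ℕ) :
    (univ.filter fun x => (b ∘ σ) x < k).card = (univ.filter fun x => b x < k).card :=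
  Finset.card_equiv σ (by simp)

theorem sum_eq_zero_of_not_dom {μ : ℕ → ℕ} {c r : Ω → ℕ} (h : IsTab μ c r) (a b : Ω → ℕ)
    (Φ : (Ω → ℕ) → ℝ) {k : ℕ} (hk : psum μ k < (univ.filter fun x => b x < k).card) :
    ∑ σ : Perm Ω, (eps c r (a ∘ σ) : ℝ) * Φ (b ∘ σ) = 0 := by
  have ex : ∀ w : Ω → ℕ, ∃ t : Perm Ω, psum μ k < (univ.filter fun x => w x < k).card →
      w ∘ t = w ∧ (∀ y, c (t y) = c y) ∧ Perm.sign t = -1 ∧ t * t = 1 := by
    intro w
    by_cases hw : ∀ x y, c x = c y → w x = w y → x = y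
    · exact ⟨1, fun hlt => absurd (h.card_lt_le w hw k) (not_le.2 hlt)⟩
    · push Not at hw
      obtain ⟨x, y, h1, h2, h3⟩ := hw
      exact ⟨swap x y, fun _ => ⟨funext fun z => apply_swap_eq_self h2 z,
        fun z => apply_swap_eq_self h1 z, Perm.sign_swap h3, swap_mul_self x y⟩⟩
  choose t ht using ex
  have ht' := fun σ : Perm Ω => ht (b ∘ σ) (by rwa [card_comp])
  have e1 : ∀ σ : Perm Ω, b ∘ ⇑(σ * t (b ∘ σ)) = b ∘ σ := fun σ => (ht' σ).1
  refine sum_involution (fun σ _ => σ * t (b ∘ σ)) (fun σ _ => ?_) (fun σ _ _ e => ?_)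
    (fun σ _ => mem_univ _) (fun σ _ => ?_)
  · have e2 : eps c r (a ∘ ⇑(σ * t (b ∘ σ))) = -eps c r (a ∘ σ) := by
      have := eps_comp_col c r (a ∘ σ) _ (ht' σ).2.1
      rw [(ht' σ).2.2.1] at this
      exact this.trans (by simp)
    rw [e1, e2]
    push_cast
    ring
  · have h1 := (ht' σ).2.2.1
    rw [mul_eq_left.1 e] at h1
    simp at h1
  · simp only [e1]
    rw [mul_assoc, (ht' σ).2.2.2, mul_one]

theorem TO_of_lt {μ μ' : ℕ → ℕ} {c r c' r' : Ω → ℕ} (h : IsTab μ c r) (h' : IsTab μ' c' r')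
    {k : ℕ} (hk : psum μ k < psum μ' k) :
    TO (fun σ : Perm Ω => (eps c r (r ∘ σ) : ℝ)) fun σ => (eps c' r' (r' ∘ σ) : ℝ) := fun u v =>
  sum_eq_zero_of_not_dom h r (r' ∘ u) (fun w => (eps c' r' (w ∘ v) : ℝ)) (k := k)
    (by rwa [card_comp, h'.toIsGrid.card_row_lt])

theorem TO_of_ne {μ μ' : ℕ → ℕ} {c r c' r' : Ω → ℕ} (h : IsTab μ c r) (h' : IsTab μ' c' r')
    (hne : μ ≠ μ') :
    TO (fun σ : Perm Ω => (eps c r (r ∘ σ) : ℝ)) fun σ => (eps c' r' (r' ∘ σ) : ℝ) := by
  have : ∃ k, psum μ k ≠ psum μ' k := by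
    by_contra hn
    push Not at hn
    refine hne (funext fun i => ?_)
    have h1 := hn (i + 1)
    rw [psum_succ, psum_succ, hn i] at h1
    exact Nat.add_left_cancel h1
  obtain ⟨k, hk⟩ := this
  rcases lt_or_gt_of_ne hk with hk | hk
  · exact TO_of_lt h h' hk
  · exact (TO_of_lt h' h hk).symm

theorem toF_inj {l l' : List ℕ} (h : ∀ x ∈ l, 0 < x) (h' : ∀ x ∈ l', 0 < x)
    (e : toF l = toF l') : l = l' := by
  induction l generalizing l' with
  | nil =>
    cases l' with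
    | nil => rfl
    | cons b l' =>
      have h1 := congrFun e 0
      have h2 := h' b (by simp)
      simp [toF] at h1
      omega
  | cons a l ih =>
    cases l' with
    | nil =>
      have h1 := congrFun e 0
      have h2 := h a (by simp)
      simp [toF] at h1
      omega
    | cons b l' =>
      have h1 : a = b := by simpa [toF] using congrFun e 0
      rw [h1, ih (l' := l') (fun x hx => h x (by simp [hx])) (fun x hx => h' x (by simp [hx]))
        (funext fun i => by simpa [toF] using congrFun e (i + 1))]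

end Complete

variable {Ω : Type} [Fintype Ω] [DecidableEq Ω]

open Complete in
theorem complete (f : Perm Ω → ℝ) (hf : f ≠ 0) : ∃ μ, Sees μ f := by
  by_contra hn
  have hn' : ∀ (μ : ℕ → ℕ) (c r a : Ω → ℕ), IsTab μ c r →
      ∑ σ : Perm Ω, f σ * (eps c r (a ∘ σ) : ℝ) = 0 := fun μ c r a h =>
    by_contra fun e => hn ⟨μ, c, r, a, h, e⟩
  let μ : Nat.Partition (Fintype.card Ω) → ℕ → ℕ := fun p => toF (p.parts.sort (· ≥ ·))
  have hμ : ∀ p, IsPart (Fintype.card Ω) (μ p) := fun p => by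
    have h1 := isPart_toF (p.parts.pairwise_sort (· ≥ ·))
    rwa [← Multiset.sum_coe, Multiset.sort_eq, p.parts_sum] at h1
  have hinj : ∀ p p', μ p = μ p' → p = p' := fun p p' e => by
    have h1 := toF_inj (fun x hx => p.parts_pos ((Multiset.mem_sort _).1 hx))
      (fun x hx => p'.parts_pos ((Multiset.mem_sort _).1 hx)) e
    ext1
    rw [← p.parts.sort_eq (· ≥ ·), h1, Multiset.sort_eq]
  choose c r hT using fun p => exists_tab (hμ p)
  have hfT : ∀ p, TO f fun σ => (eps (c p) (r p) (r p ∘ σ) : ℝ) := fun p u v => by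
    rw [← hn' _ _ _ (r p ∘ u) ((hT p).comp_equiv v⁻¹)]
    refine sum_congr rfl fun σ _ => ?_
    rw [← eps_comp_equiv (c p ∘ ⇑v⁻¹) (r p ∘ ⇑v⁻¹) _ v]
    have e : ∀ w : Ω → ℕ, (w ∘ ⇑v⁻¹) ∘ ⇑v = w := fun w => funext fun x => by simp
    rw [e, e]
    rfl
  have := card_le (ι := Option (Nat.Partition (Fintype.card Ω))) Perm.partition
    (fun a b e => Perm.partition_eq_of_isConj.2 e)
    (fun o => o.elim f fun p σ => (eps (c p) (r p) (r p ∘ σ) : ℝ)) (fun o => by
      cases o with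
      | none => exact hf
      | some p =>
        refine Function.ne_iff.2 ⟨1, ?_⟩
        simp [eps_self (hT p).inj]) (fun o o' hne => by
      cases o with
      | none =>
        cases o' with
        | none => exact absurd rfl hne
        | some p => exact hfT p
      | some p =>
        cases o' with
        | none => exact (hfT p).symm
        | some p' => exact TO_of_ne (hT p) (hT p') fun e => hne (congrArg some (hinj p p' e)))
  simp at this

end Crest.Agent.R195
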