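import Crest.Agent.R195.Kron

/-! Row 195: the path configuration generates the square of `(L, L-1)` (Garnir relations). -/

set_option autoImplicit false
open Finset Equiv

namespace Crest.Agent.R195

variable {Z : Type} [Fintype Z] [DecidableEq Z]

theorem path_eps3 {c r a : Z → ℕ} {x y y' : Z} (h1 : x ≠ y) (h2 : x ≠ y') (h3 : y ≠ y')
    (hx : c x ≠ c y) (hy : c y' = c y) :
    eps (fun p : {p // p = x ∨ p = y ∨ p = y'} => c p) (fun p => r p) (fun p => a p) =
      (if a x = r x then 1 else 0) *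
        ((if a y = r y then 1 else 0) * (if a y' = r y' then 1 else 0) -
          (if a y = r y' then 1 else 0) * (if a y' = r y then 1 else 0)) := by
  let f : Fin 3 → {p // p = x ∨ p = y ∨ p = y'} :=
    ![⟨x, Or.inl rfl⟩, ⟨y, Or.inr (Or.inl rfl)⟩, ⟨y', Or.inr (Or.inr rfl)⟩]
  have hf : Function.Bijective f := by
    constructor
    · intro i j hij
      fin_cases i <;> fin_cases j <;> simp_all [f, h1.symm, h2.symm, h3.symm]
    · rintro ⟨p, rfl | rfl | rfl⟩
      exacts [⟨0, rfl⟩, ⟨1, rfl⟩, ⟨2, rfl⟩]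
  rw [← eps_comp_equiv _ _ _ (Equiv.ofBijective f hf), eps, Matrix.det_fin_three]
  simp only [Matrix.of_apply, Function.comp_apply, Equiv.ofBijective_apply, f,
    Matrix.cons_val_zero, Matrix.cons_val_one, Matrix.cons_val, hy, hx, hx.symm, false_and,
    if_false, true_and]
  ring

theorem path_garnir {c r : Z → ℕ} (a : Z → ℕ) {x y y' : Z} (h1 : x ≠ y) (h2 : x ≠ y')
    (h3 : y ≠ y') (hs : ∀ p, c p = c x → p = x) (hc : ∀ p, c p = c y → p = y ∨ p = y')
    (hy : c y' = c y) (hr : r x = 0) (hr' : (r y = 0 ∧ r y' = 1) ∨ (r y = 1 ∧ r y' = 0)) :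
    eps c r a = eps c r (a ∘ swap x y) + eps c r (a ∘ swap x y') := by
  have hx : c x ≠ c y := fun e => h1 (hs y e.symm).symm
  have sp : ∀ b : Z → ℕ, ∀ p q, c p = c q → b p = r q → (q = x ∨ q = y ∨ q = y') →
      (p = x ∨ p = y ∨ p = y') := by
    rintro b p q e - (rfl | rfl | rfl)
    · exact Or.inl (hs p e)
    · exact Or.inr (hc p e)
    · exact Or.inr (hc p (e.trans hy))
  have e1 : (fun p : {p // ¬ (p = x ∨ p = y ∨ p = y')} => (a ∘ swap x y) p) =
      fun p => a p.1 := by
    funext p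
    have := p.2
    simp only [not_or] at this
    simp [swap_apply_of_ne_of_ne this.1 this.2.1]
  have e2 : (fun p : {p // ¬ (p = x ∨ p = y ∨ p = y')} => (a ∘ swap x y') p) =
      fun p => a p.1 := by
    funext p
    have := p.2
    simp only [not_or] at this
    simp [swap_apply_of_ne_of_ne this.1 this.2.2]
  rw [eps_split c r a _ (sp a), eps_split c r _ _ (sp (a ∘ swap x y)),
    eps_split c r _ _ (sp (a ∘ swap x y')), e1, e2, ← add_mul, path_eps3 h1 h2 h3 hx hy,
    path_eps3 h1 h2 h3 hx hy, path_eps3 h1 h2 h3 hx hy]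
  congr 1
  simp only [Function.comp_apply, swap_apply_left, swap_apply_right,
    swap_apply_of_ne_of_ne h2.symm h3.symm, swap_apply_of_ne_of_ne h1.symm h3, hr]
  rcases hr' with ⟨a1, a2⟩ | ⟨a1, a2⟩ <;> rw [a1, a2] <;> ring

omit [Fintype Z] [DecidableEq Z] in
theorem path_mem {L : ℕ} {c r : Z → ℕ} (h : IsTab (two L) c r) (x : Z) :
    (r x = 0 ∧ c x < L) ∨ (r x = 1 ∧ c x + 1 < L) := by
  have := h.mem x
  unfold two at this
  split_ifs at this <;> omega

omit [Fintype Z] [DecidableEq Z] in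
theorem path_two {L : ℕ} {c r : Z → ℕ} (h : IsTab (two L) c r) {x y w : Z} (h1 : c y = c x)
    (h2 : c w = c x) (h3 : y ≠ x) (h4 : w ≠ x) : y = w := by
  have a := path_mem h x
  have b := path_mem h y
  have d := path_mem h w
  have e1 : r y ≠ r x := fun e => h3 (h.inj _ _ e h1)
  have e2 : r w ≠ r x := fun e => h4 (h.inj _ _ e h2)
  exact h.inj _ _ (by omega) (by omega)

omit [Fintype Z] [DecidableEq Z] in
theorem path_partner {L : ℕ} {c r : Z → ℕ} (h : IsTab (two L) c r) {x : Z} (hx : c x + 1 < L) :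
    ∃ y, y ≠ x ∧ c y = c x := by
  have a := path_mem h x
  obtain ⟨y, h1, h2⟩ := h.surj (1 - r x) (c x) (by unfold two; split_ifs <;> omega)
  exact ⟨y, by rintro rfl; omega, h2⟩

omit [Fintype Z] [DecidableEq Z] in
theorem path_swapcols {L : ℕ} {c r : Z → ℕ} (h : IsTab (two L) c r) {w y : Z} (hw : c w + 1 < L)
    (hy : c y + 1 < L) : ∃ π : Perm Z, π w = y ∧ (∀ a b, c (π a) = c (π b) ↔ c a = c b) ∧
      ∀ a, c a ≠ c w → c a ≠ c y → π a = a := by
  have mw := path_mem h w
  have my := path_mem h y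
  let F : ℕ → ℕ → ℕ := fun i j => if (j = c w ∨ j = c y) ∧ r w ≠ r y then 1 - i else i
  have hg : IsGrid (two L) (fun a => swap (c w) (c y) (c a)) fun a => F (r a) (c a) := by
    refine ⟨fun a b h1 h2 => ?_, fun a => ?_, fun i j hij => ?_⟩
    · have e := (swap (c w) (c y)).injective h2
      have ma := path_mem h a
      have mb := path_mem h b
      refine h.inj a b ?_ e
      simp only [F, e] at h1
      split_ifs at h1 <;> omega
    · have ma := path_mem h a
      simp only [F, two, swap_apply_def]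
      split_ifs <;> omega
    · obtain ⟨a, h1, h2⟩ := h.surj (F i j) (swap (c w) (c y) j) (by
        simp only [F, two, swap_apply_def] at hij ⊢
        split_ifs at hij ⊢ <;> omega)
      refine ⟨a, ?_, by simp [h2]⟩
      simp only [h1, h2, F, two, swap_apply_def] at hij ⊢
      split_ifs at hij ⊢ <;> omega
  obtain ⟨e, e1, e2⟩ := hg.exists_equiv h.toIsGrid
  refine ⟨e, h.inj _ _ ?_ (by simp [e1]), fun a b => ?_, fun a a1 a2 => h.inj _ _ ?_ ?_⟩
  · rw [e2]
    by_cases hr : r w = r y
    · simp [F, hr]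
    · simp only [F, true_or, ne_eq, hr, not_false_eq_true, and_self, if_true]
      omega
  · rw [e1, e1, (swap (c w) (c y)).injective.eq_iff]
  · rw [e2]
    simp [F, a1, a2]
  · rw [e1, swap_apply_of_ne_of_ne a1 a2]

/-- The first tableau together with the fixed second tableau kills all translates. -/
def PathKill (c2 r : Z → ℕ) (z : Perm Z → ℝ) (d r1 : Z → ℕ) : Prop :=
  ∀ (a1 a2 : Z → ℕ) (g : Perm Z),
    ∑ σ : Perm Z, ((eps d r1 (a1 ∘ σ) * eps c2 r (a2 ∘ σ) : ℤ) : ℝ) * z (σ * g) = 0

theorem PathKill.of_comp {L : ℕ} {c2 r d r1 : Z → ℕ} {z : Perm Z → ℝ} (h2 : IsTab (two L) c2 r)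
    (π : Perm Z) (hπ : ∀ a b, c2 (π a) = c2 (π b) ↔ c2 a = c2 b)
    (h : PathKill c2 r z (d ∘ π) (r1 ∘ π)) : PathKill c2 r z d r1 := by
  intro a1 a2 g
  obtain ⟨s, -, hs⟩ := h2.eps_same_cols (h2.comp_equiv π) hπ
  have := h a1 a2 (π⁻¹ * g)
  rw [← Equiv.sum_comp (Equiv.mulRight π)] at this
  calc _ = (s : ℝ) * ∑ σ : Perm Z, ((eps (d ∘ π) (r1 ∘ π) (a1 ∘ (Equiv.mulRight π σ)) *
        eps c2 r (a2 ∘ (Equiv.mulRight π σ)) : ℤ) : ℝ) * z (Equiv.mulRight π σ * (π⁻¹ * g)) := by
        rw [mul_sum]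
        refine sum_congr rfl fun σ _ => ?_
        rw [← eps_comp_equiv d r1 _ π, ← eps_comp_equiv c2 r (a2 ∘ σ) π, hs]
        simp only [Equiv.coe_mulRight, Perm.coe_mul, mul_assoc, mul_inv_cancel_left,
          Function.comp_assoc]
        push_cast
        ring
    _ = 0 := by rw [this, mul_zero]

theorem path_kill {L : ℕ} {c1 c2 r : Z → ℕ} (h1 : IsTab (two L) c1 r) (h2 : IsTab (two L) c2 r)
    (hc : ∀ x, c1 x + c2 x + 1 = two L (r x)) {z : Perm Z → ℝ} (hz : PathKill c2 r z c1 r)
    (t : ℕ) : ∀ j, j + t + 1 = L → ∀ d r1 : Z → ℕ, IsTab (two L) d r1 →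
      (∀ x y, c1 x = c1 y → c1 x < j → d x = d y) → PathKill c2 r z d r1 := by
  induction t with
  | zero =>
    intro j hj d r1 k hd
    have key : ∀ x y, d x = d y → x ≠ y → c1 x < j → c1 x = c1 y := by
      intro x y e hne hx
      obtain ⟨x', a1, a2⟩ := path_partner h1 (x := x) (by omega)
      rw [← path_two k (hd x x' a2.symm hx).symm e.symm a1 hne.symm, a2]
    have top : ∀ x y, ¬ c1 x < j → ¬ c1 y < j → x = y := by
      intro x y a b
      have := path_mem h1 x
      have := path_mem h1 y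
      exact h1.inj _ _ (by omega) (by omega)
    obtain ⟨s, -, hs⟩ := h1.eps_same_cols k fun x y => ⟨fun e => by
      by_cases hne : x = y
      · rw [hne]
      by_cases a : c1 x < j
      · exact key x y e hne a
      by_cases b : c1 y < j
      · exact (key y x e.symm (Ne.symm hne) b).symm
      · exact absurd (top x y a b) hne, fun e => by
      by_cases a : c1 x < j
      · exact hd x y e a
      · rw [top x y a (e ▸ a)]⟩
    intro a1 a2 g
    calc _ = (s : ℝ) * ∑ σ : Perm Z, ((eps c1 r (a1 ∘ σ) * eps c2 r (a2 ∘ σ) : ℤ) : ℝ) *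
          z (σ * g) := by
          rw [mul_sum]
          refine sum_congr rfl fun σ _ => ?_
          rw [hs]
          push_cast
          ring
      _ = 0 := by rw [hz, mul_zero]
  | succ t ih =>
    intro j hj
    obtain ⟨x, rx, cx⟩ := h1.surj 0 j (by simp [two]; omega)
    obtain ⟨w, rw', cw⟩ := h1.surj 1 j (by simp [two]; omega)
    have hwx : w ≠ x := by
      rintro rfl
      omega
    have val : ∀ a, (r a = 0 ∧ c1 a + c2 a + 1 = L) ∨ (r a = 1 ∧ c1 a + c2 a + 2 = L) := by
      intro a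
      have := hc a
      unfold two at this
      split_ifs at this <;> omega
    have late : ∀ d r1 : Z → ℕ, IsTab (two L) d r1 →
        (∀ x y, c1 x = c1 y → c1 x < j → d x = d y) → ∀ a b, b ≠ a → d b = d a → j ≤ c1 a →
          j ≤ c1 b := by
      intro d r1 k hd a b hne e ha
      by_contra hb
      obtain ⟨b', a1, a2⟩ := path_partner h1 (x := b) (by omega)
      have := path_two k (hd b b' a2.symm (by omega)).symm e.symm a1 hne.symm
      rw [this] at a2
      omega
    have caseA : ∀ d r1 : Z → ℕ, IsTab (two L) d r1 →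
        (∀ x y, c1 x = c1 y → c1 x < j → d x = d y) → ∀ y, y ≠ x → d y = d x →
          PathKill c2 r z d r1 := by
      intro d r1 k hd y hy e
      have hl := late d r1 k hd x y hy e cx.ge
      have hy2 : c2 y + j + 2 ≤ L := by
        have : ¬ (r y = 0 ∧ c1 y = j) := fun h => hy (h1.inj _ _ (by omega) (by omega))
        have := val y
        omega
      have hw2 : c2 w + j + 2 ≤ L := by
        have := val w
        omega
      obtain ⟨π, p1, p2, p3⟩ := path_swapcols h2 (w := w) (y := y) (by omega) (by omega)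
      have fix : ∀ a, c1 a < j ∨ a = x → π a = a := by
        intro a ha
        have := val a
        have : L < c2 a + j + 2 := by
          rcases ha with ha | rfl <;> omega
        exact p3 a (by omega) (by omega)
      refine PathKill.of_comp h2 π p2 (ih (j + 1) (by omega) _ _ (k.comp_equiv π) ?_)
      intro a b e' ha
      simp only [Function.comp_apply]
      rcases Nat.lt_succ_iff_lt_or_eq.1 ha with ha | ha
      · rw [fix a (Or.inl ha), fix b (Or.inl (e' ▸ ha)), hd a b e' ha]
      · have two' : ∀ p, c1 p = j → d (π p) = d x := by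
          intro p hp
          by_cases hpx : p = x
          · rw [hpx, fix x (Or.inr rfl)]
          · rw [path_two h1 (hp.trans cx.symm) (cw.trans cx.symm) hpx hwx, p1, e]
        rw [two' a ha, two' b (e' ▸ ha)]
    intro d r1 k hd
    by_cases hs : ∃ y, y ≠ x ∧ d y = d x
    · obtain ⟨y, a, b⟩ := hs
      exact caseA d r1 k hd y a b
    have hs' : ∀ p, d p = d x → p = x := fun p e => by_contra fun hne => hs ⟨p, hne, e⟩
    have mx := path_mem k x
    have mw := path_mem k w
    have dx : ¬ d x + 1 < L := fun h => hs (path_partner k h)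
    have dw : d w ≠ d x := fun e => hwx (hs' w e)
    obtain ⟨w', n1, n2⟩ := path_partner k (x := w) (by omega)
    have mw' := path_mem k w'
    have n3 : x ≠ w' := by
      rintro rfl
      exact dw n2.symm
    have n4 : r1 w' ≠ r1 w := fun e => n1 (k.inj _ _ e n2)
    have lw' := late d r1 k hd w w' n1 n2 cw.ge
    have sw : ∀ y, j ≤ c1 y → ∀ a b, c1 a = c1 b → c1 a < j →
        (d ∘ swap x y) a = (d ∘ swap x y) b := by
      intro y hy a b e ha
      have f : ∀ p, c1 p < j → swap x y p = p := fun p hp =>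
        swap_apply_of_ne_of_ne (by rintro rfl; omega) (by rintro rfl; omega)
      simp only [Function.comp_apply, f a ha, f b (e ▸ ha), hd a b e ha]
    have k1 := caseA _ _ (k.comp_equiv (swap x w)) (sw w cw.ge) w' n3.symm (by
      simp [swap_apply_of_ne_of_ne n3.symm n1, n2])
    have k2 := caseA _ _ (k.comp_equiv (swap x w')) (sw w' lw') w hwx (by
      simp [swap_apply_of_ne_of_ne hwx n1.symm, n2])
    have tr : ∀ (y : Z) (a : Z → ℕ), eps d r1 (a ∘ swap x y) =
        eps (d ∘ swap x y) (r1 ∘ swap x y) a := by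
      intro y a
      rw [← eps_comp_equiv d r1 _ (swap x y)]
      congr 1
      funext p
      simp
    intro a1 a2 g
    have := congrArg₂ (· + ·) (k1 a1 a2 g) (k2 a1 a2 g)
    simp only [add_zero, ← sum_add_distrib] at this
    rw [← this]
    refine sum_congr rfl fun σ _ => ?_
    rw [path_garnir (c := d) (r := r1) (a1 ∘ σ) hwx.symm n3 n1.symm hs'
      (fun p e => by
        by_cases hp : p = w
        · exact Or.inl hp
        · exact Or.inr (path_two k e n2 hp n1)) n2 (by omega) (by omega), tr, tr]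
    push_cast
    ring

theorem path_span {L : ℕ} {c1 c2 r : Z → ℕ} (h1 : IsTab (two L) c1 r) (h2 : IsTab (two L) c2 r)
    (hc : ∀ x, c1 x + c2 x + 1 = two L (r x)) (z : Perm Z → ℝ)
    (hz : ∀ (a1 a2 : Z → ℕ) (g : Perm Z),
      ∑ σ : Perm Z, ((eps c1 r (a1 ∘ σ) * eps c2 r (a2 ∘ σ) : ℤ) : ℝ) * z (σ * g) = 0)
    {d1 r1 d2 r2 : Z → ℕ} (k1 : IsTab (two L) d1 r1) (k2 : IsTab (two L) d2 r2) (a1 a2 : Z → ℕ) :
    ∑ σ : Perm Z, ((eps d1 r1 (a1 ∘ σ) * eps d2 r2 (a2 ∘ σ) : ℤ) : ℝ) * z σ = 0 := by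
  have kill : ∀ d r' : Z → ℕ, IsTab (two L) d r' → PathKill c2 r z d r' := by
    intro d r' k
    cases L with
    | zero =>
      have e : ∀ f g : Z → ℕ, f = g := fun f g => funext fun x => by
        have := path_mem k x
        omega
      rw [e d c1, e r' r]
      exact hz
    | succ L => exact path_kill h1 h2 hc hz L 0 (by omega) d r' k fun _ _ _ h => by omega
  obtain ⟨e, e1, e2⟩ := k2.toIsGrid.exists_equiv h2.toIsGrid
  have := kill _ _ (k1.comp_equiv e.symm) a1 a2 e
  rw [← Equiv.sum_comp (Equiv.mulRight (e : Perm Z)⁻¹)] at this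
  rw [← this]
  refine sum_congr rfl fun σ _ => ?_
  have q1 : d2 = c2 ∘ e := funext fun x => (e1 x).symm
  have q2 : r2 = r ∘ e := funext fun x => (e2 x).symm
  rw [← eps_comp_equiv d1 r1 _ e.symm, ← eps_comp_equiv c2 r _ e, ← q1, ← q2]
  simp only [Equiv.coe_mulRight, inv_mul_cancel_right]
  congr 3
  congr 1
  funext x
  simp

end Crest.Agent.R195
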