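import Crest.Agent.R195.Rich
import Crest.Agent.R195.Path
import Crest.Agent.R195.Complete

/-! Row 195: the pair step of Theorem B. -/

set_option autoImplicit false
open Finset Equiv

namespace Crest.Agent.R195

variable {Z : Type} [Fintype Z] [DecidableEq Z]

omit [Fintype Z] [DecidableEq Z] in
theorem pairStep_row_lt {L : ℕ} {c r : Z → ℕ} (h : IsTab (two L) c r) (x : Z) : r x < 2 := by
  have h1 := h.mem x
  by_contra hx
  have h2 : r x ≠ 0 := by omega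
  have h3 : r x ≠ 1 := by omega
  simp [two, h2, h3] at h1

/-- If two cells of a column always get the same colour, an invariant function is orthogonal to
the polytabloid coefficients. -/
theorem pairStep_zero {K : Type} [DecidableEq K] {p : Z → K} {f : Perm Z → ℝ} (hp : LInv p f)
    (c r a : Z → ℕ) (h : ∀ σ : Perm Z, ∃ x y, x ≠ y ∧ c x = c y ∧ p (σ x) = p (σ y)) :
    ∑ σ : Perm Z, f σ * (eps c r (a ∘ σ) : ℝ) = 0 := by
  have hE : ∀ σ : Perm Z, ∑ τ ∈ stab p, (eps c r (a ∘ (τ * σ : Perm Z)) : ℝ) = 0 := by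
    intro σ
    obtain ⟨x, y, hxy, hc, hpp⟩ := h σ
    refine Finset.sum_involution (fun τ _ => τ * swap (σ x) (σ y)) (fun τ _ => ?_)
      (fun τ _ _ hτ => ?_) (fun τ hτ => ?_) (fun τ _ => by rw [mul_assoc, swap_mul_self, mul_one])
    · have e : τ * swap (σ x) (σ y) * σ = τ * σ * swap x y := by
        rw [mul_assoc, mul_assoc, mul_swap_eq_swap_mul]
      have h1 := eps_comp_col c r (a ∘ (τ * σ : Perm Z)) (swap x y) fun z => by
        rw [swap_apply_def]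
        split_ifs with h1 h2
        · rw [h1, hc]
        · rw [h2, hc]
        · rfl
      rw [Perm.sign_swap hxy] at h1
      have h2 : eps c r (a ∘ (τ * σ * swap x y : Perm Z)) = -eps c r (a ∘ (τ * σ : Perm Z)) :=
        h1.trans (by simp)
      rw [e, h2]
      simp
    · have h1 : swap (σ x) (σ y) = 1 := mul_eq_left.1 hτ
      exact hxy (σ.injective (swap_eq_one_iff.1 h1))
    · rw [mem_stab] at hτ ⊢
      intro z
      rw [Perm.mul_apply, hτ, swap_apply_def]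
      split_ifs with h1 h2
      · rw [h1, hpp]
      · rw [h2, hpp]
      · rfl
  have h1 : ∀ τ ∈ stab p, ∑ σ : Perm Z, f σ * (eps c r (a ∘ (τ * σ : Perm Z)) : ℝ) =
      ∑ σ : Perm Z, f σ * (eps c r (a ∘ σ) : ℝ) := by
    intro τ hτ
    rw [← Equiv.sum_comp (Equiv.mulLeft τ) fun σ : Perm Z => f σ * (eps c r (a ∘ σ) : ℝ)]
    refine Finset.sum_congr rfl fun σ _ => ?_
    rw [Equiv.coe_mulLeft, hp.perm τ (mem_stab.1 hτ)]
  have h2 : ∑ τ ∈ stab p, ∑ σ : Perm Z, f σ * (eps c r (a ∘ (τ * σ : Perm Z)) : ℝ) = 0 := by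
    rw [Finset.sum_comm]
    refine Finset.sum_eq_zero fun σ _ => ?_
    rw [← Finset.mul_sum, hE, mul_zero]
  rw [Finset.sum_congr rfl h1, Finset.sum_const, nsmul_eq_mul] at h2
  refine (mul_eq_zero.1 h2).resolve_left ?_
  exact_mod_cast (Finset.card_pos.2 ⟨1, one_mem_stab p⟩).ne'

theorem pairStep_lt {c r b : Z → ℕ} (hr : ∀ x, r x < 2) {σ : Perm Z}
    (h : eps c r (b ∘ σ) ≠ 0) (x : Z) : b x < 2 := by
  obtain ⟨γ, -, hγ⟩ := exists_of_eps_ne h
  have := hγ (γ.symm (σ.symm x))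
  simp only [Function.comp_apply, apply_symm_apply] at this
  rw [this]
  exact hr _

theorem pairStep {L : ℕ} (hL : 1 ≤ L) {c1 c2 r : Z → ℕ} (h1 : IsTab (two L) c1 r)
    (h2 : IsTab (two L) c2 r) (hc : ∀ x, c1 x + c2 x + 1 = two L (r x))
    (f : Perm Z → ℝ) (hf : f ≠ 0) (hp : LInv (fun x => (r x, c1 x % 2)) f) :
    ∃ b1 b2 : Z → ℕ, (∀ x, b1 x < 2) ∧ (∀ x, b2 x < 2) ∧ ∃ h0 : Perm Z,
      ∑ h : Perm Z, ((eps c1 r (b1 ∘ h) * eps c2 r (b2 ∘ h) : ℤ) : ℝ) * f (h * h0) ≠ 0 := by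
  obtain ⟨κ, hS⟩ := complete f hf
  have hr := pairStep_row_lt h1
  have hcard : Fintype.card Z = 2 * L - 1 := by
    refine h1.isPart.unique (isPart_of h1.anti (N := 2) (by simp [two]) ?_)
    simp [psum, Finset.sum_range_succ, two]
    omega
  obtain ⟨hκ, h4⟩ : IsPart (2 * L - 1) κ ∧ κ 4 = 0 := by
    obtain ⟨c3, r3, a, h3, hne⟩ := hS
    refine ⟨hcard ▸ h3.isPart, ?_⟩
    by_contra h4
    refine hne (pairStep_zero hp c3 r3 a fun σ => ?_)
    have hx : ∀ i : Fin 5, ∃ x, r3 x = i ∧ c3 x = 0 := fun i =>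
      h3.surj i 0 ((Nat.pos_of_ne_zero h4).trans_le (h3.anti (by omega)))
    choose x hxr hxc using hx
    obtain ⟨i, j, hij, he⟩ := Fintype.exists_ne_map_eq_of_card_lt
      (fun i : Fin 5 => ((⟨r (σ (x i)), hr _⟩, ⟨c1 (σ (x i)) % 2, Nat.mod_lt _ two_pos⟩) :
        Fin 2 × Fin 2)) (by simp)
    simp only [Prod.mk.injEq, Fin.mk.injEq] at he
    refine ⟨x i, x j, fun h => hij (Fin.ext ?_), by rw [hxc, hxc], Prod.ext he.1 he.2⟩
    rw [← hxr, ← hxr, h]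
  obtain ⟨d1, r1, a1', d2, r2, a2', c3, r3, a3, k1, k2, k3, hne⟩ :=
    (rich hL hκ h4).on h1.isPart
  have hex : ∃ (a1 a2 : Z → ℕ) (g : Perm Z),
      ∑ σ : Perm Z, ((eps c1 r (a1 ∘ σ) * eps c2 r (a2 ∘ σ) : ℤ) : ℝ) *
        (eps c3 r3 (a3 ∘ (σ * g : Perm Z)) : ℝ) ≠ 0 := by
    by_contra hn
    push Not at hn
    have := path_span h1 h2 hc (fun σ => (eps c3 r3 (a3 ∘ σ) : ℝ)) hn k1 k2 a1' a2'
    exact hne (by exact_mod_cast this)
  obtain ⟨a1, a2, g, hg⟩ := hex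
  have hF : Sees κ fun σ : Perm Z => ((eps c1 r (a1 ∘ σ) * eps c2 r (a2 ∘ σ) : ℤ) : ℝ) := by
    refine ⟨c3 ∘ g.symm, r3 ∘ g.symm, a3, k3.comp_equiv g.symm, ?_⟩
    have e : ∀ σ : Perm Z, eps (c3 ∘ g.symm) (r3 ∘ g.symm) (a3 ∘ σ) =
        eps c3 r3 (a3 ∘ (σ * g : Perm Z)) := fun σ => by
      rw [← eps_comp_equiv c3 r3 _ g.symm]
      congr 1
      funext x
      simp
    simpa only [e] using hg
  obtain ⟨g', h0, hl⟩ := link hF hS
  obtain ⟨σ, -, hσ⟩ := Finset.exists_ne_zero_of_sum_ne_zero hl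
  have hσ' : eps c1 r ((a1 ∘ g') ∘ σ) * eps c2 r ((a2 ∘ g') ∘ σ) ≠ 0 := by
    have := left_ne_zero_of_mul hσ
    exact_mod_cast this
  exact ⟨a1 ∘ g', a2 ∘ g', pairStep_lt hr (left_ne_zero_of_mul hσ'),
    pairStep_lt hr (right_ne_zero_of_mul hσ'), h0, hl⟩

end Crest.Agent.R195
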