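import Crest.Agent.R195.BandE
import Crest.Agent.R195.PairStep

/-! Row 195: Theorem B, the pairs. -/

set_option autoImplicit false
open Finset Equiv

namespace Crest.Agent.R195

variable {Ω : Type} [Fintype Ω] [DecidableEq Ω] {sz : ℕ → ℕ} {s : ℕ} {c1 c2 ρ : Ω → ℕ}

namespace BandP

omit [Fintype Ω] [DecidableEq Ω] in
theorem grp_eq_iff {k i : ℕ} (hk : k < s) : grp s i = k ↔ i = k ∨ i = s + k := by
  unfold grp; split_ifs <;> omega

/-- the group of `pairOp` -/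
def InH (s k : ℕ) (ρ : Ω → ℕ) (h : Perm Ω) : Prop :=
  (∀ x, grp s (ρ (h x)) = grp s (ρ x)) ∧ ∀ x, k ≤ grp s (ρ x) → h x = x

/-- the new word -/
def nw (s k : ℕ) (ρ a : Ω → ℕ) (b : {x // grp s (ρ x) = k} → ℕ) : Ω → ℕ :=
  fun x => if h : grp s (ρ x) = k then (if b ⟨x, h⟩ = 0 then k else s + k) else a x

/-- the row function of the pair -/
def rz (s k : ℕ) (ρ : Ω → ℕ) : {x // grp s (ρ x) = k} → ℕ := fun x => if ρ x = k then 0 else 1

omit [Fintype Ω] [DecidableEq Ω] in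
theorem nw_compat {k : ℕ} (hk : k < s) {a : Ω → ℕ} (ha : Compat s ρ a)
    (b : {x // grp s (ρ x) = k} → ℕ) : Compat s ρ (nw s k ρ a b) := by
  intro x
  unfold nw
  split_ifs with h h'
  · rw [h, grp_eq_iff hk]; exact Or.inl rfl
  · rw [h, grp_eq_iff hk]; exact Or.inr rfl
  · exact ha x

omit [Fintype Ω] [DecidableEq Ω] in
theorem two_rz {k : ℕ} (hk : k < s) (hp : sz (s + k) + 1 = sz k) (x : {x // grp s (ρ x) = k}) :
    two (sz k) (rz s k ρ x) = sz (ρ x) := by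
  unfold rz two
  rcases (grp_eq_iff hk).1 x.2 with h | h
  · simp [h]
  · have : ¬ s + k = k := by omega
    simp only [h, this, if_false, one_ne_zero, if_true]; omega

omit [Fintype Ω] [DecidableEq Ω] in
theorem rz_eq {k : ℕ} (hk : k < s) {x y : {x // grp s (ρ x) = k}} (h : rz s k ρ x = rz s k ρ y) :
    ρ x = ρ y := by
  have hx := (grp_eq_iff hk).1 x.2
  have hy := (grp_eq_iff hk).1 y.2
  unfold rz at h
  split_ifs at h <;> omega

omit [Fintype Ω] [DecidableEq Ω] in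
theorem tab_rz {k : ℕ} (hk : k < s) (hp : sz (s + k) + 1 = sz k) {c : Ω → ℕ} (hg : IsGrid sz c ρ) :
    IsTab (two (sz k)) (fun x : {x // grp s (ρ x) = k} => c x) (rz s k ρ) where
  inj x y h1 h2 := Subtype.ext (hg.inj _ _ (rz_eq hk h1) h2)
  mem x := by rw [two_rz hk hp]; exact hg.mem x
  surj i j hj := by
    unfold two at hj
    split_ifs at hj with h0 h1
    · obtain ⟨x, hx, hc⟩ := hg.surj k j hj
      exact ⟨⟨x, (grp_eq_iff hk).2 (Or.inl hx)⟩, by simp [rz, hx, h0], hc⟩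
    · obtain ⟨x, hx, hc⟩ := hg.surj (s + k) j (by omega)
      have : ¬ s + k = k := by omega
      exact ⟨⟨x, (grp_eq_iff hk).2 (Or.inr hx)⟩, by simp only [rz, hx, this, if_false, h1], hc⟩
    · omega
  anti i j hij := by
    unfold two
    split_ifs <;> omega

theorem eps_nw {k : ℕ} (hk : k < s) {c a : Ω → ℕ} (hg : IsGrid sz c ρ) (ha : Compat s ρ a)
    (ha' : ∀ x, k ≤ grp s (ρ x) → a x = ρ x) (b : {x // grp s (ρ x) = k} → ℕ) (hb : ∀ x, b x < 2)
    {h1 : Perm Ω} (hh : InH s k ρ h1) (h2 : Perm {x // grp s (ρ x) = k}) :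
    eps c ρ (nw s k ρ a b ∘ ⇑(h1 * Perm.ofSubtype h2)) =
      eps (fun x : {x // grp s (ρ x) = k} => c x) (rz s k ρ) (b ∘ h2) * eps c ρ (a ∘ h1) := by
  have g2 : ∀ x, grp s (ρ (Perm.ofSubtype h2 x)) = grp s (ρ x) := fun x => by
    by_cases hx : grp s (ρ x) = k
    · rw [Perm.ofSubtype_apply_of_mem h2 hx, (h2 _).2, hx]
    · rw [Perm.ofSubtype_apply_of_not_mem h2 hx]
  rw [eps_split c ρ _ (fun x => grp s (ρ x) = k), eps_split c ρ (a ∘ h1) (fun x => grp s (ρ x) = k)]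
  · have e1 : eps (fun x : {x // grp s (ρ x) = k} => c x) (fun x => ρ x) (fun x => (a ∘ h1) x) = 1 := by
      rw [← eps_self (c := fun x : {x // grp s (ρ x) = k} => c x) (r := fun x => ρ x)
        fun x y h h' => Subtype.ext (hg.inj _ _ h h')]
      congr 1
      funext x
      rw [Function.comp, hh.2 x x.2.ge, ha' x x.2.ge]
    rw [e1, one_mul]
    congr 1
    · refine eps_congr fun x y => and_congr_right fun _ => ?_
      have e : (nw s k ρ a b ∘ ⇑(h1 * Perm.ofSubtype h2)) x = if b (h2 x) = 0 then k else s + k := by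
        rw [Function.comp, Perm.mul_apply, Perm.ofSubtype_apply_coe, hh.2 _ (h2 x).2.ge, nw,
          dif_pos (h2 x).2]
      rw [e, Function.comp, rz]
      have := hb (h2 x)
      have hy := (grp_eq_iff hk).1 y.2
      split_ifs <;> omega
    · congr 1
      funext x
      rw [Function.comp, Function.comp, Perm.mul_apply, Perm.ofSubtype_apply_of_not_mem h2 x.2, nw,
        dif_neg (by rw [hh.1]; exact x.2)]
  · intro x y _ h hy
    rw [← hh.1 x, ← ha, ← hy]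
    exact congrArg _ h
  · intro x y _ h hy
    rw [← g2 x, ← hh.1, ← nw_compat hk ha b]
    exact (congrArg _ h).trans hy

theorem sum_split (k : ℕ) (Φ : Perm Ω → ℝ) [DecidablePred (InH s k ρ)]
    [DecidablePred (InH s (k + 1) ρ)] :
    ∑ h ∈ univ.filter (InH s (k + 1) ρ), Φ h =
      ∑ h2 : Perm {x // grp s (ρ x) = k}, ∑ h1 ∈ univ.filter (InH s k ρ),
        Φ (h1 * Perm.ofSubtype h2) := by
  have g2 : ∀ (h2 : Perm {x // grp s (ρ x) = k}) x,
      grp s (ρ (Perm.ofSubtype h2 x)) = grp s (ρ x) := fun h2 x => by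
    by_cases hx : grp s (ρ x) = k
    · rw [Perm.ofSubtype_apply_of_mem h2 hx, (h2 _).2, hx]
    · rw [Perm.ofSubtype_apply_of_not_mem h2 hx]
  rw [← sum_product']
  symm
  refine sum_bij (fun p _ => p.2 * Perm.ofSubtype p.1) ?_ ?_ ?_ fun _ _ => rfl
  · rintro ⟨h2, h1⟩ hp
    have hh := (mem_filter.1 (mem_product.1 hp).2).2
    refine mem_filter.2 ⟨mem_univ _, fun x => ?_, fun x hx => ?_⟩
    · rw [Perm.mul_apply, hh.1, g2]
    · rw [Perm.mul_apply, Perm.ofSubtype_apply_of_not_mem h2 (by omega), hh.2 x (by omega)]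
  · rintro ⟨h2, h1⟩ hp ⟨h2', h1'⟩ hp' e
    have hh := (mem_filter.1 (mem_product.1 hp).2).2
    have hh' := (mem_filter.1 (mem_product.1 hp').2).2
    have e2 : h2 = h2' := by
      ext x
      have := congrArg (fun h : Perm Ω => h x) e
      simp only [Perm.mul_apply, Perm.ofSubtype_apply_coe] at this
      rwa [hh.2 _ (h2 x).2.ge, hh'.2 _ (h2' x).2.ge] at this
    subst e2
    exact Prod.ext rfl (mul_right_cancel e)
  · intro h hh
    have hh := (mem_filter.1 hh).2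
    let h2 : Perm {x // grp s (ρ x) = k} := h.subtypePerm fun x => by rw [hh.1]
    refine ⟨(h2, h * (Perm.ofSubtype h2)⁻¹), mem_product.2 ⟨mem_univ _, mem_filter.2
      ⟨mem_univ _, fun x => ?_, fun x hx => ?_⟩⟩, by simp⟩
    · rw [Perm.mul_apply, hh.1, ← map_inv, g2]
    · rw [Perm.mul_apply, ← map_inv]
      by_cases hx' : grp s (ρ x) = k
      · rw [Perm.ofSubtype_apply_of_mem h2⁻¹ hx']
        have : ((h2 (h2⁻¹ ⟨x, hx'⟩) : {x // grp s (ρ x) = k}) : Ω) = x := by simp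
        exact this
      · rw [Perm.ofSubtype_apply_of_not_mem h2⁻¹ hx', hh.2 x (by omega)]

theorem step (hB : Band sz s c1 c2 ρ) (z : Perm Ω → ℝ)
    (hp : ∀ x y, ρ x < 2 * s → ρ x = ρ y → c1 x % 2 = c1 y % 2 → ∀ g, z (swap x y * g) = z g)
    {k : ℕ} (hk : k < s) {a1 a2 : Ω → ℕ} (h1 : Compat s ρ a1) (h2 : Compat s ρ a2)
    (h1' : ∀ x, k ≤ grp s (ρ x) → a1 x = ρ x) (h2' : ∀ x, k ≤ grp s (ρ x) → a2 x = ρ x)
    (hu : pairOp s k c1 c2 ρ a1 a2 z ≠ 0) :
    ∃ b1 b2, pairOp s (k + 1) c1 c2 ρ (nw s k ρ a1 b1) (nw s k ρ a2 b2) z ≠ 0 := by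
  classical
  obtain ⟨g0, hg0⟩ := Function.ne_iff.1 hu
  have hpair := hB.pair k hk
  obtain ⟨b1, b2, hb1, hb2, h0, hs⟩ := pairStep (L := sz k) (by omega) (tab_rz hk hpair hB.g1)
    (tab_rz hk hpair hB.g2) (fun x => by rw [two_rz hk hpair]; exact hB.anti x)
    (fun h => pairOp s k c1 c2 ρ a1 a2 z (Perm.ofSubtype h * g0))
    (Function.ne_iff.2 ⟨1, by simpa using hg0⟩) (fun x y hxy g => by
      have e1 := rz_eq hk (Prod.mk.inj hxy).1
      have e2 := (Prod.mk.inj hxy).2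
      have hx := (grp_eq_iff hk).1 x.2
      beta_reduce
      rw [map_mul, Perm.ofSubtype_swap_eq, mul_assoc]
      exact pairOp_swap k a1 a2 z x.2.ge y.2.ge (hp x y (by omega) e1 e2) _)
  refine ⟨b1, b2, Function.ne_iff.2 ⟨Perm.ofSubtype h0 * g0, ?_⟩⟩
  intro h
  apply hs
  rw [Pi.zero_apply] at h
  rw [← h]
  unfold pairOp
  have := sum_split (s := s) (ρ := ρ) k fun h => ((eps c1 ρ (nw s k ρ a1 b1 ∘ h)
    * eps c2 ρ (nw s k ρ a2 b2 ∘ h) : ℤ) : ℝ) * z (h * (Perm.ofSubtype h0 * g0))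
  refine Eq.trans ?_ (Eq.trans this.symm (sum_congr (by ext; simp [InH]) fun _ _ => rfl))
  refine sum_congr rfl fun h2 _ => ?_
  rw [mul_sum]
  refine sum_congr (by ext; simp [InH]) fun h1 hh => ?_
  have hh := (mem_filter.1 hh).2
  rw [eps_nw hk hB.g1 ‹_› h1' b1 hb1 hh, eps_nw hk hB.g2 ‹_› h2' b2 hb2 hh, map_mul]
  push_cast
  simp only [mul_assoc]
  ring

end BandP

open BandP in
theorem band_pairs (hB : Band sz s c1 c2 ρ) (z : Perm Ω → ℝ) (hz : z ≠ 0)
    (hp : ∀ x y, ρ x < 2 * s → ρ x = ρ y → c1 x % 2 = c1 y % 2 → ∀ g, z (swap x y * g) = z g) :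
    ∃ a1 a2 : Ω → ℕ, Compat s ρ a1 ∧ Compat s ρ a2 ∧ pairOp s s c1 c2 ρ a1 a2 z ≠ 0 := by
  have main : ∀ k, k ≤ s → ∃ a1 a2 : Ω → ℕ, Compat s ρ a1 ∧ Compat s ρ a2 ∧
      (∀ x, k ≤ grp s (ρ x) → a1 x = ρ x) ∧ (∀ x, k ≤ grp s (ρ x) → a2 x = ρ x) ∧
      pairOp s k c1 c2 ρ a1 a2 z ≠ 0 := by
    intro k
    induction k with
    | zero =>
      intro _
      refine ⟨ρ, ρ, fun _ => rfl, fun _ => rfl, fun _ _ => rfl, fun _ _ => rfl, ?_⟩
      have : pairOp s 0 c1 c2 ρ ρ ρ z = z := by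
        funext g
        unfold pairOp
        rw [sum_eq_single_of_mem 1 (by simp)]
        · simp [eps_self hB.g1.inj, eps_self hB.g2.inj]
        · intro h hh hne
          exact absurd (Equiv.ext fun x => (mem_filter.1 hh).2.2 x (Nat.zero_le _)) hne
      rwa [this]
    | succ k ih =>
      intro hk
      obtain ⟨a1, a2, h1, h2, h1', h2', hu⟩ := ih (by omega)
      obtain ⟨b1, b2, hb⟩ := step hB z hp hk h1 h2 h1' h2' hu
      refine ⟨_, _, nw_compat hk h1 b1, nw_compat hk h2 b2, fun x hx => ?_, fun x hx => ?_, hb⟩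
      · rw [nw, dif_neg (by omega), h1' x (by omega)]
      · rw [nw, dif_neg (by omega), h2' x (by omega)]
  obtain ⟨a1, a2, h1, h2, -, -, hu⟩ := main s le_rfl
  exact ⟨a1, a2, h1, h2, hu⟩

end Crest.Agent.R195
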