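import Crest.Agent.R195.Kron

/-! Row 195: explicit certificates for six small Kronecker coefficients.
`kron_of_cert` is the general theorem: three tableaux given as a list of cells and a list of
integer points at which the generating polynomial `kpoly` is evaluated. -/

set_option autoImplicit false
open Finset Equiv

namespace Crest.Agent.R195

/-- Signed sum over the column group. -/
def certV {Ω : Type} [Fintype Ω] [DecidableEq Ω] (c r : Ω → ℕ) (u : Ω → ℤ) : ℤ :=
  ∑ γ ∈ stab c, ((Perm.sign γ : ℤˣ) : ℤ) * ∏ x, u x ^ r (γ x)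

theorem certV_eq_det {Ω : Type} [Fintype Ω] [DecidableEq Ω] (c r : Ω → ℕ) (u : Ω → ℤ) :
    certV c r u = Matrix.det (Matrix.of fun y x : Ω => if c y = c x then u x ^ r y else 0) := by
  rw [Matrix.det_apply, certV, stab, Finset.sum_filter]
  refine Finset.sum_congr rfl fun γ _ => ?_
  simp only [Matrix.of_apply, Units.smul_def, smul_eq_mul]
  split_ifs with h
  · congr 1
    exact Finset.prod_congr rfl fun x _ => by rw [if_pos (h x)]
  · push Not at h
    obtain ⟨x, hx⟩ := h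
    rw [Finset.prod_eq_zero (Finset.mem_univ x) (by rw [if_neg hx]), mul_zero]

/-- A column of a tableau is enumerated by its row function. -/
theorem cert_col_equiv {Ω : Type} [Fintype Ω] [DecidableEq Ω] {μ : ℕ → ℕ} {c r : Ω → ℕ}
    (h : IsTab μ c r) (a : ℕ) :
    ∃ k : ℕ, ∃ e : Fin k ≃ {x // c x = a}, ∀ i, r (e i) = i := by
  classical
  have hinj : Function.Injective fun x : {x // c x = a} => r x := by
    intro x y hxy
    exact Subtype.ext (h.inj _ _ hxy (x.2.trans y.2.symm))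
  have hdown : ∀ x : {x // c x = a}, ∀ i, i ≤ r x → ∃ y : {x // c x = a}, r y = i := by
    intro x i hi
    have h1 : a < μ i := by
      have := h.mem x
      rw [x.2] at this
      exact lt_of_lt_of_le this (h.anti hi)
    obtain ⟨y, hy1, hy2⟩ := h.surj i a h1
    exact ⟨⟨y, hy2⟩, hy1⟩
  have hlt : ∀ x : {x // c x = a}, r x < Fintype.card {x // c x = a} := by
    intro x
    have hsub : range (r x + 1) ⊆ univ.image fun y : {x // c x = a} => r y := by
      intro i hi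
      obtain ⟨y, hy⟩ := hdown x i (by simpa [Nat.lt_succ_iff] using hi)
      exact Finset.mem_image.2 ⟨y, Finset.mem_univ _, hy⟩
    have := Finset.card_le_card hsub
    rw [Finset.card_range, Finset.card_image_of_injective _ hinj, Finset.card_univ] at this
    omega
  let f : {x // c x = a} → Fin (Fintype.card {x // c x = a}) := fun x => ⟨r x, hlt x⟩
  have hf : Function.Bijective f := by
    rw [Fintype.bijective_iff_injective_and_card]
    refine ⟨fun x y hxy => hinj (by simpa [f] using congrArg Fin.val hxy), by simp⟩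
  refine ⟨_, (Equiv.ofBijective f hf).symm, fun i => ?_⟩
  have : f ((Equiv.ofBijective f hf).symm i) = i := Equiv.ofBijective_apply_symm_apply f hf i
  simpa [f] using congrArg Fin.val this

theorem certV_eq_prod {Ω : Type} [Fintype Ω] [DecidableEq Ω] {μ : ℕ → ℕ} {c r : Ω → ℕ}
    (h : IsTab μ c r) (u : Ω → ℤ) :
    certV c r u = ∏ x, ∏ y, if c x = c y ∧ r x < r y then u y - u x else 1 := by
  rw [certV_eq_det]
  have hb : Matrix.BlockTriangular
      (Matrix.of fun y x : Ω => if c y = c x then u x ^ r y else 0) c := by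
    intro i j hij
    simp [hij.ne']
  rw [hb.det, ← Finset.prod_fiberwise_of_maps_to (s := univ) (t := univ.image c) (g := c)
    (fun x _ => Finset.mem_image_of_mem _ (Finset.mem_univ x))]
  refine Finset.prod_congr rfl fun a _ => ?_
  obtain ⟨k, e, he⟩ := cert_col_equiv h a
  rw [← Matrix.det_submatrix_equiv_self e]
  have h1 : (Matrix.toSquareBlock
      (Matrix.of fun y x : Ω => if c y = c x then u x ^ r y else 0) c a).submatrix e e =
      (Matrix.vandermonde fun i => u (e i)).transpose := by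
    ext i j
    simp [Matrix.toSquareBlock_def, (e i).2, (e j).2, he]
  rw [h1, Matrix.det_transpose, Matrix.det_vandermonde]
  rw [Finset.prod_subtype (p := fun x => c x = a) (F := inferInstance) _ (by simp),
    ← Equiv.prod_comp e]
  refine Finset.prod_congr rfl fun i _ => ?_
  have h2 : (∏ y, if c (e i) = c y ∧ r (e i) < r y then u y - u (e i) else 1) =
      ∏ y ∈ univ.filter (fun y => c y = a), if r (e i) < r y then u y - u (e i) else 1 := by
    rw [Finset.prod_filter]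
    refine Finset.prod_congr rfl fun y _ => ?_
    rw [(e i).2]
    by_cases hy : c y = a
    · simp [hy]
    · simp [hy, Ne.symm hy]
  rw [h2, Finset.prod_subtype (p := fun x => c x = a) (F := inferInstance) _ (by simp),
    ← Equiv.prod_comp e, ← Finset.filter_lt_eq_Ioi, Finset.prod_filter]
  refine Finset.prod_congr rfl fun j _ => ?_
  simp [he]

/-- Pair factor of one tableau. -/
def certD1 (c r c' r' : ℕ) (u u' : ℤ) : ℤ :=
  if c = c' then (if r < r' then u' - u else if r' < r then u - u' else 1) else 1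

theorem certV_eq_pairs {n : ℕ} {μ : ℕ → ℕ} {c r : Fin n → ℕ} (h : IsTab μ c r) (u : Fin n → ℤ) :
    certV c r u = ∏ x, ∏ y ∈ Ioi x, certD1 (c x) (r x) (c y) (r y) (u x) (u y) := by
  rw [certV_eq_prod h]
  set g : Fin n → Fin n → ℤ := fun x y => if c x = c y ∧ r x < r y then u y - u x else 1 with hg
  have h1 : ∀ x y, certD1 (c x) (r x) (c y) (r y) (u x) (u y) = g y x * g x y := by
    intro x y
    simp only [hg, certD1]
    by_cases hc : c x = c y
    · rcases lt_trichotomy (r x) (r y) with h2 | h2 | h2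
      · simp [hc, h2, h2.not_gt]
      · simp [hc, h2]
      · simp [hc, h2, h2.not_gt]
    · simp [hc, Ne.symm hc]
  simp only [h1]
  rw [Finset.prod_prod_Ioi_mul_eq_prod_prod_off_diag (fun x y => g x y)]
  change ∏ x, ∏ y, g x y = _
  rw [Finset.prod_comm]
  refine Finset.prod_congr rfl fun x _ => ?_
  rw [← Finset.prod_mul_prod_compl {x}]
  simp [hg]

/-- Evaluation of `kpoly` at a sum of Vandermonde points. -/
theorem cert_eval_kpoly {Ω T : Type} [Fintype Ω] [DecidableEq Ω] [Fintype T]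
    (c1 r1 c2 r2 c3 r3 : Ω → ℕ) (α β δ : T → ℤ) :
    MvPolynomial.eval (fun p : ℕ × ℕ × ℕ => ∑ t, α t ^ p.1 * β t ^ p.2.1 * δ t ^ p.2.2)
      (kpoly c1 r1 c2 r2 c3 r3) =
    ∑ f : Ω → T, certV c1 r1 (fun x => α (f x)) * certV c2 r2 (fun x => β (f x)) *
      certV c3 r3 (fun x => δ (f x)) := by
  simp only [kpoly, map_sum, MvPolynomial.smul_eval, map_prod, MvPolynomial.eval_X, certV]
  simp only [Finset.sum_mul, Finset.mul_sum]
  have key : ∀ γ1 γ2 γ3 : Perm Ω,
      (∏ x, ∑ t, α t ^ r1 (γ1 x) * β t ^ r2 (γ2 x) * δ t ^ r3 (γ3 x)) =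
      ∑ f : Ω → T, (∏ x, α (f x) ^ r1 (γ1 x)) * (∏ x, β (f x) ^ r2 (γ2 x)) *
        ∏ x, δ (f x) ^ r3 (γ3 x) := by
    intro γ1 γ2 γ3
    rw [Finset.prod_univ_sum, Fintype.piFinset_univ]
    refine Finset.sum_congr rfl fun f _ => ?_
    rw [← Finset.prod_mul_distrib, ← Finset.prod_mul_distrib]
  simp only [key, Finset.mul_sum]
  symm
  rw [Finset.sum_comm]
  conv_rhs => rw [Finset.sum_comm]; enter [2, y]; rw [Finset.sum_comm]
  conv_rhs => rw [Finset.sum_comm]
  refine Finset.sum_congr rfl fun γ3 _ => ?_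
  rw [Finset.sum_comm]
  refine Finset.sum_congr rfl fun γ2 _ => ?_
  rw [Finset.sum_comm]
  refine Finset.sum_congr rfl fun γ1 _ => ?_
  refine Finset.sum_congr rfl fun f _ => ?_
  simp only [Units.val_mul]
  ring

/-- A point of `Ω` with its position (column, row) in the three tableaux. -/
structure CertCell where
  c1 : ℕ
  r1 : ℕ
  c2 : ℕ
  r2 : ℕ
  c3 : ℕ
  r3 : ℕ

/-- Pair factor of the three tableaux. -/
def certD (x y : CertCell) (p q : ℤ × ℤ × ℤ) : ℤ :=
  certD1 x.c1 x.r1 y.c1 y.r1 p.1 q.1 * certD1 x.c2 x.r2 y.c2 y.r2 p.2.1 q.2.1 *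
    certD1 x.c3 x.r3 y.c3 y.r3 p.2.2 q.2.2

/-- Multiplication that does not look at its second argument when the first is zero. -/
def certMul (w v : ℤ) : ℤ := if w = 0 then 0 else w * v

theorem certMul_eq (w v : ℤ) : certMul w v = w * v := by
  unfold certMul
  split_ifs with h
  · simp [h]
  · rfl

/-- Product of the pair factors with all the cells already assigned. -/
def certP (x : CertCell) (p : ℤ × ℤ × ℤ) : List (CertCell × (ℤ × ℤ × ℤ)) → ℤ
  | [] => 1
  | z :: l => certMul (certD z.1 x z.2 p) (certP x p l)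

theorem certP_eq (x : CertCell) (p : ℤ × ℤ × ℤ) (l : List (CertCell × (ℤ × ℤ × ℤ))) :
    certP x p l = (l.map fun z => certD z.1 x z.2 p).prod := by
  induction l with
  | nil => rfl
  | cons z l ih => simp [certP, certMul_eq, ih]

/-- Pruned depth-first evaluation. -/
def vsum (pts : List (ℤ × ℤ × ℤ)) : List CertCell → List (CertCell × (ℤ × ℤ × ℤ)) → ℤ
  | [], _ => 1
  | x :: rest, done =>
      (pts.map fun p => certMul (certP x p done) (vsum pts rest ((x, p) :: done))).sum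

theorem vsum_eq {m : ℕ} (pt : Fin m → ℤ × ℤ × ℤ) (n : ℕ) (cell : Fin n → CertCell)
    (done : List (CertCell × (ℤ × ℤ × ℤ))) :
    vsum (List.ofFn pt) (List.ofFn cell) done =
      ∑ f : Fin n → Fin m, (∏ i, certP (cell i) (pt (f i)) done) *
        ∏ i, ∏ j ∈ Ioi i, certD (cell i) (cell j) (pt (f i)) (pt (f j)) := by
  induction n generalizing done with
  | zero => simp [vsum]
  | succ n ih =>
    rw [List.ofFn_succ, vsum, List.map_ofFn, List.sum_ofFn,
      ← (Fin.consEquiv fun _ : Fin (n + 1) => Fin m).sum_comp, Fintype.sum_prod_type]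
    refine Finset.sum_congr rfl fun t _ => ?_
    simp only [Function.comp, certMul_eq]
    rw [ih, Finset.mul_sum]
    refine Finset.sum_congr rfl fun f _ => ?_
    simp only [Fin.prod_univ_succ, Fin.consEquiv_apply, Fin.cons_zero, Fin.cons_succ,
      Fin.prod_Ioi_zero, Fin.prod_Ioi_succ, certP, certMul_eq, Finset.prod_mul_distrib]
    ring

/-- The list of pairs (column, row) enumerates the cells of `μ`. -/
def certTab (μ : List ℕ) (l : List (ℕ × ℕ)) : Bool :=
  decide (μ.Pairwise (· ≥ ·)) && decide l.Nodup && l.all (fun p => decide (p.1 < μ.getD p.2 0)) &&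
    (List.range μ.length).all fun i => (List.range (μ.getD i 0)).all fun j => decide ((j, i) ∈ l)

theorem isTab_of_certTab {μ : List ℕ} {n : ℕ} {c r : Fin n → ℕ}
    (h : certTab μ (List.ofFn fun x => (c x, r x)) = true) : IsTab (toF μ) c r := by
  simp only [certTab, Bool.and_eq_true, decide_eq_true_eq, List.all_eq_true, List.mem_range,
    List.mem_ofFn, List.nodup_ofFn] at h
  obtain ⟨⟨⟨h1, h2⟩, h3⟩, h4⟩ := h
  refine ⟨⟨fun x y hr hc => h2 (Prod.ext hc hr), fun x => h3 _ ⟨x, rfl⟩, fun i j hij => ?_⟩,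
    (isPart_toF h1).1⟩
  have hi : i < μ.length := by
    by_contra hi
    simp [toF, List.getD_eq_getElem?_getD, List.getElem?_eq_none (not_lt.1 hi)] at hij
  obtain ⟨x, hx⟩ := h4 i hi j hij
  exact ⟨x, congrArg Prod.snd hx, congrArg Prod.fst hx⟩

/-- The certificate check. -/
def kronCertOK (μ ν κ : List ℕ) (cells : List CertCell) (pts : List (ℤ × ℤ × ℤ)) : Bool :=
  certTab μ (cells.map fun x => (x.c1, x.r1)) && certTab ν (cells.map fun x => (x.c2, x.r2)) &&
    certTab κ (cells.map fun x => (x.c3, x.r3)) && decide (vsum pts cells [] ≠ 0)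

/-- General certificate theorem (use with `by decide +kernel`). -/
theorem kron_of_cert {μ ν κ : List ℕ} (cells : List CertCell) (pts : List (ℤ × ℤ × ℤ))
    (h : kronCertOK μ ν κ cells pts = true) : Kron (toF μ) (toF ν) (toF κ) := by
  obtain ⟨n, cell, rfl⟩ : ∃ (n : ℕ) (cell : Fin n → CertCell), cells = List.ofFn cell :=
    ⟨_, cells.get, (List.ofFn_get cells).symm⟩
  obtain ⟨m, pt, rfl⟩ : ∃ (m : ℕ) (pt : Fin m → ℤ × ℤ × ℤ), pts = List.ofFn pt :=
    ⟨_, pts.get, (List.ofFn_get pts).symm⟩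
  simp only [kronCertOK, Bool.and_eq_true, decide_eq_true_eq, List.map_ofFn] at h
  obtain ⟨⟨⟨h1, h2⟩, h3⟩, h4⟩ := h
  have t1 := isTab_of_certTab (c := fun x => (cell x).c1) (r := fun x => (cell x).r1) h1
  have t2 := isTab_of_certTab (c := fun x => (cell x).c2) (r := fun x => (cell x).r2) h2
  have t3 := isTab_of_certTab (c := fun x => (cell x).c3) (r := fun x => (cell x).r3) h3
  have hk : kpoly (fun x => (cell x).c1) (fun x => (cell x).r1) (fun x => (cell x).c2)
      (fun x => (cell x).r2) (fun x => (cell x).c3) (fun x => (cell x).r3) ≠ 0 := by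
    intro h0
    apply h4
    have := cert_eval_kpoly (fun x => (cell x).c1) (fun x => (cell x).r1) (fun x => (cell x).c2)
      (fun x => (cell x).r2) (fun x => (cell x).c3) (fun x => (cell x).r3)
      (fun t => (pt t).1) (fun t => (pt t).2.1) (fun t => (pt t).2.2)
    rw [h0, map_zero] at this
    rw [vsum_eq, this]
    refine Finset.sum_congr rfl fun f _ => ?_
    rw [certV_eq_pairs t1, certV_eq_pairs t2, certV_eq_pairs t3]
    simp only [certP, Finset.prod_const_one, one_mul, certD, Finset.prod_mul_distrib]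
  obtain ⟨a1, a2, a3, ha⟩ := (kpoly_ne_zero_iff t1.toIsGrid t2.toIsGrid t3.toIsGrid).1 hk
  exact ⟨n, _, _, a1, _, _, a2, _, _, a3, t1, t2, t3, ha⟩

theorem special4 : Kron (toF [2, 2]) (toF [2, 2]) (toF [2, 2]) :=
  kron_of_cert [⟨0,1,0,0,1,0⟩, ⟨1,0,0,1,1,1⟩, ⟨1,1,1,0,0,1⟩, ⟨0,0,1,1,0,0⟩]
    [(0,1,0), (1,0,1)] (by decide +kernel)

theorem special5 : Kron (toF [3, 2]) (toF [3, 2]) (toF [2, 2, 1]) :=
  kron_of_cert [⟨2,0,0,0,0,2⟩, ⟨1,1,0,1,1,1⟩, ⟨1,0,1,0,0,0⟩, ⟨0,0,1,1,0,1⟩, ⟨0,1,2,0,1,0⟩]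
    [(1,0,0), (2,1,2), (1,1,1)] (by decide +kernel)

theorem special6 : Kron (toF [3, 3]) (toF [3, 3]) (toF [2, 2, 2]) :=
  kron_of_cert [⟨0,0,2,0,0,0⟩, ⟨1,0,1,0,0,1⟩, ⟨2,0,0,1,0,2⟩, ⟨1,1,0,0,1,0⟩, ⟨2,1,2,1,1,1⟩,
      ⟨0,1,1,1,1,2⟩]
    [(0,2,0), (1,1,2), (2,0,1)] (by decide +kernel)

theorem special8 : Kron (toF [4, 2, 1, 1]) (toF [4, 2, 1, 1]) (toF [3, 3, 2]) :=
  kron_of_cert [⟨1,1,3,0,0,0⟩, ⟨3,0,0,2,0,1⟩, ⟨0,2,0,1,0,2⟩, ⟨1,0,0,0,1,0⟩, ⟨0,0,0,3,1,1⟩,
      ⟨0,3,1,0,1,2⟩, ⟨0,1,2,0,2,0⟩, ⟨2,0,1,1,2,1⟩]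
    [(0,3,1), (1,2,1), (3,4,0), (2,1,2)] (by decide +kernel)

theorem special11a : Kron (toF [4, 4, 3]) (toF [4, 4, 3]) (toF [3, 3, 2, 2, 1]) :=
  kron_of_cert [⟨0,0,3,0,0,3⟩, ⟨0,1,1,2,1,3⟩, ⟨0,2,0,0,0,4⟩, ⟨1,0,1,1,0,1⟩, ⟨1,1,3,1,1,0⟩,
      ⟨1,2,2,1,0,0⟩, ⟨2,0,1,0,1,2⟩, ⟨2,1,0,2,0,2⟩, ⟨2,2,2,0,2,0⟩, ⟨3,0,0,1,1,1⟩, ⟨3,1,2,2,2,1⟩]
    [(2,3,4), (1,2,1), (1,1,0), (0,0,2), (2,1,3)] (by decide +kernel)

theorem special11b : Kron (toF [4, 4, 3]) (toF [4, 4, 3]) (toF [3, 3, 3, 1, 1]) :=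
  kron_of_cert [⟨0,0,0,0,0,4⟩, ⟨0,2,0,1,2,1⟩, ⟨1,1,0,2,1,1⟩, ⟨0,1,1,0,0,1⟩, ⟨1,2,1,1,2,2⟩,
      ⟨1,0,1,2,0,3⟩, ⟨2,1,2,0,0,2⟩, ⟨3,0,2,1,0,0⟩, ⟨2,2,2,2,2,0⟩, ⟨2,0,3,0,1,0⟩, ⟨3,1,3,1,1,2⟩]
    [(3,0,0), (1,2,4), (3,2,1), (2,0,3), (2,1,2)] (by decide +kernel)

end Crest.Agent.R195
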