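import Crest.Agent.R195.Part

/-! Row 195: the covering lemma without enumeration. -/

set_option autoImplicit false
open Finset

namespace Crest.Agent.R195

/-- If `X ≤ psum κ i` then `T ≤ psum κ k` (Boolean test). -/
def lb (n X i k T : ℕ) : Bool :=
  if k ≤ i then Nat.blt (i * T) (k * X + i) else Nat.ble T n && Nat.ble T (X + (k - i))

theorem lb_sound {n X i k T : ℕ} {κ : ℕ → ℕ} (hκ : IsPart n κ) (hX : X ≤ psum κ i)
    (h : lb n X i k T = true) : T ≤ psum κ k := by
  unfold lb at h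
  split_ifs at h with hk
  · have h1 : i * T < k * X + i := by simpa [Nat.blt_eq] using h
    have h2 := psum_concave hκ.1 hk
    have h3 := Nat.mul_le_mul_left k hX
    have h4 : i * T < i * (psum κ k + 1) := by rw [Nat.mul_add, Nat.mul_one]; omega
    exact Nat.lt_succ_iff.1 (Nat.lt_of_mul_lt_mul_left h4)
  · simp only [Bool.and_eq_true, Nat.ble_eq] at h
    have h2 := hκ.min_le_psum i (k - i)
    rw [show i + (k - i) = k by omega] at h2
    omega

theorem nl {q n : ℕ} {w : List ℕ} (hw : w.sum = n) (hn : 2 * q ≤ n + 1) (U V : ℕ → ℕ)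
    (hU : ∀ u : Multiset ℕ, u ≤ (w : Multiset ℕ) → u.sum ≤ U u.card)
    (hV : ∀ i, V i ≤ (w.map fun x => min x i).sum)
    (hA : ∀ r, 1 ≤ r → r + V 1 + 3 ≤ 2 * q →
      lb n (n + 2 + 2 * r - 2 * q) r 1 q = true ∧
      lb n (n + 2 + 2 * r - 2 * q) r 2 (2 * q - 1) = true ∧
      lb n (n + 2 + 2 * r - 2 * q) r 3 (3 * q - 3) = true ∧
      lb n (n + 2 + 2 * r - 2 * q) r 4 (4 * q - 6) = true)
    (hB : ∀ i, 2 ≤ i → V i < i * (q - 1) → V i < n → ∀ k, k ≤ w.length →
      lb n (V i + 1) i k (U k) = true)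
    {c c' : ℕ → ℕ} (hc : IsPart n c) (hc' : IsConjP c c') (h2 : psum c 2 + 2 ≤ 2 * q) :
    Dom c w ∨ Dom c' w ∨ H4 q c' := by
  by_cases hall : ∀ i, psum c i ≤ (w.map fun x => min x i).sum
  · exact Or.inr (Or.inl (dom_of_min (hc.conj hc') hc'.symm hw hall))
  push Not at hall
  obtain ⟨i, hi⟩ := hall
  have hVi : V i < psum c i := (hV i).trans_lt hi
  have p1 : psum c 1 = c 0 := by simp [psum]
  have p2 : psum c 2 = c 0 + c 1 := by rw [psum_succ, p1]
  rcases (by omega : i = 0 ∨ i = 1 ∨ 2 ≤ i) with rfl | rfl | h2i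
  · simp [psum] at hVi
  · right; right
    have hr : 1 ≤ c 1 := by
      by_contra h0
      have := (isPart_of hc.1 (N := 1) (by omega) rfl).unique hc
      omega
    have hn1 := hc.psum_le 1
    obtain ⟨m, rfl⟩ : ∃ m, n = m + 1 := ⟨n - 1, by omega⟩
    have e1 := hc.psum_conj hc' (c 1)
    have e2 : psum c (m + 1) = m + 1 := hc.2.2
    rw [psum, sum_range_succ'] at e2
    rw [sum_range_succ', min_eq_right (hc.1 (Nat.zero_le 1)),
      sum_congr rfl fun t _ => min_eq_left (hc.1 (Nat.le_add_left 1 t))] at e1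
    obtain ⟨a1, a2, a3, a4⟩ := hA (c 1) hr (by omega)
    have hX : m + 1 + 2 + 2 * c 1 - 2 * q ≤ psum c' (c 1) := by omega
    have b1 := lb_sound (hc.conj hc') hX a1
    have b2 := lb_sound (hc.conj hc') hX a2
    have b3 := lb_sound (hc.conj hc') hX a3
    have b4 := lb_sound (hc.conj hc') hX a4
    exact ⟨b1, by omega, by omega, by omega⟩
  · left
    have h3 := psum_concave hc.1 h2i
    have h4 : i * psum c 2 ≤ i * (2 * (q - 1)) := Nat.mul_le_mul_left _ (by omega)
    rw [Nat.mul_left_comm] at h4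
    have h5 := hB i h2i (by omega) (hVi.trans_le (hc.psum_le i))
    intro u hu
    have h6 : u.card ≤ w.length := by simpa using Multiset.card_le_card hu
    exact (hU u hu).trans (lb_sound hc hVi (h5 _ h6))

/-- Boolean version; `ws` is the sorted list of parts. -/
def nlCheck (q : ℕ) (ws : List ℕ) : Bool :=
  let n := ws.sum
  let V1 := (ws.map fun x => min x 1).sum
  Nat.ble (2 * q) (n + 1) &&
  ((List.range (2 * q - 2 - V1)).all fun r => r == 0 ||
    (lb n (n + 2 + 2 * r - 2 * q) r 1 q && lb n (n + 2 + 2 * r - 2 * q) r 2 (2 * q - 1) &&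
     lb n (n + 2 + 2 * r - 2 * q) r 3 (3 * q - 3) && lb n (n + 2 + 2 * r - 2 * q) r 4 (4 * q - 6))) &&
  ((List.range (ws.headD 0)).all fun i =>
    let Vi := (ws.map fun x => min x i).sum
    Nat.blt i 2 || Nat.ble (i * (q - 1)) Vi ||
      (List.range (ws.length + 1)).all fun k => lb n (Vi + 1) i k (ws.take k).sum)

theorem NL_sum_min_of_le {w : List ℕ} {i : ℕ} (h : ∀ x ∈ w, x ≤ i) :
    (w.map fun x => min x i).sum = w.sum := by
  rw [List.map_congr_left (f := fun x => min x i) (g := id) fun x hx => min_eq_left (h x hx),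
    List.map_id]

theorem NL_le_headD {ws : List ℕ} (hs : ws.Pairwise (· ≥ ·)) : ∀ x ∈ ws, x ≤ ws.headD 0 := by
  cases ws with
  | nil => simp
  | cons a l =>
    intro x hx
    rcases List.mem_cons.1 hx with rfl | hx
    · exact le_rfl
    · exact (List.pairwise_cons.1 hs).1 x hx

theorem nlCheck_sound {q : ℕ} {w ws : List ℕ} (hp : ws.Perm w) (hs : ws.Pairwise (· ≥ ·))
    (h : nlCheck q ws = true) {c c' : ℕ → ℕ} (hc : IsPart w.sum c) (hc' : IsConjP c c')
    (h2 : psum c 2 + 2 ≤ 2 * q) : Dom c w ∨ Dom c' w ∨ H4 q c' := by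
  simp only [nlCheck, Bool.and_eq_true, Nat.ble_eq, List.all_eq_true, List.mem_range,
    Bool.or_eq_true, beq_iff_eq, Nat.blt_eq] at h
  obtain ⟨⟨h1, h3⟩, h4⟩ := h
  rw [← hp.sum_eq] at hc
  refine nl (n := ws.sum) hp.sum_eq.symm h1 (fun k => (ws.take k).sum)
    (fun i => (ws.map fun x => min x i).sum) (sum_le_take_of_le hp hs)
    (fun i => ((hp.map _).sum_eq).le) (fun r hr hr2 => ?_) (fun i hi hi2 hi3 k hk => ?_) hc hc' h2
  · rcases h3 r (by omega) with h0 | ⟨⟨⟨a1, a2⟩, a3⟩, a4⟩
    · omega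
    · exact ⟨a1, a2, a3, a4⟩
  · have hlt : i < ws.headD 0 := by
      by_contra h0
      have := NL_sum_min_of_le (i := i) fun x hx => (NL_le_headD hs x hx).trans (not_lt.1 h0)
      omega
    rcases h4 i hlt with (h0 | h0) | h0
    · omega
    · omega
    · exact h0 k (by rw [hp.length_eq]; omega)

/-- Excess of a list above level `i`. -/
def exc (w : List ℕ) (i : ℕ) : ℕ := (w.map fun x => x - i).sum

theorem NL_min_add_exc (w : List ℕ) (i : ℕ) :
    (w.map fun x => min x i).sum + exc w i = w.sum := by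
  induction w with
  | nil => simp [exc]
  | cons a l ih =>
    simp only [exc, List.map_cons, List.sum_cons] at ih ⊢
    omega

theorem NL_exc_anti (w : List ℕ) {i j : ℕ} (h : j ≤ i) : exc w i ≤ exc w j :=
  List.sum_le_sum fun x _ => Nat.sub_le_sub_left h x

theorem NL_min_concave (w : List ℕ) {i j : ℕ} (h : i ≤ j) :
    i * (w.map fun x => min x j).sum ≤ j * (w.map fun x => min x i).sum := by
  induction w with
  | nil => simp
  | cons a l ih =>
    simp only [List.map_cons, List.sum_cons, Nat.mul_add]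
    refine Nat.add_le_add ?_ ih
    rcases le_total a i with h1 | h1
    · rw [min_eq_left h1, min_eq_left (h1.trans h)]
      exact Nat.mul_le_mul_right _ h
    · rw [min_eq_right h1, Nat.mul_comm j]
      exact Nat.mul_le_mul_left _ (min_le_right _ _)

theorem NL_lbA {q n R r X k T : ℕ} (hr : 1 ≤ r) (hrR : r ≤ R) (hR : 4 ≤ R) (hX : R * q ≤ X)
    (hn : 4 * q ≤ n) (hk : k ≤ 4) (hT : T ≤ k * q) : lb n X r k T = true := by
  unfold lb
  split_ifs with h
  · rw [Nat.blt_eq]
    have h1 : r * T ≤ R * (k * q) := Nat.mul_le_mul hrR hT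
    have h2 := Nat.mul_le_mul_left k hX
    rw [Nat.mul_left_comm] at h1
    omega
  · simp only [Bool.and_eq_true, Nat.ble_eq]
    have h1 := Nat.mul_le_mul_right q hk
    have h2 := Nat.mul_le_mul_right q hR
    omega

theorem nl_crude {q n R i1 w1 E1 E2 : ℕ} {w : List ℕ} (hw : w.sum = n) (hq : 1 ≤ q)
    (hw1 : ∀ x ∈ w, x ≤ w1) (hR : 4 ≤ R) (hlen : 2 * q ≤ (w.map fun x => min x 1).sum + 3 + R)
    (hA : (R + 2) * q ≤ n + 2) (hE1 : exc w i1 ≤ E1) (hE2 : exc w (i1 + 1) ≤ E2)
    (hB1 : i1 * (q - 1) + E1 ≤ n) (hB2 : (w1 + E2) * w1 + E2 ≤ n)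
    {c c' : ℕ → ℕ} (hc : IsPart n c) (hc' : IsConjP c c') (h2 : psum c 2 + 2 ≤ 2 * q) :
    Dom c w ∨ Dom c' w ∨ H4 q c' := by
  have hRq := Nat.mul_le_mul_right q hR
  rw [Nat.add_mul] at hA
  refine nl hw (by omega) (fun k => min (k * w1) n) (fun i => (w.map fun x => min x i).sum)
    (fun u hu => le_min ?_ ?_) (fun _ => le_rfl) (fun r hr hr2 => ?_)
    (fun i hi hi2 hi3 k _ => ?_) hc hc' h2
  · simpa using Multiset.sum_le_card_nsmul u w1 fun x hx =>
      hw1 x (by simpa using Multiset.mem_of_le hu hx)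
  · obtain ⟨t, ht⟩ := Multiset.le_iff_exists_add.1 hu
    have := congrArg Multiset.sum ht
    rw [Multiset.sum_add, Multiset.sum_coe] at this
    omega
  · have hrR : r ≤ R := by omega
    have hX : R * q ≤ n + 2 + 2 * r - 2 * q := by omega
    have h4 : 4 * q ≤ n := by omega
    exact ⟨NL_lbA hr hrR hR hX h4 (by omega) (by omega), NL_lbA hr hrR hR hX h4 (by omega) (by omega),
      NL_lbA hr hrR hR hX h4 (by omega) (by omega), NL_lbA hr hrR hR hX h4 (by omega) (by omega)⟩
  · have hi1 : i1 + 1 ≤ i := by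
      by_contra h0
      have a1 := NL_min_concave w (show i ≤ i1 by omega)
      have a2 := NL_min_add_exc w i1
      have a3 : i * (i1 * (q - 1)) ≤ i * (w.map fun x => min x i1).sum :=
        Nat.mul_le_mul_left _ (by omega)
      rw [Nat.mul_left_comm] at a3
      have a4 := Nat.le_of_mul_le_mul_left (a3.trans a1) (by omega)
      omega
    have b1 := NL_min_add_exc w i
    have b2 := NL_exc_anti w hi1
    have b3 : i < w1 := by
      by_contra h0
      have := NL_sum_min_of_le (i := i) fun x hx => (hw1 x hx).trans (not_lt.1 h0)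
      omega
    generalize (w.map fun x => min x i).sum = W at *
    have b4 : (w1 + E2) * w1 ≤ W := by omega
    unfold lb
    split_ifs with h
    · rw [Nat.blt_eq]
      have c1 : i * min (k * w1) n ≤ (w1 + E2) * (k * w1) :=
        Nat.mul_le_mul (by omega) (min_le_left _ _)
      rw [Nat.mul_left_comm] at c1
      have c2 := Nat.mul_le_mul_left k b4
      rw [Nat.mul_add]
      omega
    · simp only [Bool.and_eq_true, Nat.ble_eq]
      refine ⟨min_le_right _ _, ?_⟩
      by_cases h5 : E2 ≤ k - i + 1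
      · exact (min_le_right _ _).trans (by omega)
      · have c1 : k * w1 ≤ (w1 + E2) * w1 := Nat.mul_le_mul_right _ (by omega)
        exact (min_le_left _ _).trans (by omega)

end Crest.Agent.R195
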