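import Crest.Agent.R195.CheckCert
import Crest.Agent.R195.NL

/-! Row 195: soundness of the Boolean checkers. -/

set_option autoImplicit false
open Finset

namespace Crest.Agent.R195

theorem check_forceRules (Rs : List Rule) {α : Type} (f : List Rule → α) :
    forceRules Rs f = f Rs := by
  induction Rs generalizing f with
  | nil => rfl
  | cons R Rs ih => simp only [forceRules, forceL_eq, ih]

theorem check_brule {μ : List ℕ} {gs : List GD} (hμ : μ.Pairwise (· ≥ ·))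
    (hs : IsConjP (toF μ) (toF μ)) (hg : gs.all (grpB μ) = true) {R : Rule} (hR : R ∈ bRules gs)
    {κ κ' : ℕ → ℕ} (hκ : IsPart μ.sum κ) (hc : IsConjP κ κ') (h : Sat κ κ' R) :
    Kron (toF μ) (toF μ) κ := by
  obtain ⟨g, hg', hR⟩ := List.mem_flatMap.1 hR
  have hG := grpB_sound (List.all_eq_true.1 hg g hg')
  simp only [List.mem_cons, List.not_mem_nil, or_false] at hR
  rcases hR with rfl | rfl
  · exact thmB hμ hG hκ (dom_of_psums g h.1)
  · exact (thmB hμ hG (hκ.conj hc) (dom_of_psums g h.2)).conj_third hs hc.symm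

theorem check_leaf {μ : List ℕ} {out : List (List ℕ)} (hs : IsConjP (toF μ) (toF μ))
    (ho : ∀ l ∈ out, KT (μ, μ, l)) {l : List ℕ} (h : leafIn out l = true)
    (hl : l.Pairwise (· ≥ ·)) : Kron (toF μ) (toF μ) (toF l) := by
  simp only [leafIn, forceL_eq, Bool.or_eq_true, List.any_eq_true, eqL_iff] at h
  rcases h with ⟨m, hm, rfl⟩ | ⟨m, hm, rfl⟩
  · exact (ho _ hm).2.2.2
  · exact (ho _ hm).2.2.2.conj_third hs (isConj_conjL hl).symm

theorem check_hcB {q : ℕ} {l : List ℕ} {t : ℕ} (h : hcB q t l = true) (i : ℕ)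
    (hi : t + i + 3 ≤ 2 * q) : 2 * toF l i + (t + i) + 3 ≤ 2 * q := by
  induction l generalizing t i with
  | nil => simpa [toF_nil] using hi
  | cons x l ih =>
    simp only [hcB, Bool.and_eq_true, Nat.ble_eq] at h
    rw [toF_cons]
    cases i with
    | zero => exact h.1
    | succ i =>
      have := ih h.2 i (by omega)
      change 2 * toF l i + _ + 3 ≤ _
      omega

theorem check_head (l : List ℕ) : toF l 0 = l.headD 0 := by cases l <;> rfl

theorem check_hook2 {q : ℕ} {ν : List ℕ} (hν : GoodL ν) (h : hook2B q ν = true) :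
    (hook2L q ν).Pairwise (· ≥ ·) ∧ toF (hook2L q ν) = hookF q (hookF (q - 2) (toF ν)) ∧
      (hook2L q ν).sum = ν.sum + 4 * q - 6 ∧ IsConjP (toF (hook2L q ν)) (toF (hook2L q ν)) ∧
      toF ν 0 + 3 ≤ q ∧ ∀ t, t + 3 < q → 2 * toF ν t + t + 7 ≤ 2 * q := by
  simp only [hook2B, Bool.and_eq_true, Nat.ble_eq] at h
  obtain ⟨⟨h1, h2⟩, h3⟩ := h
  have a1 : ν.length + 1 ≤ q - 2 := by omega
  have a2 : (hookL (q - 2) ν).length + 1 ≤ q := by
    simp only [hookL, List.length_cons, List.length_append, List.length_map, List.length_replicate]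
    omega
  have a3 : toF (hook2L q ν) = hookF q (hookF (q - 2) (toF ν)) := by
    rw [hook2L, toF_hookL a2, toF_hookL a1]
  have a4 := hookF_shape hν.2.1 hν.2.2.1 (q := q - 2) (by rw [check_head]; omega)
  refine ⟨hookL_sorted (hookL_sorted hν.1 (by omega)) (by change q - 2 + 1 ≤ q; omega), a3, ?_,
    a3 ▸ (hookF_shape a4.1 a4.2 (by rw [hook_F_zero]; omega)).2, by rwa [check_head],
    fun t ht => ?_⟩
  · have := sum_hookL a1
    have := sum_hookL a2
    rw [hook2L]; omega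
  · have := check_hcB h3 t (by omega)
    omega

/-- The end game of the two-hook step. -/
theorem check_end {q : ℕ} {ν : List ℕ} (hν : GoodL ν) (h : hook2B q ν = true)
    (hQ : ∀ κ, IsPart (hook2L q ν).sum κ → (q ≤ psum κ 1 ∧ 2 * q ≤ psum κ 2 + 1) ∨
      Kron (toF (hook2L q ν)) (toF (hook2L q ν)) κ) : GoodL (hook2L q ν) := by
  obtain ⟨h1, h2, h3, h4, h5, h6⟩ := check_hook2 hν h
  refine ⟨h1, isPart_toF h1, h4, fun κ hκ => ?_⟩
  obtain ⟨κ', hc⟩ := hκ.exists_conj
  rcases hQ κ hκ with ⟨a1, a2⟩ | a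
  · rcases hQ κ' (hκ.conj hc) with ⟨b1, b2⟩ | b
    · rw [h2]
      exact hook2_UV hν.2 h5 h6 (h3 ▸ hκ) hc 0 0 (by omega) (by omega) (by omega) (by omega)
        (by omega) (by omega) (by omega)
    · exact b.conj_third h4 hc.symm
  · exact a

theorem good_chk0 {μ : List ℕ} {gs : List GD} {out : List (List ℕ)}
    (ho : ∀ l ∈ out, KT (μ, μ, l)) (h : chk0 μ gs out = true) : GoodL μ := by
  simp only [chk0, Bool.and_eq_true, sortedB_iff, eqL_iff, check_forceRules] at h
  obtain ⟨⟨⟨h1, h2⟩, h3⟩, h4⟩ := h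
  have hs : IsConjP (toF μ) (toF μ) := by
    have := isConj_conjL h1
    rwa [h2] at this
  exact ⟨h1, isPart_toF h1, hs, dfsTop_sound _
    (fun R hR κ κ' hκ hc h => check_brule h1 hs h3 hR hκ hc h)
    (fun l hl hl' _ => check_leaf hs ho hl hl') h4⟩

theorem good_chk1 {q : ℕ} {ν : List ℕ} {gs : List GD} {out : List (List ℕ)} (hν : GoodL ν)
    (ho : ∀ l ∈ out, KT (hookL q ν, hookL q ν, l)) (h : chk1 q ν gs out = true) :
    GoodL (hookL q ν) := by
  simp only [chk1, Bool.and_eq_true, Nat.ble_eq, check_forceRules] at h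
  obtain ⟨⟨⟨⟨h1, h2⟩, h3⟩, h4⟩, h5⟩ := h
  have a1 := hookL_sorted hν.1 h2
  have a2 := toF_hookL h1
  have a3 : (hookL q ν).sum = ν.sum + 2 * q - 1 := by have := sum_hookL h1; omega
  have a4 : toF ν 0 + 1 ≤ q := by rwa [check_head]
  have hs : IsConjP (toF (hookL q ν)) (toF (hookL q ν)) :=
    a2 ▸ (hookF_shape hν.2.1 hν.2.2.1 a4).2
  have key : ∀ κ, IsPart (hookL q ν).sum κ → (∀ k, [q, 2 * q - 1].getD k 0 ≤ psum κ (k + 1)) →
      Kron (toF (hookL q ν)) (toF (hookL q ν)) κ := fun κ hκ h => by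
    have b1 : q ≤ psum κ 1 := h 0
    have b2 : 2 * q - 1 ≤ psum κ 2 := h 1
    rw [a2]
    exact hook1_rule hν.2 a4 (fun t ht => by have := check_hcB h3 t (by omega); omega) (a3 ▸ hκ)
      b1 (by omega)
  refine ⟨a1, isPart_toF a1, hs, dfsTop_sound _ (fun R hR κ κ' hκ hc h => ?_)
    (fun l hl hl' _ => check_leaf hs ho hl hl') h5⟩
  rcases List.mem_cons.1 hR with rfl | hR
  · exact key κ hκ h.1
  rcases List.mem_cons.1 hR with rfl | hR
  · exact (key κ' (hκ.conj hc) h.2).conj_third hs hc.symm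
  · exact check_brule a1 hs h4 hR hκ hc h

theorem good_chk2 {q : ℕ} {ν : List ℕ} {gs : List GD} {out : List (List ℕ)} (hν : GoodL ν)
    (ho : ∀ l ∈ out, KT (hook2L q ν, hook2L q ν, l)) (h : chk2 q ν gs out = true) :
    GoodL (hook2L q ν) := by
  simp only [chk2, Bool.and_eq_true, check_forceRules] at h
  obtain ⟨⟨h0, hg⟩, hd⟩ := h
  obtain ⟨h1, h2, h3, h4, h5, h6⟩ := check_hook2 hν h0
  have uv : ∀ a1 a2 κ κ', a1 ≤ 2 → a2 ≤ 2 → IsPart (hook2L q ν).sum κ → IsConjP κ κ' →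
      Sat κ κ' (uvRule q a1 a2) → Kron (toF (hook2L q ν)) (toF (hook2L q ν)) κ := by
    intro a1 a2 κ κ' ha1 ha2 hκ hc h
    have b1 : q + (1 - a1) + (1 - a2) - 2 ≤ psum κ 1 := h.1 0
    have b2 : 2 * q - 1 - a1 - a2 ≤ psum κ 2 := h.1 1
    have b3 : max (q + a1) (q + a2 - 1) ≤ psum κ' 1 := h.2 0
    have b4 : 2 * q + a1 + a2 - 1 ≤ psum κ' 2 := h.2 1
    refine Kron.conj_third h4 hc.symm ?_
    rw [h2]
    exact hook2_UV hν.2 h5 h6 (h3 ▸ hκ.conj hc) hc.symm a1 a2 ha1 ha2 (by omega) (by omega)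
      (by omega) (by omega) (by omega)
  refine check_end hν h0 (dfsTop_sound _ (fun R hR κ κ' hκ hc h => ?_)
    (fun l hl hl' _ => Or.inr (check_leaf h4 ho hl hl')) hd)
  rcases List.mem_cons.1 hR with rfl | hR
  · have b1 : q ≤ psum κ 1 := h.1 0
    have b2 : 2 * q - 1 ≤ psum κ 2 := h.1 1
    exact Or.inl ⟨b1, by omega⟩
  right
  rcases List.mem_cons.1 hR with rfl | hR
  · have b1 : q ≤ psum κ' 1 := h.2 0
    have b2 : 2 * q - 1 ≤ psum κ' 2 := h.2 1
    have b3 : 3 * q - 3 ≤ psum κ' 3 := h.2 2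
    have b4 : 4 * q - 6 ≤ psum κ' 4 := h.2 3
    refine Kron.conj_third h4 hc.symm ?_
    rw [h2]
    exact hook2_H4 hν.2 h5 h6 (h3 ▸ hκ.conj hc) ⟨b1, by omega, by omega, by omega⟩
  rcases List.mem_append.1 hR with hR | hR
  · exact check_brule h1 h4 hg hR hκ hc h
  · simp only [List.mem_cons, List.not_mem_nil, or_false] at hR
    rcases hR with rfl | rfl | rfl | rfl | rfl | rfl | rfl | rfl <;>
      exact uv _ _ κ κ' (by omega) (by omega) hκ hc h

/-- The two-hook step with an abstract covering hypothesis. -/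
theorem good_of_cover {q : ℕ} {ν P S : List ℕ} {C : List (ℕ × ℕ)} (hν : GoodL ν)
    (hh : hook2B q ν = true) (hG : Grp (hook2L q ν) P S C)
    (hcov : ∀ c c', IsPart (hook2L q ν).sum c → IsConjP c c' → psum c 2 + 2 ≤ 2 * q →
      Dom c (wts P S C) ∨ Dom c' (wts P S C) ∨ H4 q c') : GoodL (hook2L q ν) := by
  obtain ⟨h1, h2, h3, h4, h5, h6⟩ := check_hook2 hν hh
  refine check_end hν hh fun κ hκ => ?_
  by_cases h : 2 * q ≤ psum κ 2 + 1
  · have := psum_concave hκ.1 (show 1 ≤ 2 by omega)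
    exact Or.inl ⟨by omega, h⟩
  right
  obtain ⟨κ', hc⟩ := hκ.exists_conj
  rcases hcov κ κ' hκ hc (by omega) with a | a | a
  · exact thmB h1 hG hκ a
  · exact (thmB h1 hG (hκ.conj hc) a).conj_third h4 hc.symm
  · refine Kron.conj_third h4 hc.symm ?_
    rw [h2]
    exact hook2_H4 hν.2 h5 h6 (h3 ▸ hκ.conj hc) a

def chkNL (q : ℕ) (ν : List ℕ) (g : GD) : Bool :=
  hook2B q ν && forceL (hook2L q ν) (fun μ => grpB μ g) && forceL (swts g) fun ws => nlCheck q ws

theorem good_chkNL {q : ℕ} {ν : List ℕ} {g : GD} (hν : GoodL ν) (h : chkNL q ν g = true) :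
    GoodL (hook2L q ν) := by
  simp only [chkNL, Bool.and_eq_true, forceL_eq] at h
  obtain ⟨⟨h1, h2⟩, h3⟩ := h
  have hG := grpB_sound h2
  exact good_of_cover hν h1 hG fun c c' hc hc' h =>
    nlCheck_sound (List.perm_insertionSort _ _) (List.pairwise_insertionSort _ _) h3
      (hG.sum_wts ▸ hc) hc' h

/-- One level of the numerical range: items `(index of ν, q, grouping)`. -/
def levelOK (prev : List (List ℕ)) (items : List (ℕ × ℕ × GD)) (out : List (List ℕ)) : Bool :=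
  items.all (fun it => chkNL it.2.1 (prev.getD it.1 []) it.2.2) &&
    decide (items.map (fun it => hook2L it.2.1 (prev.getD it.1 [])) = out)

theorem levelOK_sound {prev : List (List ℕ)} {items : List (ℕ × ℕ × GD)} {out : List (List ℕ)}
    (hp : ∀ ν ∈ prev, GoodL ν) (h : levelOK prev items out = true) : ∀ μ ∈ out, GoodL μ := by
  simp only [levelOK, Bool.and_eq_true, List.all_eq_true, decide_eq_true_eq] at h
  obtain ⟨h1, rfl⟩ := h
  intro μ hμ
  obtain ⟨it, hit, rfl⟩ := List.mem_map.1 hμ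
  refine good_chkNL ?_ (h1 it hit)
  rcases lt_or_ge it.1 prev.length with hi | hi
  · rw [List.getD_eq_getElem _ _ hi]; exact hp _ (List.getElem_mem hi)
  · rw [List.getD_eq_default _ _ hi]; exact goodL_nil

end Crest.Agent.R195
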