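import Crest.Agent.R195.ThmHAux

/-! Row 195: Theorem H (a Pieri rule for Kronecker positivity). -/

set_option autoImplicit false
open Finset Equiv

namespace Crest.Agent.R195

section
variable {A B : Type} [Fintype A] [DecidableEq A] [Fintype B] [DecidableEq B]

theorem thmH_eps_sum (c r a : A ⊕ B → ℕ)
    (h : ∀ x y, c (.inr x) = c (.inl y) → a (.inr x) ≠ r (.inl y)) :
    eps c r a = eps (c ∘ .inl) (r ∘ .inl) (a ∘ .inl) * eps (c ∘ .inr) (r ∘ .inr) (a ∘ .inr) := by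
  unfold eps
  rw [← Matrix.det_fromBlocks_zero₁₂ _
    (Matrix.of fun (x : B) (y : A) => (0 : ℤ)) _, Matrix.det_fromBlocks_zero₁₂,
    ← Matrix.det_fromBlocks_zero₂₁ _ (Matrix.of fun (x : A) (y : B) =>
      if c (.inl x) = c (.inr y) ∧ a (.inl x) = r (.inr y) then (1 : ℤ) else 0) _]
  congr 1
  ext (x | x) (y | y)
  · rfl
  · rfl
  · simp only [Matrix.of_apply, Matrix.fromBlocks_apply₂₁, Matrix.zero_apply]
    exact if_neg fun H => h x y H.1 H.2
  · rfl

omit [Fintype A] [DecidableEq A] in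
theorem thmH_row_tab {α : ℕ → ℕ} {b : ℕ} {c r : A → ℕ} (h : IsTab α c r) (hα : α 0 ≤ b) :
    IsTab (rcons b α) (Sum.elim c fun j : Fin b => (j : ℕ))
      (Sum.elim (fun x => r x + 1) fun _ => 0) := by
  refine ⟨⟨?_, ?_, ?_⟩, antitone_nat_of_succ_le ?_⟩
  · rintro (x | x) (y | y) e1 e2
    · exact congrArg _ (h.inj x y (by simpa using e1) e2)
    · simp at e1
    · simp at e1
    · exact congrArg _ (Fin.ext e2)
  · rintro (x | x)
    · exact h.mem x
    · exact x.2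
  · rintro (_ | i) j hj
    · exact ⟨.inr ⟨j, hj⟩, rfl, rfl⟩
    · obtain ⟨x, e1, e2⟩ := h.surj i j hj
      exact ⟨.inl x, congrArg (· + 1) e1, e2⟩
  · rintro (_ | i)
    · exact hα
    · exact h.anti (Nat.le_succ i)

theorem thmH_eps_row {b : ℕ} (c r a : A → ℕ) (h : Perm A) (τ : Perm (Fin b)) :
    eps (Sum.elim c fun j : Fin b => (j : ℕ)) (Sum.elim (fun x => r x + 1) fun _ => 0)
      ((Sum.elim (fun x => a x + 1) fun _ => 0) ∘ ⇑(Perm.sumCongr h τ)) = eps c r (a ∘ h) := by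
  rw [thmH_eps_sum _ _ _ fun x y _ => by simp]
  have e1 : eps ((Sum.elim c fun j : Fin b => (j : ℕ)) ∘ .inr)
      ((Sum.elim (fun x => r x + 1) fun _ => 0) ∘ .inr)
      (((Sum.elim (fun x => a x + 1) fun _ => 0) ∘ ⇑(Perm.sumCongr h τ)) ∘ .inr) = 1 :=
    eps_self (c := fun j : Fin b => (j : ℕ)) (r := fun _ => 0) fun x y _ e => Fin.ext e
  rw [e1, mul_one]
  exact eps_congr fun x y => by simp

theorem thmH_eps_strip {κ : ℕ → ℕ} {c r : A → ℕ} (a : A → ℕ) {c' r' : B → ℕ}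
    (hT : IsTab κ (Sum.elim c c') (Sum.elim r r')) (hbot : ∀ j, κ (r' j + 1) ≤ c' j)
    (h : Perm A) (τ : Perm B) [Decidable (∀ j, r' (τ j) = r' j)] :
    eps (Sum.elim c c') (Sum.elim r r') (Sum.elim a r' ∘ ⇑(Perm.sumCongr h τ)) =
      if ∀ j, r' (τ j) = r' j then eps c r (a ∘ h) else 0 := by
  split_ifs with hτ
  · rw [thmH_eps_sum _ _ _ fun x y e1 e2 => ?_]
    · have e1 : (Sum.elim a r' ∘ ⇑(Perm.sumCongr h τ)) ∘ .inr = r' := funext hτ
      rw [e1]
      have e2 : eps (Sum.elim c c' ∘ .inr) (Sum.elim r r' ∘ .inr) r' = 1 :=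
        eps_self (c := c') (r := r') fun x y e e' =>
          Sum.inr_injective (hT.inj (.inr x) (.inr y) e e')
      rw [e2, mul_one]
      rfl
    · have e3 : r' x = r y := (hτ x).symm.trans e2
      exact absurd (hT.inj (.inr x) (.inl y) e3 e1) (by simp)
  · by_contra hne
    obtain ⟨γ, hγc, hγ⟩ := exists_of_eps_ne hne
    have h1 : ∀ j, r' (τ j) = Sum.elim r r' (γ.symm (.inr j)) := fun j => by
      rw [← hγ, apply_symm_apply]; rfl
    have h2 : ∀ j, r' (τ j) ≤ r' j := fun j => by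
      rw [h1]
      by_contra hcon
      have h3 := hT.mem (γ.symm (.inr j))
      rw [← hγc, apply_symm_apply] at h3
      have h4 : κ (Sum.elim r r' (γ.symm (.inr j))) ≤ κ (r' j + 1) := hT.anti (by omega)
      have h5 := hbot j
      simp only [Sum.elim_inr] at h3
      omega
    have h3 : ∑ j, r' (τ j) = ∑ j, r' j := Equiv.sum_comp τ r'
    exact hτ fun j => (sum_eq_sum_iff_of_le fun i _ => h2 i).1 h3 j (mem_univ j)

theorem thmH_sum_S (f : Perm (A ⊕ B) → ℝ) :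
    ∑ h ∈ thmHS (univ.filter fun x : A ⊕ B => x.isRight), f h =
      ∑ h : Perm A, ∑ τ : Perm B, f (Perm.sumCongr h τ) := by
  rw [← Fintype.sum_prod_type']
  symm
  refine sum_bij (fun p _ => Perm.sumCongr p.1 p.2) (fun p _ => ?_)
    (fun p _ q _ e => Perm.sumCongrHom_injective e) (fun σ hσ => ?_) fun _ _ => rfl
  · rw [mem_thmHS]
    rintro (x | x) <;> simp
  · rw [mem_thmHS] at hσ
    obtain ⟨p, hp⟩ := Perm.mem_sumCongrHom_range_of_perm_mapsTo_inl (σ := σ) (by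
      rintro _ ⟨x, rfl⟩
      have := hσ (.inl x)
      rcases e : σ (.inl x) with y | y
      · exact ⟨y, rfl⟩
      · simp [e] at this)
    exact ⟨p, mem_univ _, hp⟩

end

/-- Enumeration of the cells of a skew shape. -/
theorem thmH_cells {θ κ : ℕ → ℕ} {b m : ℕ} (hθ : IsPart m θ) (hκ : IsPart (m + b) κ)
    (h1 : ∀ i, θ i ≤ κ i) : ∃ c' r' : Fin b → ℕ, (∀ x y, r' x = r' y → c' x = c' y → x = y) ∧
      (∀ x, θ (r' x) ≤ c' x ∧ c' x < κ (r' x)) ∧
      ∀ i j, θ i ≤ j → j < κ i → ∃ x, r' x = i ∧ c' x = j := by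
  set S : Finset (Σ _ : ℕ, ℕ) := (range (m + b)).sigma fun i => Ico (θ i) (κ i) with hS
  have hcard : S.card = b := by
    have e1 : psum θ (m + b) = m := hθ.psum_eq (Nat.le_add_right _ _)
    have e2 : psum κ (m + b) = m + b := hκ.2.2
    have e3 : ∑ i ∈ range (m + b), (κ i - θ i) + psum θ (m + b) = psum κ (m + b) := by
      unfold psum
      rw [← sum_add_distrib]
      exact sum_congr rfl fun i _ => Nat.sub_add_cancel (h1 i)
    rw [hS, card_sigma]
    simp only [Nat.card_Ico]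
    omega
  set e := (S.equivFinOfCardEq hcard).symm
  refine ⟨fun x => (e x).1.2, fun x => (e x).1.1, fun x y e1 e2 => e.injective ?_, fun x => ?_,
    fun i j hj hj' => ?_⟩
  · exact Subtype.ext (Sigma.ext e1 (heq_of_eq e2))
  · have := (e x).2
    simp only [hS, mem_sigma, mem_Ico] at this
    exact this.2
  · have hi : i < m + b := by
      by_contra hcon
      have := hκ.eq_zero (not_lt.1 hcon)
      omega
    refine ⟨e.symm ⟨⟨i, j⟩, by simp [hS, hi, hj, hj']⟩, ?_, ?_⟩ <;> simp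

theorem thmH {α β θ κ : ℕ → ℕ} {b m : ℕ} (hK : Kron α β θ) (hθ : IsPart m θ)
    (hκ : IsPart (m + b) κ) (h1 : ∀ i, θ i ≤ κ i) (h2 : ∀ i, κ (i + 1) ≤ θ i)
    (hα : α 0 ≤ b) (hβ : β 0 ≤ b)
    (hc : ∀ t, α t + β t ≤ b ∨ α t + β t + t + 1 ≤ 2 * b) :
    Kron (rcons b α) (rcons b β) κ := by
  obtain ⟨n, c1, r1, a1, c2, r2, a2, c3, r3, a3, T1, T2, T3, hne⟩ := hK
  obtain ⟨c', r', hinj, hmem, hsurj⟩ := thmH_cells hθ hκ h1
  have T3' : IsTab κ (Sum.elim c3 c') (Sum.elim r3 r') := by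
    refine ⟨⟨?_, ?_, fun i j hj => ?_⟩, hκ.1⟩
    · rintro (x | x) (y | y) e1 e2
      · exact congrArg _ (T3.inj x y e1 e2)
      · have := T3.mem x
        have := (hmem y).1
        simp only [Sum.elim_inl, Sum.elim_inr] at e1 e2
        rw [← e1] at this
        omega
      · have := T3.mem y
        have := (hmem x).1
        simp only [Sum.elim_inl, Sum.elim_inr] at e1 e2
        rw [e1] at this
        omega
      · exact congrArg _ (hinj x y e1 e2)
    · rintro (x | x)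
      · exact (T3.mem x).trans_le (h1 _)
      · exact (hmem x).2
    · rcases lt_or_ge j (θ i) with h | h
      · obtain ⟨x, e⟩ := T3.surj i j h
        exact ⟨.inl x, e⟩
      · obtain ⟨x, e⟩ := hsurj i j h hj
        exact ⟨.inr x, e⟩
  by_contra hcon
  set z : Perm (Fin n ⊕ Fin b) → ℝ := fun σ =>
    (eps (Sum.elim c3 c') (Sum.elim r3 r') (Sum.elim a3 r' ∘ σ) : ℝ) with hz
  have hI : thmHI (rcons b α) (rcons b β) z := by
    intro d1 s1 w1 d2 s2 w2 U1 U2
    by_contra h0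
    refine hcon (KronOn.kron ⟨d1, s1, w1, d2, s2, w2, _, _, Sum.elim a3 r', U1, U2, T3', ?_⟩)
    intro h
    apply h0
    simp only [thmHF, hz]
    exact_mod_cast h
  have hrow : ∀ f : Fin n → ℕ, ∀ x : Fin n ⊕ Fin b,
      Sum.elim (fun x => f x + 1) (fun _ => 0) x = 0 ↔
        x ∈ univ.filter fun x : Fin n ⊕ Fin b => x.isRight := by
    rintro f (x | x) <;> simp
  have h0 := thmH_core _ hc (thmH_row_tab T1 hα) (hrow r1) (hrow a1) (hrow a2) _ _ _
    (thmH_row_tab T2 hβ) (hrow r2) rfl z hI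
  rw [thmH_sum_S] at h0
  simp only [thmHF, hz, thmH_eps_row,
    thmH_eps_strip a3 T3' fun j => (h2 _).trans (hmem j).1] at h0
  have h3 : ∀ h : Perm (Fin n), ∑ τ : Perm (Fin b),
      ((eps c1 r1 (a1 ∘ h) * eps c2 r2 (a2 ∘ h) : ℤ) : ℝ) *
        ((if ∀ j, r' (τ j) = r' j then eps c3 r3 (a3 ∘ h) else 0 : ℤ) : ℝ) =
      ((univ.filter fun τ : Perm (Fin b) => ∀ j, r' (τ j) = r' j).card : ℝ) *
        ((eps c1 r1 (a1 ∘ h) * eps c2 r2 (a2 ∘ h) * eps c3 r3 (a3 ∘ h) : ℤ) : ℝ) := by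
    intro h
    rw [← nsmul_eq_mul, ← sum_const, sum_filter]
    refine sum_congr rfl fun τ _ => ?_
    split_ifs <;> simp
  rw [sum_congr rfl fun h _ => h3 h, ← mul_sum] at h0
  rcases mul_eq_zero.1 h0 with h4 | h4
  · have : (1 : Perm (Fin b)) ∈ univ.filter fun τ : Perm (Fin b) => ∀ j, r' (τ j) = r' j := by
      simp
    exact card_ne_zero_of_mem this (by exact_mod_cast h4)
  · exact hne (by exact_mod_cast h4)

end Crest.Agent.R195
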