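import Crest.Agent.R195.Key
import Crest.Agent.R195.ThmH

/-! Row 195: one-hook and two-hook rules. -/

set_option autoImplicit false
open Finset Equiv

namespace Crest.Agent.R195

variable {m q : ℕ} {ν κ κ' : ℕ → ℕ}

theorem hook_psum_one (κ : ℕ → ℕ) : psum κ 1 = κ 0 := by simp [psum]

theorem hook_F_zero (q : ℕ) (ν : ℕ → ℕ) : hookF q ν 0 = q := by simp [hookF]

theorem hook_F_succ (q : ℕ) (ν : ℕ → ℕ) (i : ℕ) :
    hookF q ν (i + 1) = if i + 1 < q then ν i + 1 else 0 := by simp [hookF]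

theorem hook_zero_of_conj (hs : IsConjP ν ν) {t : ℕ} (ht : ν 0 ≤ t) : ν t = 0 := by
  have := hs t 0
  omega

theorem hook_psum_of_zero (hν : IsPart m ν) {k : ℕ} (hk : ν k = 0) : psum ν k = m :=
  (isPart_of hν.1 hk rfl).unique hν

/-- Removal of a horizontal strip of size `b` avoiding the first `a` columns. -/
theorem hook_strip {N : ℕ} (a b : ℕ) (hκ : IsPart (N + b) κ) (hab : a + b ≤ κ 0) :
    ∃ θ : ℕ → ℕ, IsPart N θ ∧ (∀ i, θ i ≤ κ i) ∧ (∀ i, κ (i + 1) ≤ θ i) ∧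
      (∀ i, min (κ i) a ≤ θ i) ∧ ∀ k, psum θ k + b = psum κ k + min (κ k - a) b := by
  have ha : ∀ i, κ (i + 1) ≤ κ i := fun i => hκ.1 (Nat.le_succ i)
  let θ : ℕ → ℕ := fun i =>
    min (κ i) a + (κ i - a - min (κ i - a) b + min (κ (i + 1) - a) b)
  have h1 : ∀ i, θ i ≤ κ i := fun i => by
    have := ha i
    simp only [θ]; omega
  have h2 : ∀ i, κ (i + 1) ≤ θ i := fun i => by
    have := ha i
    simp only [θ]; omega
  have h3 : ∀ k, psum θ k + b = psum κ k + min (κ k - a) b := fun k => by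
    induction k with
    | zero => simp only [psum, range_zero, sum_empty]; omega
    | succ k ih =>
      have := ha k
      rw [psum_succ, psum_succ]
      simp only [θ] at ih ⊢
      omega
  refine ⟨θ, isPart_of (antitone_nat_of_succ_le fun i => (h1 _).trans (h2 i)) (N := N + b)
    ?_ ?_, h1, h2, fun i => Nat.le_add_right _ _, h3⟩
  · have := h1 (N + b)
    have := hκ.2.1
    omega
  · have := h3 (N + b)
    rw [hκ.2.1, hκ.2.2] at this
    omega

/-- Column sums after removing a strip. -/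
theorem hook_strip_conj {θ θ' : ℕ → ℕ} {a : ℕ} (hκ : IsConjP κ κ') (hθ : IsConjP θ θ')
    (h2 : ∀ i, κ (i + 1) ≤ θ i) (h3 : ∀ i, min (κ i) a ≤ θ i) (k : ℕ) :
    psum κ' k ≤ psum θ' k + (k - a) := by
  induction k with
  | zero => simp [psum]
  | succ k ih =>
    rw [psum_succ, psum_succ]
    have e1 : κ' k ≤ θ' k + 1 := by
      by_contra h
      have g1 := (hκ (θ' k + 1) k).2 (by omega)
      have g2 := (hθ (θ' k) k).1 (g1.trans_le (h2 _))
      omega
    have e2 : k < a → κ' k ≤ θ' k := fun hk => by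
      by_contra h
      have g1 := (hκ (θ' k) k).2 (by omega)
      have g2 := h3 (θ' k)
      have g3 := (hθ (θ' k) k).1 (by omega)
      omega
    omega

theorem hookF_shape (hν : IsPart m ν) (hs : IsConjP ν ν) (hq : ν 0 + 1 ≤ q) :
    IsPart (m + 2 * q - 1) (hookF q ν) ∧ IsConjP (hookF q ν) (hookF q ν) := by
  have h0 : ∀ i, ν i ≤ ν 0 := fun i => hν.1 (Nat.zero_le i)
  constructor
  · refine isPart_of (antitone_nat_of_succ_le fun i => ?_) (N := q) ?_ ?_
    · rcases i with _ | i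
      · rw [hook_F_zero, hook_F_succ]
        split_ifs <;> omega
      · have : ν (i + 1) ≤ ν i := hν.1 (Nat.le_succ i)
        rw [hook_F_succ, hook_F_succ]
        split_ifs <;> omega
    · obtain ⟨k, rfl⟩ : ∃ k, q = k + 1 := ⟨q - 1, by omega⟩
      rw [hook_F_succ, if_neg (lt_irrefl _)]
    · have key : ∀ k, k + 1 ≤ q → psum (hookF q ν) (k + 1) = q + k + psum ν k := fun k hk => by
        induction k with
        | zero => simp [psum, hookF]
        | succ k ih =>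
          rw [psum_succ, ih (by omega), psum_succ, hook_F_succ, if_pos (by omega)]
          omega
      obtain ⟨k, rfl⟩ : ∃ k, q = k + 1 := ⟨q - 1, by omega⟩
      rw [key k le_rfl, hook_psum_of_zero hν (hook_zero_of_conj hs (by omega))]
      omega
  · intro i j
    rcases i with _ | i <;> rcases j with _ | j
    · rfl
    · rw [hook_F_zero, hook_F_succ]
      split_ifs <;> constructor <;> intro <;> omega
    · rw [hook_F_zero, hook_F_succ]
      split_ifs <;> constructor <;> intro <;> omega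
    · have := hs i j
      have := h0 i
      have := h0 j
      rw [hook_F_succ, hook_F_succ]
      split_ifs <;> constructor <;> intro <;> omega

/-- Adding a hook along two horizontal strips. -/
theorem hook_step {θ1 θ2 : ℕ → ℕ} (hν : Antitone ν) (hs : IsConjP ν ν) (hq : ν 0 + 1 ≤ q)
    (hc : ∀ t, t + 1 < q → 2 * ν t + t + 3 ≤ 2 * q) (h2 : IsPart m θ2)
    (h1 : IsPart (m + (q - 1)) θ1) (hκ : IsPart (m + (q - 1) + q) κ)
    (a1 : ∀ i, θ1 i ≤ κ i) (a2 : ∀ i, κ (i + 1) ≤ θ1 i)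
    (b1 : ∀ i, θ2 i ≤ θ1 i) (b2 : ∀ i, θ1 (i + 1) ≤ θ2 i) (hK : Kron ν ν θ2) :
    Kron (hookF q ν) (hookF q ν) κ := by
  have h0 : ∀ i, ν i ≤ ν 0 := fun i => hν (Nat.zero_le i)
  have k1 : Kron (rcons (q - 1) ν) (rcons (q - 1) ν) θ1 :=
    thmH hK h2 h1 b1 b2 (by omega) (by omega) fun t => by
      by_cases ht : t + 1 < q
      · have := hc t ht
        omega
      · have := hook_zero_of_conj hs (t := t) (by omega)
        omega
  let μb : ℕ → ℕ := fun i => if i + 1 < q then ν i + 1 else 0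
  have hb : IsConjP (rcons (q - 1) ν) μb := by
    intro i j
    rcases i with _ | i
    · simp only [rcons, μb]
      split_ifs <;> omega
    · have := hs i j
      have := h0 i
      simp only [rcons, μb]
      split_ifs <;> omega
  have hμ0 : μb 0 ≤ q := by
    simp only [μb]
    split_ifs <;> omega
  have k2 : Kron (rcons q μb) (rcons q μb) κ :=
    thmH (k1.conj12 hb hb) h1 hκ a1 a2 hμ0 hμ0 fun t => by
      have := hc t
      simp only [μb]
      split_ifs <;> omega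
  have e : rcons q μb = hookF q ν := by
    funext i
    rcases i with _ | i <;> simp [rcons, hookF, μb]
  rwa [e] at k2

/-- For a self-conjugate shape the covered set is closed under conjugation. -/
theorem Kron.conj_third {μ : ℕ → ℕ} (hs : IsConjP μ μ) (hc : IsConjP κ κ') (h : Kron μ μ κ) :
    Kron μ μ κ' := h.conj23 hs hc

theorem hook1_rule (hν : Good m ν) (hq : ν 0 + 1 ≤ q)
    (hc : ∀ t, t + 1 < q → 2 * ν t + t + 3 ≤ 2 * q) (hκ : IsPart (m + 2 * q - 1) κ)
    (h1 : q ≤ psum κ 1) (h2 : 2 * q ≤ psum κ 2 + 1) : Kron (hookF q ν) (hookF q ν) κ := by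
  have hκ1 : IsPart (m + (q - 1) + q) κ := by
    rwa [show m + (q - 1) + q = m + 2 * q - 1 by omega]
  have e1 := hook_psum_one κ
  have e2 : psum κ 2 = psum κ 1 + κ 1 := psum_succ κ 1
  obtain ⟨θ1, p1, a1, a2, -, a4⟩ := hook_strip 0 q hκ1 (by omega)
  have f1 := hook_psum_one θ1
  have g1 := a4 1
  obtain ⟨θ2, p2, b1, b2, -, -⟩ := hook_strip 0 (q - 1) p1 (by omega)
  exact hook_step hν.1.1 hν.2.1 hq hc p2 p1 hκ1 a1 a2 b1 b2 (hν.2.2 θ2 p2)

theorem hook_outer (hq : ν 0 + 3 ≤ q) (hc : ∀ t, t + 3 < q → 2 * ν t + t + 7 ≤ 2 * q) (t : ℕ)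
    (ht : t + 1 < q) : 2 * hookF (q - 2) ν t + t + 3 ≤ 2 * q := by
  rcases t with _ | t
  · rw [hook_F_zero]
    omega
  · have := hc t
    rw [hook_F_succ]
    split_ifs <;> omega

theorem hook2_H4 (hν : Good m ν) (hq : ν 0 + 3 ≤ q)
    (hc : ∀ t, t + 3 < q → 2 * ν t + t + 7 ≤ 2 * q) (hκ : IsPart (m + 4 * q - 6) κ)
    (h : H4 q κ) : Kron (hookF q (hookF (q - 2) ν)) (hookF q (hookF (q - 2) ν)) κ := by
  obtain ⟨s1, s2⟩ := hookF_shape (q := q - 2) hν.1 hν.2.1 (by omega)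
  have hκ1 : IsPart (m + 2 * (q - 2) - 1 + (q - 1) + q) κ := by
    rwa [show m + 2 * (q - 2) - 1 + (q - 1) + q = m + 4 * q - 6 by omega]
  obtain ⟨c1, c2, c3, c4⟩ := h
  have e1 := hook_psum_one κ
  have e2 : psum κ 2 = psum κ 1 + κ 1 := psum_succ κ 1
  have e3 : psum κ 3 = psum κ 2 + κ 2 := psum_succ κ 2
  have e4 : psum κ 4 = psum κ 3 + κ 3 := psum_succ κ 3
  obtain ⟨θ1, p1, a1, a2, -, a4⟩ := hook_strip 0 q hκ1 (by omega)
  have f1 := hook_psum_one θ1
  have f2 : psum θ1 2 = psum θ1 1 + θ1 1 := psum_succ θ1 1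
  have f3 : psum θ1 3 = psum θ1 2 + θ1 2 := psum_succ θ1 2
  have g1 := a4 1
  have g2 := a4 2
  have g3 := a4 3
  obtain ⟨θ2, p2, b1, b2, -, b4⟩ := hook_strip 0 (q - 1) p1 (by omega)
  have k1 := b4 1
  have k2 := b4 2
  refine hook_step s1.1 s2 (by rw [hook_F_zero]; omega) (hook_outer hq hc) p2 p1 hκ1
    a1 a2 b1 b2 (hook1_rule hν (by omega) (fun t ht => ?_) p2 (by omega) (by omega))
  have := hc t (by omega)
  omega

/-- Two horizontal strips avoiding the first `a1` resp. `a2` columns, then two vertical strips. -/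
theorem hook2_UV (hν : Good m ν) (hq : ν 0 + 3 ≤ q)
    (hc : ∀ t, t + 3 < q → 2 * ν t + t + 7 ≤ 2 * q) (hκ : IsPart (m + 4 * q - 6) κ)
    (hκ' : IsConjP κ κ') (a1 a2 : ℕ) (ha1 : a1 ≤ 2) (ha2 : a2 ≤ 2)
    (h1 : q + a1 ≤ psum κ 1) (h1' : q + a2 ≤ psum κ 1 + 1) (h2 : 2 * q + a1 + a2 ≤ psum κ 2 + 1)
    (h3 : q + (1 - a1) + (1 - a2) ≤ psum κ' 1 + 2) (h4 : 2 * q ≤ psum κ' 2 + a1 + a2 + 1) :
    Kron (hookF q (hookF (q - 2) ν)) (hookF q (hookF (q - 2) ν)) κ := by
  obtain ⟨s1, s2⟩ := hookF_shape (q := q - 2) hν.1 hν.2.1 (by omega)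
  have hκ1 : IsPart (m + 2 * (q - 2) - 1 + (q - 1) + q) κ := by
    rwa [show m + 2 * (q - 2) - 1 + (q - 1) + q = m + 4 * q - 6 by omega]
  have e1 := hook_psum_one κ
  have e2 : psum κ 2 = psum κ 1 + κ 1 := psum_succ κ 1
  obtain ⟨θ1, p1, u1, u2, u3, u4⟩ := hook_strip a1 q hκ1 (by omega)
  have f1 := hook_psum_one θ1
  have g1 := u4 1
  obtain ⟨θ2, p2, b1, b2, b3, -⟩ := hook_strip a2 (q - 1) p1 (by omega)
  obtain ⟨θ1', c1⟩ := p1.exists_conj
  obtain ⟨θ2', c2⟩ := p2.exists_conj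
  have k1 := hook_strip_conj hκ' c1 u2 u3 1
  have k2 := hook_strip_conj hκ' c1 u2 u3 2
  have l1 := hook_strip_conj c1 c2 b2 b3 1
  have l2 := hook_strip_conj c1 c2 b2 b3 2
  refine hook_step s1.1 s2 (by rw [hook_F_zero]; omega) (hook_outer hq hc) p2 p1 hκ1
    u1 u2 b1 b2 ((hook1_rule hν (by omega) (fun t ht => ?_) (p2.conj c2) (by omega)
      (by omega)).conj_third s2 c2.symm)
  have := hc t (by omega)
  omega

end Crest.Agent.R195
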