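import Crest.Agent.R195.BandP
import Crest.Agent.R195.BandC

/-! Row 195: Theorem B (band theorem). -/

set_option autoImplicit false
open Finset Equiv

namespace Crest.Agent.R195

theorem thmB_left {l l' : List ℕ} {i : ℕ} (h : i < l.length) : toF (l ++ l') i = toF l i := by
  unfold toF
  rw [List.getD_append _ _ _ _ h]

theorem thmB_right (l l' : List ℕ) (i : ℕ) : toF (l ++ l') (l.length + i) = toF l' i := by
  unfold toF
  rw [List.getD_append_right _ _ _ _ (Nat.le_add_right _ _), Nat.add_sub_cancel_left]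

theorem thmB_get {l : List ℕ} {i : ℕ} (h : i < l.length) : toF l i = l[i] := by
  unfold toF
  rw [List.getD_eq_getElem _ _ h]

theorem thmB_map {α : Type} (f : α → ℕ) {l : List α} {i : ℕ} (h : i < l.length) :
    toF (l.map f) i = f l[i] := by
  rw [thmB_get (by simpa using h), List.getElem_map]

theorem thmB_lt {l : List ℕ} {i : ℕ} (h : 0 < toF l i) : i < l.length := by
  by_contra hi
  unfold toF at h
  rw [List.getD_eq_default _ _ (not_lt.1 hi)] at h
  exact lt_irrefl _ h

theorem thmB_inj {l : List ℕ} (hl : l.Nodup) {i j : ℕ} (hi : i < l.length) (hj : j < l.length)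
    (h : toF l i = toF l j) : i = j := by
  rw [thmB_get hi, thmB_get hj] at h
  exact (hl.getElem_inj_iff).1 h

theorem thmB_perm {l l' : List ℕ} (h : l.Perm l') : ∃ φ ψ : ℕ → ℕ, (∀ i, ψ (φ i) = i) ∧
    (∀ i, φ (ψ i) = i) ∧ ∀ i, toF l (φ i) = toF l' i := by
  induction h with
  | nil => exact ⟨id, id, fun _ => rfl, fun _ => rfl, fun _ => rfl⟩
  | cons a _ ih =>
    obtain ⟨φ, ψ, h1, h2, h3⟩ := ih
    refine ⟨rcons 0 fun i => φ i + 1, rcons 0 fun i => ψ i + 1, fun i => ?_, fun i => ?_,
      fun i => ?_⟩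
    · cases i with
      | zero => rfl
      | succ i => exact congrArg (· + 1) (h1 i)
    · cases i with
      | zero => rfl
      | succ i => exact congrArg (· + 1) (h2 i)
    · cases i with
      | zero => rfl
      | succ i => exact h3 i
  | swap a b l =>
    refine ⟨rcons 1 (rcons 0 fun i => i + 2), rcons 1 (rcons 0 fun i => i + 2), fun i => ?_,
      fun i => ?_, fun i => ?_⟩ <;>
    · rcases i with _ | _ | i <;> rfl
  | trans _ _ ih1 ih2 =>
    obtain ⟨φ, ψ, h1, h2, h3⟩ := ih1
    obtain ⟨φ', ψ', h1', h2', h3'⟩ := ih2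
    exact ⟨fun i => φ (φ' i), fun i => ψ' (ψ i), fun i => by simp only [h1, h1'],
      fun i => by simp only [h2, h2'], fun i => by rw [h3, h3']⟩

theorem thmB_flat_len (P : List ℕ) :
    (P.flatMap fun L => [(L + 1) / 2, L / 2, L / 2, (L - 1) / 2]).length = 4 * P.length := by
  induction P with
  | nil => rfl
  | cons L P ih =>
    rw [List.flatMap_cons, List.length_append, ih]
    simp only [List.length_cons, List.length_nil]
    omega

theorem thmB_flat (P : List ℕ) : ∀ k < P.length, ∀ j < 4,
    toF (P.flatMap fun L => [(L + 1) / 2, L / 2, L / 2, (L - 1) / 2]) (4 * k + j) =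
      toF [(toF P k + 1) / 2, toF P k / 2, toF P k / 2, (toF P k - 1) / 2] j := by
  induction P with
  | nil => intro k hk; exact absurd hk (Nat.not_lt_zero _)
  | cons L P ih =>
    intro k hk j hj
    rw [List.flatMap_cons]
    cases k with
    | zero =>
      rw [thmB_left (by simpa using hj)]
      simp only [Nat.mul_zero, Nat.zero_add]
      rfl
    | succ k =>
      have e : 4 * (k + 1) + j =
          [(L + 1) / 2, L / 2, L / 2, (L - 1) / 2].length + (4 * k + j) := by
        simp only [List.length_cons, List.length_nil]; omega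
      rw [e, thmB_right, ih k (by simpa using hk) j hj]
      rfl

theorem thmB_parity {Ω : Type} [Fintype Ω] [DecidableEq Ω] {sz : ℕ → ℕ} {c ρ : Ω → ℕ}
    (h : IsGrid sz c ρ) (i e : ℕ) :
    (univ.filter fun x => ρ x = i ∧ c x % 2 = e).card ≤ (sz i + 1 - e) / 2 := by
  rw [← Finset.card_range ((sz i + 1 - e) / 2)]
  refine Finset.card_le_card_of_injOn (fun x => c x / 2) (fun x hx => ?_) fun x hx y hy hxy => ?_
  · have h1 := (Finset.mem_filter.1 hx).2
    have h2 := h.mem x
    rw [h1.1] at h2
    have h3 := h1.2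
    simp only [Finset.coe_range, Set.mem_Iio]
    omega
  · have h1 := (Finset.mem_filter.1 hx).2
    have h2 := (Finset.mem_filter.1 hy).2
    refine h.inj x y (h1.1.trans h2.1.symm) ?_
    have h3 := h1.2
    have h4 := h2.2
    simp only at hxy
    omega

/-- the colouring -/
def thmBcol (s t c i j : ℕ) : ℕ :=
  if i < s then 4 * i + j % 2 else if i < 2 * s then 4 * (i - s) + 2 + j % 2
  else if i < 2 * s + t + c then i + 2 * s else i + 2 * s - c

theorem thmB_dom {Ω : Type} [Fintype Ω] [DecidableEq Ω] {κ : ℕ → ℕ} {w : List ℕ} (hd : Dom κ w)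
    (p : Ω → Fin w.length) (hp : ∀ q, (univ.filter fun x => p x = q).card ≤ toF w q)
    (s : Finset (Fin w.length)) : (univ.filter fun x => p x ∈ s).card ≤ psum κ s.card := by
  have h1 : (univ.filter fun x => p x ∈ s).card = ∑ q ∈ s, (univ.filter fun x => p x = q).card := by
    rw [Finset.card_eq_sum_card_fiberwise (f := p) (s := univ.filter fun x => p x ∈ s) (t := s)
      (fun x hx => (Finset.mem_filter.1 hx).2)]
    refine Finset.sum_congr rfl fun q hq => ?_
    congr 1
    ext x
    simp only [Finset.mem_filter, Finset.mem_univ, true_and]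
    exact ⟨fun h => h.2, fun h => ⟨h ▸ hq, h⟩⟩
  have h2 := hd (s.val.map w.get) (by
    refine (Multiset.map_le_map (Finset.val_le_iff.2 (Finset.subset_univ s))).trans ?_
    rw [Fin.univ_val_map, List.ofFn_get])
  rw [Multiset.card_map] at h2
  refine le_trans ?_ h2
  rw [h1]
  refine Finset.sum_le_sum fun q _ => (hp q).trans (le_of_eq ?_)
  rw [thmB_get q.2]
  rfl

theorem thmB {μ P S : List ℕ} {C : List (ℕ × ℕ)} (hμ : μ.Pairwise (· ≥ ·)) (hG : Grp μ P S C)
    {κ : ℕ → ℕ} (hκ : IsPart μ.sum κ) (hd : Dom κ (wts P S C)) : Kron (toF μ) (toF μ) κ := by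
  classical
  obtain ⟨φ, ψ, hψφ, hφψ, hφ⟩ := thmB_perm hG.perm
  obtain ⟨sz, hsz⟩ : ∃ sz, sz = toF (P ++ P.map (· - 1) ++ S ++ C.map Prod.fst ++
    C.map Prod.snd) := ⟨_, rfl⟩
  rw [← hsz] at hφ
  obtain ⟨s, hs⟩ : ∃ s, s = P.length := ⟨_, rfl⟩
  obtain ⟨t, ht⟩ : ∃ t, t = S.length := ⟨_, rfl⟩
  obtain ⟨c, hc⟩ : ∃ c, c = C.length := ⟨_, rfl⟩
  -- the rows
  have hA : (P ++ P.map (· - 1) ++ S).length = 2 * s + t := by
    simp only [List.length_append, List.length_map]; omega
  have z0 : ∀ i < 2 * s + t, sz i = toF (P ++ P.map (· - 1) ++ S) i := by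
    intro i hi
    rw [hsz, thmB_left (by simp only [List.length_append, List.length_map]; omega),
      thmB_left (by omega)]
  have z1 : ∀ i < s, sz i = toF P i := by
    intro i hi
    rw [z0 i (by omega), thmB_left (by simp only [List.length_append, List.length_map]; omega),
      thmB_left (by omega)]
  have z2 : ∀ i < s, sz (s + i) = toF P i - 1 := by
    intro i hi
    rw [z0 _ (by omega), thmB_left (by simp only [List.length_append, List.length_map]; omega),
      hs, thmB_right, thmB_map _ (by omega), thmB_get (by omega)]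
  have z3 : ∀ i < t, sz (2 * s + i) = toF S i := by
    intro i hi
    have e : 2 * s = (P ++ P.map (· - 1)).length := by
      simp only [List.length_append, List.length_map]; omega
    rw [z0 _ (by omega), e, thmB_right]
  have z4 : ∀ i, (hi : i < C.length) → sz (2 * s + t + i) = C[i].1 := by
    intro i hi
    rw [hsz, thmB_left (by simp only [List.length_append, List.length_map]; omega), ← hA,
      thmB_right, thmB_map _ hi]
  have z5 : ∀ i, sz (2 * s + t + c + i) = toF (C.map Prod.snd) i := by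
    intro i
    have e : 2 * s + t + c = (P ++ P.map (· - 1) ++ S ++ C.map Prod.fst).length := by
      simp only [List.length_append, List.length_map]; omega
    rw [hsz, e, thmB_right]
  have z6 : ∀ i, 0 < sz i → i < 2 * s + t + 2 * c := by
    intro i hi
    rw [hsz] at hi
    have := thmB_lt hi
    simp only [List.length_append, List.length_map] at this
    omega
  have hP : ∀ i < s, 1 ≤ toF P i := by
    intro i hi
    rw [thmB_get (by omega)]
    exact hG.pos _ (List.getElem_mem _)
  -- the weights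
  have hwl : (wts P S C).length = 4 * s + t + c := by
    unfold wts
    rw [List.length_append, List.length_append, thmB_flat_len, List.length_map]
    omega
  have w1 : ∀ k < s, ∀ j < 4, toF (wts P S C) (4 * k + j) =
      toF [(toF P k + 1) / 2, toF P k / 2, toF P k / 2, (toF P k - 1) / 2] j := by
    intro k hk j hj
    unfold wts
    rw [thmB_left (by rw [List.length_append, thmB_flat_len]; omega),
      thmB_left (by rw [thmB_flat_len]; omega), thmB_flat P k (by omega) j hj]
  have w2 : ∀ i < t, toF (wts P S C) (4 * s + i) = toF S i := by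
    intro i hi
    unfold wts
    rw [thmB_left (by rw [List.length_append, thmB_flat_len]; omega), hs, ← thmB_flat_len,
      thmB_right]
  have w3 : ∀ i, (hi : i < C.length) → toF (wts P S C) (4 * s + t + i) = C[i].1 + C[i].2 := by
    intro i hi
    unfold wts
    rw [hs, ht, ← thmB_flat_len, ← List.length_append, thmB_right, thmB_map _ hi]
  -- the tableaux
  obtain ⟨c1, r, hT1⟩ := exists_tab (Ω := Fin μ.sum) (μ := toF μ)
    (by rw [Fintype.card_fin]; exact isPart_toF hμ)
  obtain ⟨c3, r3, hT3⟩ := exists_tab (Ω := Fin μ.sum) (μ := κ)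
    (by rw [Fintype.card_fin]; exact hκ)
  obtain ⟨c2, hc2⟩ : ∃ c2 : Fin μ.sum → ℕ, ∀ x, c2 x = toF μ (r x) - 1 - c1 x := ⟨_, fun _ => rfl⟩
  have hT2 : IsTab (toF μ) c2 r := by
    refine ⟨⟨fun x y h1 h2 => hT1.inj x y h1 ?_, fun x => ?_, fun i j hj => ?_⟩, hT1.anti⟩
    · have h3 := hT1.mem x
      have h4 := hT1.mem y
      rw [hc2, hc2, ← h1] at h2
      rw [← h1] at h4
      omega
    · have h3 := hT1.mem x
      rw [hc2]; omega
    · obtain ⟨x, h1, h2⟩ := hT1.surj i (toF μ i - 1 - j) (by omega)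
      refine ⟨x, h1, ?_⟩
      rw [hc2, h1, h2]; omega
  obtain ⟨ρ, hρ⟩ : ∃ ρ : Fin μ.sum → ℕ, ∀ x, ρ x = ψ (r x) := ⟨_, fun _ => rfl⟩
  have hszρ : ∀ x, sz (ρ x) = toF μ (r x) := fun x => by rw [← hφ, hρ, hφψ]
  have hgrid : ∀ c' : Fin μ.sum → ℕ, IsTab (toF μ) c' r → IsGrid sz c' ρ := by
    intro c' h
    refine ⟨fun x y h1 h2 => h.inj x y ?_ h2, fun x => ?_, fun i j hj => ?_⟩
    · rw [← hφψ (r x), ← hφψ (r y), ← hρ, ← hρ, h1]
    · rw [hszρ]; exact h.mem x
    · obtain ⟨x, h1, h2⟩ := h.surj (φ i) j (by rw [hφ]; exact hj)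
      exact ⟨x, by rw [hρ, h1, hψφ], h2⟩
  have heps : ∀ c' a : Fin μ.sum → ℕ, eps c' r (φ ∘ a) = eps c' ρ a := by
    intro c' a
    refine eps_congr fun x y => and_congr_right fun _ => ?_
    rw [hρ]
    exact ⟨fun h => by rw [← h]; exact (hψφ _).symm, fun h => by
      rw [Function.comp_apply, h, hφψ]⟩
  have hB : Band sz s c1 c2 ρ := by
    refine ⟨hgrid c1 hT1, hgrid c2 hT2, fun x => ?_, fun i hi => ?_⟩
    · have := hT1.mem x
      rw [hszρ, hc2]; omega
    · have := hP i hi
      rw [z1 i hi, z2 i hi]; omega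
  have hρlt : ∀ x, ρ x < 2 * s + t + 2 * c := fun x =>
    z6 _ (lt_of_le_of_lt (Nat.zero_le _) (hB.g1.mem x))
  -- the submodule
  by_contra hK
  have hK' : ∀ c1' r1' a1 c2' r2' a2 c3' r3' a3 : Fin μ.sum → ℕ, IsTab (toF μ) c1' r1' →
      IsTab (toF μ) c2' r2' → IsTab κ c3' r3' → ∑ σ : Perm (Fin μ.sum),
        eps c1' r1' (a1 ∘ σ) * eps c2' r2' (a2 ∘ σ) * eps c3' r3' (a3 ∘ σ) = 0 := by
    intro c1' r1' a1 c2' r2' a2 c3' r3' a3 h1 h2 h3
    by_contra h
    exact hK ⟨_, c1', r1', a1, c2', r2', a2, c3', r3', a3, h1, h2, h3, h⟩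
  let I : Submodule ℝ (Perm (Fin μ.sum) → ℝ) :=
    { carrier := {z | ∀ (a1 a2 : Fin μ.sum → ℕ) (g : Perm (Fin μ.sum)), ∑ σ : Perm (Fin μ.sum),
        ((eps c1 ρ (a1 ∘ σ) * eps c2 ρ (a2 ∘ σ) : ℤ) : ℝ) * z (σ * g) = 0}
      zero_mem' := fun a1 a2 g => by simp
      add_mem' := fun {z z'} hz hz' a1 a2 g => by
        simp only [Pi.add_apply, mul_add, Finset.sum_add_distrib]
        rw [hz a1 a2 g, hz' a1 a2 g, add_zero]
      smul_mem' := fun a z hz a1 a2 g => by
        simp only [Pi.smul_apply, smul_eq_mul, mul_left_comm _ a, ← Finset.mul_sum]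
        rw [hz a1 a2 g, mul_zero] }
  have hI : ∀ z ∈ I, ∀ τ : Perm (Fin μ.sum), (fun g => z (τ * g)) ∈ I := by
    intro z hz τ a1 a2 g
    rw [← hz (a1 ∘ ⇑τ⁻¹) (a2 ∘ ⇑τ⁻¹) g]
    symm
    rw [← Equiv.sum_comp (Equiv.mulLeft τ)]
    refine Finset.sum_congr rfl fun σ _ => ?_
    have e : ∀ a : Fin μ.sum → ℕ, (a ∘ ⇑τ⁻¹) ∘ ⇑(τ * σ) = a ∘ σ := fun a => by
      funext x; simp
    simp only [Equiv.coe_mulLeft, e, mul_assoc]
  have hz0 : (fun σ : Perm (Fin μ.sum) => (eps c3 r3 (r3 ∘ σ) : ℝ)) ∈ I := by
    intro a1 a2 g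
    have h := hK' c1 r (φ ∘ a1) c2 r (φ ∘ a2) (c3 ∘ ⇑g⁻¹) (r3 ∘ ⇑g⁻¹) r3 hT1 hT2
      (hT3.comp_equiv g⁻¹)
    have h' := congrArg (Int.cast : ℤ → ℝ) h
    rw [Int.cast_sum, Int.cast_zero] at h'
    rw [← h']
    refine Finset.sum_congr rfl fun σ _ => ?_
    have e : eps (c3 ∘ ⇑g⁻¹) (r3 ∘ ⇑g⁻¹) (r3 ∘ σ) = eps c3 r3 (r3 ∘ ⇑(σ * g)) := by
      rw [← eps_comp_equiv c3 r3 (r3 ∘ ⇑(σ * g)) g⁻¹]
      congr 1
      funext x; simp
    rw [e, Function.comp_assoc, Function.comp_assoc, heps, heps]
    push_cast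
    rfl
  have hz0' : (fun σ : Perm (Fin μ.sum) => (eps c3 r3 (r3 ∘ σ) : ℝ)) ≠ 0 := by
    intro h
    have h1 := congrFun h 1
    simp only [Perm.coe_one, Function.comp_id, eps_self hT3.inj, Pi.zero_apply] at h1
    norm_num at h1
  have hinv : LInv r3 (fun σ : Perm (Fin μ.sum) => (eps c3 r3 (r3 ∘ σ) : ℝ)) := by
    intro x y hxy g
    have e : r3 ∘ ⇑(swap x y * g) = r3 ∘ g := by
      funext u
      simp only [Function.comp_apply, Perm.mul_apply, swap_apply_def]
      split_ifs with h1 h2
      · rw [h1, hxy]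
      · rw [h2, hxy]
      · rfl
    simp only [e]
  -- the colouring
  let p : Fin μ.sum → Fin (wts P S C).length := fun x =>
    ⟨thmBcol s t c (ρ x) (c1 x), by
      have := hρlt x
      rw [hwl]; unfold thmBcol; split_ifs <;> omega⟩
  have hp : ∀ q, (univ.filter fun x => p x = q).card ≤ toF (wts P S C) q := by
    rintro ⟨q, hq⟩
    rw [hwl] at hq
    simp only [p, Fin.mk.injEq]
    by_cases h1 : q < 4 * s
    · have h2 := w1 (q / 4) (by omega) (q % 4) (by omega)
      rw [Nat.div_add_mod] at h2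
      rw [h2]
      have h3 := hP (q / 4) (by omega)
      have h4 := z1 (q / 4) (by omega)
      have h5 := z2 (q / 4) (by omega)
      by_cases h6 : q % 4 < 2
      · refine le_trans (Finset.card_le_card fun x hx => ?_)
          ((thmB_parity hB.g1 (q / 4) (q % 4)).trans ?_)
        · have h7 := (Finset.mem_filter.1 hx).2
          have h8 := hρlt x
          refine Finset.mem_filter.2 ⟨mem_univ _, ?_⟩
          unfold thmBcol at h7
          split_ifs at h7 <;> omega
        · rw [h4]
          obtain h | h : q % 4 = 0 ∨ q % 4 = 1 := by omega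
          · rw [h]; exact le_rfl
          · rw [h]; exact le_rfl
      · refine le_trans (Finset.card_le_card fun x hx => ?_)
          ((thmB_parity hB.g1 (s + q / 4) (q % 4 - 2)).trans ?_)
        · have h7 := (Finset.mem_filter.1 hx).2
          have h8 := hρlt x
          refine Finset.mem_filter.2 ⟨mem_univ _, ?_⟩
          unfold thmBcol at h7
          split_ifs at h7 <;> omega
        · rw [h5]
          obtain h | h : q % 4 = 2 ∨ q % 4 = 3 := by omega
          · rw [h]
            change _ ≤ toF P (q / 4) / 2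
            omega
          · rw [h]
            change _ ≤ (toF P (q / 4) - 1) / 2
            omega
    · by_cases h2 : q < 4 * s + t
      · have h3 := w2 (q - 4 * s) (by omega)
        have h4 := z3 (q - 4 * s) (by omega)
        rw [show 4 * s + (q - 4 * s) = q by omega] at h3
        rw [h3, ← h4, ← hB.g1.card_row]
        refine Finset.card_le_card fun x hx => ?_
        have h7 := (Finset.mem_filter.1 hx).2
        have h8 := hρlt x
        refine Finset.mem_filter.2 ⟨mem_univ _, ?_⟩
        unfold thmBcol at h7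
        split_ifs at h7 <;> omega
      · have h0 : q - (4 * s + t) < C.length := by omega
        have h3 := w3 _ h0
        have h4 := z4 _ h0
        have h5 := z5 (q - (4 * s + t))
        rw [thmB_map _ h0] at h5
        rw [show 4 * s + t + (q - (4 * s + t)) = q by omega] at h3
        rw [h3, ← h4, ← h5, ← hB.g1.card_row, ← hB.g1.card_row]
        refine le_trans (Finset.card_le_card fun x hx => ?_) (Finset.card_union_le _ _)
        have h7 := (Finset.mem_filter.1 hx).2
        have h8 := hρlt x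
        simp only [Finset.mem_union, Finset.mem_filter, mem_univ, true_and]
        unfold thmBcol at h7
        split_ifs at h7 <;> omega
  obtain ⟨z, hzI, hz, hzp⟩ := muirhead I hI r3 hT3.card_row hz0 hz0' hinv p (thmB_dom hd p hp)
  have hsw : ∀ x y, thmBcol s t c (ρ x) (c1 x) = thmBcol s t c (ρ y) (c1 y) →
      ∀ g, z (swap x y * g) = z g := fun x y h => hzp x y (Fin.ext h)
  obtain ⟨a1, a2, ha1, ha2, hu⟩ := band_pairs hB z hz fun x y h1 h2 h3 => hsw x y (by
    unfold thmBcol; split_ifs <;> omega)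
  have h0 := band_sum hB ha1 ha2 z (fun x y h1 h2 => hsw x y (by
    unfold thmBcol; split_ifs <;> omega)) (hzI a1 a2)
  refine hu (band_clusters hB.g1 hB.anti
    ((List.range c).map fun a => (2 * s + t + a, 2 * s + t + c + a)) ?_ ?_ ?_ _ ?_ h0)
  · rw [List.map_map, List.map_map, List.nodup_append]
    refine ⟨List.nodup_range.map fun a b h => ?_, List.nodup_range.map fun a b h => ?_, ?_⟩
    · simp only [Function.comp_apply] at h; omega
    · simp only [Function.comp_apply] at h; omega
    · intro a ha b hb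
      simp only [List.mem_map, List.mem_range, Function.comp_apply] at ha hb
      obtain ⟨a', ha', rfl⟩ := ha
      obtain ⟨b', hb', rfl⟩ := hb
      omega
  · have key : ∀ i, i ∉ ((List.range c).map fun a => (2 * s + t + a, 2 * s + t + c + a)).map
        Prod.fst → 0 < sz i → ∃ i', i' < 2 * s + t + c ∧
          toF (P ++ P.map (· - 1) ++ S ++ C.map Prod.snd) i' = sz i ∧
          ((i' < 2 * s + t ∧ i = i') ∨ (2 * s + t ≤ i' ∧ i = i' + c)) := by
      intro i hi hpos
      have h1 := z6 i hpos
      by_cases h2 : i < 2 * s + t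
      · exact ⟨i, by omega, by rw [thmB_left (by omega), z0 i h2], Or.inl ⟨h2, rfl⟩⟩
      · have h3 : 2 * s + t + c ≤ i := by
          by_contra h3
          apply hi
          simp only [List.map_map, List.mem_map, List.mem_range, Function.comp_apply]
          exact ⟨i - (2 * s + t), by omega, by omega⟩
        refine ⟨2 * s + t + (i - (2 * s + t + c)), by omega, ?_, Or.inr ⟨by omega, by omega⟩⟩
        rw [← hA, thmB_right, hA, ← z5]
        congr 1
        omega
    intro i j hi hj hij hpos
    obtain ⟨i', a1, a2, a3⟩ := key i hi hpos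
    obtain ⟨j', b1, b2, b3⟩ := key j hj (hij ▸ hpos)
    have hl : (P ++ P.map (· - 1) ++ S ++ C.map Prod.snd).length = 2 * s + t + c := by
      rw [List.length_append, hA, List.length_map, hc]
    have := thmB_inj hG.nodup (i := i') (j := j') (by omega) (by omega) (by rw [a2, b2, hij])
    omega
  · have e : (((List.range c).map fun a => (2 * s + t + a, 2 * s + t + c + a)).map
        fun p => (sz p.1, sz p.2)) = C := by
      refine List.ext_getElem (by simp [hc]) fun i h1 h2 => ?_
      simp only [List.getElem_map, List.getElem_range]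
      rw [z4 i h2, z5, thmB_map _ h2]
    rw [e]
    exact hG.cl
  · intro q hq x y hx hy
    simp only [List.mem_map, List.mem_range] at hq
    obtain ⟨a, ha, rfl⟩ := hq
    simp only at hx hy
    refine pairOp_swap s a1 a2 z (two_mul_le_grp (by omega)) (two_mul_le_grp (by omega))
      (hsw x y ?_)
    unfold thmBcol
    split_ifs <;> omega

theorem Grp.sum_wts {μ P S : List ℕ} {C : List (ℕ × ℕ)} (hG : Grp μ P S C) :
    (wts P S C).sum = μ.sum := by
  have h1 : ∀ P : List ℕ, (∀ L ∈ P, 1 ≤ L) →
      (P.flatMap fun L => [(L + 1) / 2, L / 2, L / 2, (L - 1) / 2]).sum =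
        P.sum + (P.map (· - 1)).sum := by
    intro P
    induction P with
    | nil => intro _; rfl
    | cons L P ih =>
      intro h
      have h2 := h L List.mem_cons_self
      rw [List.flatMap_cons, List.sum_append, ih fun L' hL => h L' (List.mem_cons_of_mem _ hL)]
      simp only [List.sum_cons, List.sum_nil, List.map_cons]
      omega
  rw [hG.perm.sum_eq]
  unfold wts
  simp only [List.sum_append, h1 P hG.pos, List.sum_map_add]
  omega

end Crest.Agent.R195
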