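import Crest.Agent.R195.CheckDfs
import Crest.Agent.R195.Hook
import Crest.Agent.R195.ThmB
import Crest.Agent.R195.Cert

/-! Row 195: soundness of the certificate checker. -/

set_option autoImplicit false
open Finset

namespace Crest.Agent.R195

theorem checkCert_one_zero : one 0 = fun _ => 0 := by
  funext i; simp [one]

theorem checkCert_kron_nil : Kron (toF []) (toF []) (toF []) := by
  have := kron_triv (isPart_toF (l := []) List.Pairwise.nil)
  rwa [List.sum_nil, checkCert_one_zero, ← toF_nil] at this

theorem goodL_nil : GoodL [] := by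
  refine ⟨List.Pairwise.nil, isPart_toF List.Pairwise.nil, fun i j => by simp [toF_nil],
    fun κ hκ => ?_⟩
  have : κ = toF [] := by
    rw [toF_nil]; funext i; exact hκ.eq_zero (by simp)
  rw [this]
  exact checkCert_kron_nil

/-- The initial store of the certificates. -/
def specT : List Tr :=
  [([], [], []), ([2, 2], [2, 2], [2, 2]), ([3, 2], [3, 2], [2, 2, 1]), ([3, 3], [3, 3], [2, 2, 2]),
   ([4, 2, 1, 1], [4, 2, 1, 1], [3, 3, 2]), ([4, 4, 3], [4, 4, 3], [3, 3, 2, 2, 1]),
   ([4, 4, 3], [4, 4, 3], [3, 3, 3, 1, 1])]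

theorem checkCert_empty : KT emptyT :=
  ⟨List.Pairwise.nil, List.Pairwise.nil, List.Pairwise.nil, checkCert_kron_nil⟩

theorem specT_ok : ∀ t ∈ specT, KT t := by
  intro t ht
  simp only [specT, List.mem_cons, List.not_mem_nil, or_false] at ht
  rcases ht with rfl | rfl | rfl | rfl | rfl | rfl | rfl
  · exact checkCert_empty
  · exact ⟨by decide, by decide, by decide, special4⟩
  · exact ⟨by decide, by decide, by decide, special5⟩
  · exact ⟨by decide, by decide, by decide, special6⟩
  · exact ⟨by decide, by decide, by decide, special8⟩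
  · exact ⟨by decide, by decide, by decide, special11a⟩
  · exact ⟨by decide, by decide, by decide, special11b⟩

theorem checkCert_forceT {α : Type} (t : Tr) (f : Tr → α) : forceT t f = f t := by
  simp [forceT, forceL_eq]

theorem checkCert_cjT (o : ℕ) {t : Tr} (h : KT t) : KT (cjT o t) := by
  obtain ⟨h1, h2, h3, hk⟩ := h
  match o with
  | 0 => exact ⟨h1, h2, h3, hk⟩
  | 1 => exact ⟨conjL_sorted _, conjL_sorted _, h3, hk.conj12 (isConj_conjL h1) (isConj_conjL h2)⟩
  | 2 => exact ⟨conjL_sorted _, h2, conjL_sorted _, hk.conj13 (isConj_conjL h1) (isConj_conjL h3)⟩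
  | n + 3 =>
    exact ⟨h1, conjL_sorted _, conjL_sorted _, hk.conj23 (isConj_conjL h2) (isConj_conjL h3)⟩

theorem checkCert_pmT (o : ℕ) {t : Tr} (h : KT t) : KT (pmT o t) := by
  obtain ⟨h1, h2, h3, hk⟩ := h
  match o with
  | 0 => exact ⟨h1, h2, h3, hk⟩
  | 1 => exact ⟨h1, h3, h2, hk.swap23⟩
  | 2 => exact ⟨h2, h1, h3, hk.swap12⟩
  | 3 => exact ⟨h2, h3, h1, hk.swap12.swap23⟩
  | 4 => exact ⟨h3, h1, h2, hk.swap23.swap12⟩
  | n + 5 => exact ⟨h3, h2, h1, hk.swap12.swap23.swap12⟩

theorem checkCert_getD {α : Type} {P : α → Prop} {st : List α} {d : α} (hd : P d)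
    (h : ∀ t ∈ st, P t) (i : ℕ) : P (st.getD i d) := by
  rw [List.getD_eq_getElem?_getD]
  cases e : st[i]? with
  | none => exact hd
  | some t => exact h t (List.mem_of_getElem? e)

theorem checkCert_orient {st : List Tr} (h : ∀ t ∈ st, KT t) (o i : ℕ) :
    KT (orient o (st.getD i emptyT)) :=
  checkCert_pmT _ (checkCert_cjT _ (checkCert_getD checkCert_empty h i))

theorem checkCert_toF_zero (a : ℕ) (l : List ℕ) : toF (a :: l) 0 = a := rfl

theorem checkCert_toF_succ (a : ℕ) (l : List ℕ) (i : ℕ) : toF (a :: l) (i + 1) = toF l i := rfl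

theorem checkCert_toF_nil (i : ℕ) : toF [] i = 0 := rfl

theorem checkCert_toF_addL (l m : List ℕ) : toF (addL l m) = toF l + toF m := by
  induction l generalizing m with
  | nil => funext i; simp [addL, checkCert_toF_nil]
  | cons a l ih =>
    cases m with
    | nil => funext i; simp [addL, checkCert_toF_nil]
    | cons b m =>
      funext i
      cases i with
      | zero => rfl
      | succ i => simp only [addL, Pi.add_apply, checkCert_toF_succ, ih]

theorem checkCert_sorted_of_anti {l : List ℕ} (h : Antitone (toF l)) : l.Pairwise (· ≥ ·) := by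
  rw [List.pairwise_iff_getElem]
  intro i j hi hj hij
  rw [← toF_of_lt hi, ← toF_of_lt hj]
  exact h hij.le

theorem checkCert_addL_sorted {l m : List ℕ} (hl : l.Pairwise (· ≥ ·)) (hm : m.Pairwise (· ≥ ·)) :
    (addL l m).Pairwise (· ≥ ·) := by
  apply checkCert_sorted_of_anti
  rw [checkCert_toF_addL]
  exact (toF_anti hl).add (toF_anti hm)

theorem checkCert_leL {l m : List ℕ} (h : leL l m = true) (i : ℕ) : toF l i ≤ toF m i := by
  induction l generalizing m i with
  | nil => exact Nat.zero_le _
  | cons a l ih =>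
    cases m with
    | nil =>
      simp only [leL, Bool.and_eq_true, Nat.beq_eq] at h
      cases i with
      | zero => exact h.1.le
      | succ i => exact ih h.2 i
    | cons b m =>
      simp only [leL, Bool.and_eq_true, Nat.ble_eq] at h
      cases i with
      | zero => exact h.1
      | succ i => exact ih h.2 i

theorem checkCert_tail (l : List ℕ) (i : ℕ) : toF l.tail i = toF l (i + 1) := by
  cases l <;> rfl

theorem checkCert_head (l : List ℕ) : toF l 0 = l.headD 0 := by
  cases l <;> rfl

theorem checkCert_condHL {b : ℕ} {α β : List ℕ} {t : ℕ} (h : condHL b t α β = true)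
    (hα : ∀ i, toF α i ≤ b) (hβ : ∀ i, toF β i ≤ b) (i : ℕ) :
    toF α i + toF β i ≤ b ∨ toF α i + toF β i + (t + i) + 1 ≤ 2 * b := by
  induction α generalizing β t i with
  | nil => left; simpa [checkCert_toF_nil] using hβ i
  | cons x α ih =>
    cases β with
    | nil => left; simpa [checkCert_toF_nil] using hα i
    | cons y β =>
      simp only [condHL, Bool.and_eq_true, Bool.or_eq_true, Nat.ble_eq] at h
      cases i with
      | zero => exact h.1
      | succ i =>
        have := ih h.2 (fun i => hα (i + 1)) (fun i => hβ (i + 1)) i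
        simp only [checkCert_toF_succ]
        omega

theorem checkCert_domL {n : ℕ} {bs l : List ℕ} {s : ℕ} (h : domL n s l bs = true) (k : ℕ) :
    bs.getD k 0 ≤ s + (l.take (k + 1)).sum := by
  induction bs generalizing l s k with
  | nil => exact Nat.zero_le _
  | cons b bs ih =>
    cases l with
    | nil =>
      simp only [domL, Bool.and_eq_true, Nat.ble_eq] at h
      cases k with
      | zero => simpa using h.1
      | succ k => simpa using ih h.2 k
    | cons x l =>
      simp only [domL, Bool.and_eq_true, Nat.ble_eq] at h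
      cases k with
      | zero => simpa using h.1
      | succ k =>
        have := ih h.2 k
        simp only [List.getD_cons_succ, List.take_succ_cons, List.sum_cons] at this ⊢
        omega

theorem checkCert_step {Bs : List (List ℕ × GD)} {Gt : List (List ℕ)} {st : List Tr}
    (hB : ∀ e ∈ Bs, bOK e = true) (hG : ∀ g ∈ Gt, GoodL g) (hs : ∀ t ∈ st, KT t) {x : Node}
    {t : Tr} (h : step (Bs.map bEntry) Gt st x = some t) : KT t := by
  cases x with
  | T l =>
    simp only [step, Bool.cond_eq_ite, Option.ite_none_right_eq_some, Option.some.injEq,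
      sortedB_iff] at h
    obtain ⟨h1, rfl⟩ := h
    refine ⟨List.pairwise_singleton _ _, h1, h1, ?_⟩
    have e : toF [l.sum] = one l.sum := by
      funext i
      cases i <;> simp [one, toF]
    simp only [e]
    exact kron_triv (isPart_toF h1)
  | S i o j p =>
    simp only [step, Option.some.injEq] at h
    subst h
    obtain ⟨a1, a2, a3, a4⟩ := checkCert_orient hs o i
    obtain ⟨b1, b2, b3, b4⟩ := checkCert_orient hs p j
    refine ⟨checkCert_addL_sorted a1 b1, checkCert_addL_sorted a2 b2,
      checkCert_addL_sorted a3 b3, ?_⟩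
    simp only [checkCert_toF_addL]
    exact a4.add b4
  | H b i o l =>
    simp only [step, checkCert_forceT, Bool.cond_eq_ite, Option.ite_none_right_eq_some,
      Option.some.injEq, Bool.and_eq_true, sortedB_iff, Nat.beq_eq, Nat.ble_eq] at h
    obtain ⟨⟨⟨⟨⟨⟨⟨h1, h2⟩, h3⟩, h4⟩, h5⟩, h6⟩, h7⟩, rfl⟩ := h
    obtain ⟨a1, a2, a3, a4⟩ := checkCert_orient hs o i
    set u := orient o (st.getD i emptyT)
    have c1 : ∀ i, toF u.1 i ≤ b := fun i =>
      (toF_anti a1 (Nat.zero_le i)).trans (by rwa [checkCert_head])
    have c2 : ∀ i, toF u.2.1 i ≤ b := fun i =>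
      (toF_anti a2 (Nat.zero_le i)).trans (by rwa [checkCert_head])
    refine ⟨List.pairwise_cons.2 ⟨fun x hx => (part_le_headD a1 hx).trans h5, a1⟩,
      List.pairwise_cons.2 ⟨fun x hx => (part_le_headD a2 hx).trans h6, a2⟩, h1, ?_⟩
    simp only [toF_cons]
    refine thmH a4 (isPart_toF a3) (h2 ▸ isPart_toF h1) (checkCert_leL h3) (fun i => ?_)
      (c1 0) (c2 0) fun t => ?_
    · rw [← checkCert_tail]; exact checkCert_leL h4 i
    · simpa using checkCert_condHL h7 c1 c2 t
  | B k l =>
    simp only [step, Bool.cond_eq_ite, Option.ite_none_right_eq_some,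
      Option.some.injEq, Bool.and_eq_true, sortedB_iff, Nat.beq_eq] at h
    obtain ⟨⟨⟨h1, h2⟩, h3⟩, rfl⟩ := h
    refine checkCert_getD (P := fun e : List ℕ × List ℕ => l.sum = e.1.sum →
      domL l.sum 0 l e.2 = true → KT (e.1, e.1, l)) (fun h2 _ => ?_) (fun e he h2 h3 => ?_) k h2 h3
    · exact ⟨List.Pairwise.nil, List.Pairwise.nil, h1,
        goodL_nil.2.2.2 _ (h2 ▸ isPart_toF h1)⟩
    · obtain ⟨e, he', rfl⟩ := List.mem_map.1 he
      have := hB e he'
      simp only [bOK, Bool.and_eq_true, sortedB_iff] at this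
      refine ⟨this.1, this.1, h1, thmB this.1 (grpB_sound this.2) (h2 ▸ isPart_toF h1)
        (dom_of_psums e.2 fun k => ?_)⟩
      rw [psum_toF]
      simpa [bEntry] using checkCert_domL h3 k
  | G k l =>
    simp only [step, Bool.cond_eq_ite, Option.ite_none_right_eq_some,
      Option.some.injEq, Bool.and_eq_true, sortedB_iff, Nat.beq_eq] at h
    obtain ⟨⟨h1, h2⟩, rfl⟩ := h
    have hg := checkCert_getD goodL_nil hG k
    exact ⟨hg.1, hg.1, h1, hg.2.2.2 _ (h2 ▸ isPart_toF h1)⟩

theorem checkCert_run {Bs : List (List ℕ × GD)} {Gt : List (List ℕ)}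
    (hB : ∀ e ∈ Bs, bOK e = true) (hG : ∀ g ∈ Gt, GoodL g) {nodes : List Node} {st st' : List Tr}
    (hs : ∀ t ∈ st, KT t) (h : run (Bs.map bEntry) Gt st nodes = some st') : ∀ t ∈ st', KT t := by
  induction nodes generalizing st with
  | nil =>
    simp only [run, Option.some.injEq] at h
    exact h ▸ hs
  | cons x xs ih =>
    unfold run at h
    cases e : step (Bs.map bEntry) Gt st x with
    | none => simp [e] at h
    | some t =>
      simp only [e, checkCert_forceT] at h
      refine ih (fun u hu => ?_) h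
      rcases List.mem_cons.1 hu with rfl | hu
      · exact checkCert_step hB hG hs e
      · exact hs u hu

theorem checkCert_thirds {μ : List ℕ} {st : List Tr} (hs : ∀ t ∈ st, KT t)
    (refs : List (ℕ × ℕ)) : ∀ l ∈ thirds μ st refs, KT (μ, μ, l) := by
  induction refs with
  | nil => simp [thirds]
  | cons r xs ih =>
    obtain ⟨i, o⟩ := r
    intro l hl
    simp only [thirds, checkCert_forceT, Bool.cond_eq_ite, Bool.and_eq_true, eqL_iff] at hl
    split_ifs at hl with h
    · rcases List.mem_cons.1 hl with rfl | hl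
      · have := checkCert_orient hs o i
        unfold KT at this ⊢
        rwa [h.1, h.2] at this
      · exact ih l hl
    · exact ih l hl

theorem certOK_sound {μ : List ℕ} {Bs : List (List ℕ × GD)} {Gt : List (List ℕ)} {init : List Tr}
    {nodes : List Node} {refs : List (ℕ × ℕ)} {out : List (List ℕ)}
    (hG : ∀ g ∈ Gt, GoodL g) (hi : ∀ t ∈ init, KT t)
    (h : certOK μ Bs Gt init nodes refs out = true) : ∀ l ∈ out, KT (μ, μ, l) := by
  unfold certOK at h
  rw [Bool.and_eq_true, List.all_eq_true] at h
  obtain ⟨hB, h⟩ := h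
  cases e : run (Bs.map bEntry) Gt init nodes with
  | none => simp [e] at h
  | some st =>
    simp only [e, decide_eq_true_eq] at h
    rw [← h]
    exact checkCert_thirds (checkCert_run hB hG hi e) refs

end Crest.Agent.R195
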