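import Crest.Agent.R195.Defs

/-! Row 195: Boolean checkers (definitions only). -/

set_option autoImplicit false

namespace Crest.Agent.R195

/-- Evaluate a number before passing it on (helps kernel evaluation). -/
def force {α : Type} (n : ℕ) (f : ℕ → α) : α :=
  match n with
  | 0 => f 0
  | k + 1 => f (Nat.succ k)

theorem force_eq {α : Type} (n : ℕ) (f : ℕ → α) : force n f = f n := by
  cases n <;> rfl

/-- Evaluate a list of numbers before passing it on. -/
def forceL {α : Type} : List ℕ → (List ℕ → α) → α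
  | [], f => f []
  | x :: l, f => force x fun y => forceL l fun m => f (y :: m)

theorem forceL_eq {α : Type} (l : List ℕ) (f : List ℕ → α) : forceL l f = f l := by
  induction l generalizing f with
  | nil => rfl
  | cons x l ih => simp [forceL, force_eq, ih]

def sortedB : List ℕ → Bool
  | a :: b :: l => Nat.ble b a && sortedB (b :: l)
  | _ => true

def eqL : List ℕ → List ℕ → Bool
  | [], [] => true
  | a :: l, b :: m => Nat.beq a b && eqL l m
  | _, _ => false

/-- A grouping as data. -/
abbrev GD := List ℕ × List ℕ × List (ℕ × ℕ)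

def grpB (μ : List ℕ) (g : GD) : Bool :=
  μ.isPerm (g.1 ++ g.1.map (· - 1) ++ g.2.1 ++ g.2.2.map Prod.fst ++ g.2.2.map Prod.snd) &&
  g.1.all (fun L => Nat.ble 1 L) &&
  decide (g.1 ++ g.1.map (· - 1) ++ g.2.1 ++ g.2.2.map Prod.snd).Nodup &&
  clOK [] g.2.2

/-- Sorted parts of a grouping. -/
def swts (g : GD) : List ℕ := (wts g.1 g.2.1 g.2.2).insertionSort (· ≥ ·)

/-- Prefix sums. -/
def psums : ℕ → List ℕ → List ℕ
  | _, [] => []
  | s, x :: l => (s + x) :: psums (s + x) l

/-! ### Pruned enumeration of partitions -/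

/-- A rule: lower bounds for the partial row sums and the partial column sums. -/
abbrev Rule := List ℕ × List ℕ

def Sat (κ κ' : ℕ → ℕ) (R : Rule) : Prop :=
  (∀ k, R.1.getD k 0 ≤ psum κ (k + 1)) ∧ ∀ k, R.2.getD k 0 ≤ psum κ' (k + 1)

def rowTail (n : ℕ) : ℕ → List ℕ → Bool
  | _, [] => true
  | s, b :: bs => Nat.ble b s && Nat.ble b n && rowTail n (Nat.succ s) bs

def colOK (rem m : ℕ) : ℕ → List ℕ → List ℕ → Bool
  | _, [], _ => true
  | _, _ :: _, [] => false
  | i, b :: bs, c :: cs =>
      Nat.blt (m * (b - c)) (rem * (bif Nat.ble i m then i else m) + m) &&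
        colOK rem m (Nat.succ i) bs cs

def addCol (x : ℕ) : ℕ → List ℕ → List ℕ
  | _, [] => []
  | i, c :: cs => (c + (bif Nat.ble i x then i else x)) :: addCol x (Nat.succ i) cs

def pushRules (s : ℕ) : List Rule → List Rule
  | [] => []
  | ([], c) :: Rs => ([], c) :: pushRules s Rs
  | (b :: bs, c) :: Rs => bif Nat.ble b s then (bs, c) :: pushRules s Rs else pushRules s Rs

def anyRule (n s m : ℕ) (cs : List ℕ) : List Rule → Bool
  | [] => false
  | R :: Rs => (rowTail n (s + 1) R.1 && colOK (n - s) m 1 R.2 cs) || anyRule n s m cs Rs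

/-- `∀ y, 1 ≤ y ≤ k → p y`. -/
def allTo (p : ℕ → Bool) : ℕ → Bool
  | 0 => true
  | k + 1 => p (Nat.succ k) && allTo p k

/-- `pre` = parts chosen so far (reversed), `s` their sum, `m` a bound for the remaining parts,
`cs` the partial column sums of `pre`, rules have their row bounds already shifted. -/
def dfs (n : ℕ) (leaf : List ℕ → Bool) : ℕ → List ℕ → ℕ → ℕ → List ℕ → List Rule → Bool
  | 0, _, _, _, _, _ => false
  | f + 1, pre, s, m, cs, Rs =>
      anyRule n s m cs Rs ||
      (bif Nat.beq s n then leaf pre.reverse else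
        allTo (fun y => force (s + y) fun s' => forceL (addCol y 1 cs) fun cs' =>
          dfs n leaf f (y :: pre) s' y cs' (pushRules s' Rs))
          (bif Nat.ble m (n - s) then m else n - s))

def dfsTop (n : ℕ) (leaf : List ℕ → Bool) (Rs : List Rule) : Bool :=
  dfs n leaf (n + 1) [] 0 n
    (List.replicate ((Rs.map fun R => R.2.length).foldr max 0) 0) Rs

/-! ### Certificates -/

abbrev Tr := List ℕ × List ℕ × List ℕ

def KT (t : Tr) : Prop :=
  t.1.Pairwise (· ≥ ·) ∧ t.2.1.Pairwise (· ≥ ·) ∧ t.2.2.Pairwise (· ≥ ·) ∧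
    Kron (toF t.1) (toF t.2.1) (toF t.2.2)

def cjT : ℕ → Tr → Tr
  | 0, t => t
  | 1, t => (conjL t.1, conjL t.2.1, t.2.2)
  | 2, t => (conjL t.1, t.2.1, conjL t.2.2)
  | _, t => (t.1, conjL t.2.1, conjL t.2.2)

def pmT : ℕ → Tr → Tr
  | 0, t => t
  | 1, t => (t.1, t.2.2, t.2.1)
  | 2, t => (t.2.1, t.1, t.2.2)
  | 3, t => (t.2.1, t.2.2, t.1)
  | 4, t => (t.2.2, t.1, t.2.1)
  | _, t => (t.2.2, t.2.1, t.1)

def orient (o : ℕ) (t : Tr) : Tr := pmT (o / 4) (cjT (o % 4) t)

def addL : List ℕ → List ℕ → List ℕ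
  | [], m => m
  | a :: l, [] => a :: l
  | a :: l, b :: m => (a + b) :: addL l m

def leL : List ℕ → List ℕ → Bool
  | [], _ => true
  | a :: l, [] => Nat.beq a 0 && leL l []
  | a :: l, b :: m => Nat.ble a b && leL l m

def condHL (b : ℕ) : ℕ → List ℕ → List ℕ → Bool
  | t, x :: α, y :: β =>
      (Nat.ble (x + y) b || Nat.ble (x + y + t + 1) (2 * b)) && condHL b (Nat.succ t) α β
  | _, _, _ => true

/-- Lower bounds `bs` for the partial sums of the partition `l` of `n`. -/
def domL (n : ℕ) : ℕ → List ℕ → List ℕ → Bool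
  | _, _, [] => true
  | s, [], b :: bs => Nat.ble b s && domL n s [] bs
  | s, x :: l, b :: bs => Nat.ble b (s + x) && domL n (s + x) l bs

inductive Node where
  | T (l : List ℕ)
  | S (i o j p : ℕ)
  | H (b i o : ℕ) (l : List ℕ)
  | B (k : ℕ) (l : List ℕ)
  | G (k : ℕ) (l : List ℕ)

def emptyT : Tr := ([], [], [])

def forceT {α : Type} (t : Tr) (f : Tr → α) : α :=
  forceL t.1 fun a => forceL t.2.1 fun b => forceL t.2.2 fun c => f (a, b, c)

/-- `Bt` : shapes with prefix sums of a sorted grouping composition; `Gt` : good shapes. -/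
def step (Bt : List (List ℕ × List ℕ)) (Gt : List (List ℕ)) (st : List Tr) : Node → Option Tr
  | .T l => bif sortedB l then some ([l.sum], l, l) else none
  | .S i o j p =>
      let t := orient o (st.getD i emptyT)
      let u := orient p (st.getD j emptyT)
      some (addL t.1 u.1, addL t.2.1 u.2.1, addL t.2.2 u.2.2)
  | .H b i o l => forceT (orient o (st.getD i emptyT)) fun t =>
      bif sortedB l && Nat.beq l.sum (t.2.2.sum + b) && leL t.2.2 l && leL l.tail t.2.2 &&
        Nat.ble (t.1.headD 0) b && Nat.ble (t.2.1.headD 0) b && condHL b 0 t.1 t.2.1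
      then some (b :: t.1, b :: t.2.1, l) else none
  | .B k l =>
      let e := Bt.getD k ([], [])
      bif sortedB l && Nat.beq l.sum e.1.sum && domL l.sum 0 l e.2 then some (e.1, e.1, l) else none
  | .G k l =>
      let e := Gt.getD k []
      bif sortedB l && Nat.beq l.sum e.sum then some (e, e, l) else none

def run (Bt : List (List ℕ × List ℕ)) (Gt : List (List ℕ)) : List Tr → List Node → Option (List Tr)
  | st, [] => some st
  | st, x :: xs =>
      match step Bt Gt st x with
      | none => none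
      | some t => forceT t fun t' => run Bt Gt (t' :: st) xs

/-- Third components of the stored triples `(μ, μ, l)` up to symmetry `o`. -/
def thirds (μ : List ℕ) (st : List Tr) : List (ℕ × ℕ) → List (List ℕ)
  | [] => []
  | (i, o) :: xs => forceT (orient o (st.getD i emptyT)) fun t =>
      bif eqL t.1 μ && eqL t.2.1 μ then t.2.2 :: thirds μ st xs else thirds μ st xs

/-- The table entry of a grouping. -/
def bEntry (e : List ℕ × GD) : List ℕ × List ℕ := (e.1, psums 0 (swts e.2))

def bOK (e : List ℕ × GD) : Bool := sortedB e.1 && grpB e.1 e.2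

/-- Run a certificate and check that the claimed third components are produced. -/
def certOK (μ : List ℕ) (Bs : List (List ℕ × GD)) (Gt : List (List ℕ)) (init : List Tr)
    (nodes : List Node) (refs : List (ℕ × ℕ)) (out : List (List ℕ)) : Bool :=
  Bs.all bOK &&
  match run (Bs.map bEntry) Gt init nodes with
  | none => false
  | some st => decide (thirds μ st refs = out)

def leafIn (out : List (List ℕ)) (l : List ℕ) : Bool :=
  forceL l fun l1 => out.any (eqL l1) || forceL (conjL l1) fun l2 => out.any (eqL l2)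

def bRules (gs : List GD) : List Rule :=
  gs.flatMap fun g => [(psums 0 (swts g), []), ([], psums 0 (swts g))]

def forceRules {α : Type} : List Rule → (List Rule → α) → α
  | [], f => f []
  | R :: Rs, f => forceL R.1 fun a => forceL R.2 fun b => forceRules Rs fun m => f ((a, b) :: m)

/-- No hook rule. -/
def chk0 (μ : List ℕ) (gs : List GD) (out : List (List ℕ)) : Bool :=
  sortedB μ && eqL (conjL μ) μ && gs.all (grpB μ) &&
  forceRules (bRules gs) fun Rs => dfsTop μ.sum (leafIn out) Rs

/-- Side condition of the hook rules: `2 ν t + t + 3 ≤ 2 q` for the entries of `ν`. -/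
def hcB (q : ℕ) : ℕ → List ℕ → Bool
  | _, [] => true
  | t, x :: l => Nat.ble (2 * x + t + 3) (2 * q) && hcB q (Nat.succ t) l

/-- One-hook rule. -/
def chk1 (q : ℕ) (ν : List ℕ) (gs : List GD) (out : List (List ℕ)) : Bool :=
  Nat.ble (ν.length + 1) q && Nat.ble (ν.headD 0 + 1) q && hcB q 0 ν &&
  gs.all (grpB (hookL q ν)) &&
  forceRules (([q, 2 * q - 1], []) :: ([], [q, 2 * q - 1]) :: bRules gs) fun Rs =>
    dfsTop (hookL q ν).sum (leafIn out) Rs

def hook2L (q : ℕ) (ν : List ℕ) : List ℕ := hookL q (hookL (q - 2) ν)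

def uvRule (q a1 a2 : ℕ) : Rule :=
  ([q + (1 - a1) + (1 - a2) - 2, 2 * q - 1 - a1 - a2],
   [max (q + a1) (q + a2 - 1), 2 * q + a1 + a2 - 1])

def hook2B (q : ℕ) (ν : List ℕ) : Bool :=
  Nat.ble (ν.length + 3) q && Nat.ble (ν.headD 0 + 3) q && hcB (q - 2) 0 ν

/-- Two-hook rule; the first rule is the symmetry breaking pseudo rule. -/
def chk2 (q : ℕ) (ν : List ℕ) (gs : List GD) (out : List (List ℕ)) : Bool :=
  hook2B q ν && gs.all (grpB (hook2L q ν)) &&
  forceRules (([q, 2 * q - 1], []) :: ([], [q, 2 * q - 1, 3 * q - 3, 4 * q - 6]) ::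
      (bRules gs ++ [uvRule q 0 1, uvRule q 0 2, uvRule q 1 0, uvRule q 1 1, uvRule q 1 2,
        uvRule q 2 0, uvRule q 2 1, uvRule q 2 2])) fun Rs =>
    dfsTop (hook2L q ν).sum (leafIn out) Rs

end Crest.Agent.R195
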