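import Crest.Agent.R195.CheckDefs
import Crest.Agent.R195.Part

/-! Row 195: soundness of the pruned enumeration. -/

set_option autoImplicit false
open Finset

namespace Crest.Agent.R195

theorem checkDfs_sortedB_cons (a b : ℕ) (l : List ℕ) :
    sortedB (a :: b :: l) = (Nat.ble b a && sortedB (b :: l)) := rfl

theorem sortedB_iff {l : List ℕ} : sortedB l = true ↔ l.Pairwise (· ≥ ·) := by
  induction l with
  | nil => exact ⟨fun _ => List.Pairwise.nil, fun _ => rfl⟩
  | cons a l ih =>
    cases l with
    | nil => exact ⟨fun _ => List.pairwise_singleton _ _, fun _ => rfl⟩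
    | cons b l =>
      rw [checkDfs_sortedB_cons, Bool.and_eq_true, Nat.ble_eq, ih, List.pairwise_cons (a := a)]
      constructor
      · rintro ⟨h1, h2⟩
        refine ⟨fun x hx => ?_, h2⟩
        rcases List.mem_cons.1 hx with rfl | hx
        · exact h1
        · exact le_trans ((List.pairwise_cons.1 h2).1 x hx) h1
      · rintro ⟨h1, h2⟩
        exact ⟨h1 b List.mem_cons_self, h2⟩

theorem checkDfs_eqL_cons (a b : ℕ) (l m : List ℕ) :
    eqL (a :: l) (b :: m) = (Nat.beq a b && eqL l m) := rfl

theorem eqL_iff {l m : List ℕ} : eqL l m = true ↔ l = m := by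
  induction l generalizing m with
  | nil =>
    cases m with
    | nil => exact ⟨fun _ => rfl, fun _ => rfl⟩
    | cons b m => exact ⟨fun h => absurd h Bool.false_ne_true, fun h => by cases h⟩
  | cons a l ih =>
    cases m with
    | nil => exact ⟨fun h => absurd h Bool.false_ne_true, fun h => by cases h⟩
    | cons b m => rw [checkDfs_eqL_cons, Bool.and_eq_true, Nat.beq_eq, ih, List.cons.injEq]

theorem grpB_sound {μ : List ℕ} {g : GD} (h : grpB μ g = true) : Grp μ g.1 g.2.1 g.2.2 := by
  have h' : (μ.isPerm (g.1 ++ g.1.map (· - 1) ++ g.2.1 ++ g.2.2.map Prod.fst ++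
      g.2.2.map Prod.snd) && g.1.all (fun L => Nat.ble 1 L) &&
      decide (g.1 ++ g.1.map (· - 1) ++ g.2.1 ++ g.2.2.map Prod.snd).Nodup &&
      clOK [] g.2.2) = true := h
  rw [Bool.and_eq_true, Bool.and_eq_true, Bool.and_eq_true, List.isPerm_iff, List.all_eq_true,
    decide_eq_true_iff] at h'
  exact ⟨h'.1.1.1, fun L hL => Nat.le_of_ble_eq_true (h'.1.1.2 L hL), h'.1.2, h'.2⟩

theorem checkDfs_min (i m : ℕ) : (bif Nat.ble i m then i else m) = min i m := by
  by_cases h : i ≤ m
  · rw [Nat.ble_eq_true_of_le h, min_eq_left h]; rfl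
  · have : Nat.ble i m = false := by
      rw [← Bool.not_eq_true, Nat.ble_eq]; exact h
    rw [this, min_eq_right (not_le.1 h).le]; rfl

theorem checkDfs_rowTail_cons (n s b : ℕ) (bs : List ℕ) :
    rowTail n s (b :: bs) = (Nat.ble b s && Nat.ble b n && rowTail n (s + 1) bs) := rfl

theorem checkDfs_rowTail {n : ℕ} : ∀ (bs : List ℕ) (s : ℕ), rowTail n s bs = true →
    ∀ j, bs.getD j 0 ≤ min n (s + j) := by
  intro bs
  induction bs with
  | nil => intro s _ j; exact Nat.zero_le _
  | cons b bs ih =>
    intro s h j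
    rw [checkDfs_rowTail_cons, Bool.and_eq_true, Bool.and_eq_true, Nat.ble_eq, Nat.ble_eq] at h
    cases j with
    | zero => exact le_min h.1.2 h.1.1
    | succ j =>
      have := ih (s + 1) h.2 j
      rw [List.getD_cons_succ]
      omega

theorem checkDfs_colOK_cons (rem m i b c : ℕ) (bs cs : List ℕ) :
    colOK rem m i (b :: bs) (c :: cs) =
      (Nat.blt (m * (b - c)) (rem * (bif Nat.ble i m then i else m) + m) &&
        colOK rem m (i + 1) bs cs) := rfl

theorem checkDfs_colOK {rem m : ℕ} (rest : ℕ → ℕ) (hrest : ∀ i, rem * min i m ≤ m * rest i) :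
    ∀ (bs cs : List ℕ) (i : ℕ), colOK rem m i bs cs = true →
      ∀ j, bs.getD j 0 ≤ cs.getD j 0 + rest (i + j) := by
  intro bs
  induction bs with
  | nil => intro cs i _ j; exact Nat.zero_le _
  | cons b bs ih =>
    intro cs i h j
    cases cs with
    | nil => exact absurd h Bool.false_ne_true
    | cons c cs =>
      rw [checkDfs_colOK_cons, Bool.and_eq_true, Nat.blt_eq, checkDfs_min] at h
      cases j with
      | zero =>
        have h1 : m * (b - c) < m * (rest i + 1) := by
          have := hrest i
          rw [mul_add, mul_one]; omega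
        have h2 := Nat.lt_of_mul_lt_mul_left h1
        show b ≤ c + rest i
        omega
      | succ j =>
        have := ih cs (i + 1) h.2 j
        rw [List.getD_cons_succ, List.getD_cons_succ, show i + (j + 1) = i + 1 + j by omega]
        exact this

theorem checkDfs_addCol_cons (x i c : ℕ) (cs : List ℕ) :
    addCol x i (c :: cs) = (c + (bif Nat.ble i x then i else x)) :: addCol x (i + 1) cs := rfl

theorem checkDfs_addCol (x : ℕ) : ∀ (cs : List ℕ) (i j : ℕ),
    (addCol x i cs).getD j 0 ≤ cs.getD j 0 + min x (i + j) := by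
  intro cs
  induction cs with
  | nil => intro i j; exact Nat.zero_le _
  | cons c cs ih =>
    intro i j
    rw [checkDfs_addCol_cons, checkDfs_min]
    cases j with
    | zero =>
      show c + min i x ≤ c + min x i
      rw [min_comm]
    | succ j =>
      rw [List.getD_cons_succ, List.getD_cons_succ, show i + (j + 1) = i + 1 + j by omega]
      exact ih (i + 1) j

theorem checkDfs_push_nil (s : ℕ) (c : List ℕ) (Rs : List Rule) :
    pushRules s (([], c) :: Rs) = ([], c) :: pushRules s Rs := rfl

theorem checkDfs_push_cons (s b : ℕ) (bs c : List ℕ) (Rs : List Rule) :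
    pushRules s ((b :: bs, c) :: Rs) =
      bif Nat.ble b s then (bs, c) :: pushRules s Rs else pushRules s Rs := rfl

theorem checkDfs_push (s : ℕ) : ∀ (Rs : List Rule), ∀ R' ∈ pushRules s Rs, ∃ R ∈ Rs,
    R.2 = R'.2 ∧ R.1.getD 0 0 ≤ s ∧ ∀ j, R.1.getD (j + 1) 0 = R'.1.getD j 0 := by
  intro Rs
  induction Rs with
  | nil => intro R' h; exact absurd h List.not_mem_nil
  | cons R Rs ih =>
    intro R' h
    have hi : R' ∈ pushRules s Rs → ∃ R₀ ∈ R :: Rs,
        R₀.2 = R'.2 ∧ R₀.1.getD 0 0 ≤ s ∧ ∀ j, R₀.1.getD (j + 1) 0 = R'.1.getD j 0 := by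
      intro h'
      obtain ⟨R₀, h1, h2⟩ := ih R' h'
      exact ⟨R₀, List.mem_cons_of_mem _ h1, h2⟩
    obtain ⟨_ | ⟨b, bs⟩, c⟩ := R
    · rw [checkDfs_push_nil] at h
      rcases List.mem_cons.1 h with rfl | h
      · exact ⟨_, List.mem_cons_self, rfl, Nat.zero_le _, fun _ => rfl⟩
      · exact hi h
    · rw [checkDfs_push_cons] at h
      cases hb : Nat.ble b s with
      | false =>
        rw [hb] at h
        exact hi h
      | true =>
        rw [hb] at h
        rcases List.mem_cons.1 h with rfl | h
        · exact ⟨_, List.mem_cons_self, rfl, Nat.le_of_ble_eq_true hb, fun _ => rfl⟩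
        · exact hi h

theorem checkDfs_anyRule_cons (n s m : ℕ) (cs : List ℕ) (R : Rule) (Rs : List Rule) :
    anyRule n s m cs (R :: Rs) =
      ((rowTail n (s + 1) R.1 && colOK (n - s) m 1 R.2 cs) || anyRule n s m cs Rs) := rfl

theorem checkDfs_anyRule {n s m : ℕ} {cs : List ℕ} : ∀ (Rs : List Rule),
    anyRule n s m cs Rs = true →
      ∃ R ∈ Rs, rowTail n (s + 1) R.1 = true ∧ colOK (n - s) m 1 R.2 cs = true := by
  intro Rs
  induction Rs with
  | nil => intro h; exact absurd h Bool.false_ne_true
  | cons R Rs ih =>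
    intro h
    rw [checkDfs_anyRule_cons, Bool.or_eq_true, Bool.and_eq_true] at h
    rcases h with h | h
    · exact ⟨R, List.mem_cons_self, h⟩
    · obtain ⟨R', h1, h2⟩ := ih h
      exact ⟨R', List.mem_cons_of_mem _ h1, h2⟩

theorem checkDfs_allTo_succ (p : ℕ → Bool) (k : ℕ) :
    allTo p (k + 1) = (p (k + 1) && allTo p k) := rfl

theorem checkDfs_allTo {p : ℕ → Bool} : ∀ k, allTo p k = true →
    ∀ y, 1 ≤ y → y ≤ k → p y = true := by
  intro k
  induction k with
  | zero => intro _ y h1 h2; omega
  | succ k ih =>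
    intro h y h1 h2
    rw [checkDfs_allTo_succ, Bool.and_eq_true] at h
    rcases h2.eq_or_lt with rfl | h2
    · exact h.1
    · exact ih h.2 y h1 (Nat.le_of_lt_succ h2)

theorem checkDfs_dfs_succ (n : ℕ) (leaf : List ℕ → Bool) (f : ℕ) (pre : List ℕ) (s m : ℕ)
    (cs : List ℕ) (Rs : List Rule) :
    dfs n leaf (f + 1) pre s m cs Rs =
      (anyRule n s m cs Rs ||
      (bif Nat.beq s n then leaf pre.reverse else
        allTo (fun y => force (s + y) fun s' => forceL (addCol y 1 cs) fun cs' =>
          dfs n leaf f (y :: pre) s' y cs' (pushRules s' Rs))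
          (bif Nat.ble m (n - s) then m else n - s))) := rfl

theorem checkDfs_dfs {n : ℕ} {leaf : List ℕ → Bool} {κ κ' : ℕ → ℕ} (hκ : IsPart n κ)
    (hc : IsConjP κ κ') {Q : Prop}
    (hl : ∀ l, leaf l = true → l.Pairwise (· ≥ ·) → l.sum = n → toF l = κ → Q) :
    ∀ (f k : ℕ) (pre : List ℕ) (m : ℕ) (cs : List ℕ) (Rs : List Rule),
      pre.reverse = (List.range k).map κ → κ k ≤ m →
      (∀ i, cs.getD i 0 ≤ ∑ t ∈ range k, min (κ t) (i + 1)) →
      (∀ R ∈ Rs, (∀ j, R.1.getD j 0 ≤ psum κ (k + j + 1)) →
        (∀ j, R.2.getD j 0 ≤ psum κ' (j + 1)) → Q) →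
      dfs n leaf f pre (psum κ k) m cs Rs = true → Q := by
  intro f
  induction f with
  | zero => intro k pre m cs Rs _ _ _ _ h; exact absurd h Bool.false_ne_true
  | succ f ih =>
    intro k pre m cs Rs hpre hm hcs hR h
    rw [checkDfs_dfs_succ, Bool.or_eq_true] at h
    have hle := hκ.psum_le (k + 1)
    rw [psum_succ] at hle
    rcases h with h | h
    · obtain ⟨R, hRm, h1, h2⟩ := checkDfs_anyRule Rs h
      refine hR R hRm (fun j => ?_) fun j => ?_
      · have h3 := checkDfs_rowTail _ _ h1 j
        have h4 := hκ.min_le_psum k (j + 1)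
        rw [show psum κ k + (j + 1) = psum κ k + 1 + j by omega] at h4
        exact h3.trans h4
      · have hsum : ∑ t ∈ range n, κ (k + t) = n - psum κ k := by
          have h3 := hκ.psum_eq (Nat.le_add_left n k)
          unfold psum at h3 ⊢
          rw [Finset.sum_range_add] at h3
          omega
        have h3 := checkDfs_colOK (fun i => ∑ t ∈ range n, min (κ (k + t)) i) (fun i => by
          rw [← hsum, Finset.sum_mul, Finset.mul_sum]
          refine Finset.sum_le_sum fun t _ => ?_
          have h4 : κ (k + t) ≤ m := (hκ.1 (Nat.le_add_right k t)).trans hm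
          rcases le_total (κ (k + t)) i with h5 | h5
          · rw [min_eq_left h5, mul_comm]
            exact Nat.mul_le_mul_right _ (min_le_right _ _)
          · rw [min_eq_right h5]
            exact Nat.mul_le_mul h4 (min_le_left _ _)) _ _ _ h2 j
        have h4 : ∑ t ∈ range (k + n), min (κ t) (j + 1) = ∑ t ∈ range n, min (κ t) (j + 1) := by
          rw [add_comm k n, Finset.sum_range_add, Finset.sum_eq_zero (s := range k), add_zero]
          intro t _
          rw [hκ.eq_zero (Nat.le_add_right n t), Nat.zero_min]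
        rw [hκ.psum_conj hc, ← h4, Finset.sum_range_add]
        rw [add_comm 1 j] at h3
        exact h3.trans (Nat.add_le_add_right (hcs j) _)
    · cases hb : Nat.beq (psum κ k) n with
      | true =>
        rw [hb] at h
        have hs : psum κ k = n := Nat.eq_of_beq_eq_true hb
        refine hl _ h ?_ ?_ ?_
        · rw [hpre]
          exact List.Pairwise.map _ (fun a b hab => hκ.1 hab) List.pairwise_le_range
        · rw [hpre, ← hs]
          exact (Finset.sum_list_map_count _ _).trans (by
            unfold psum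
            rw [List.toFinset_range]
            refine Finset.sum_congr rfl fun t ht => ?_
            rw [List.count_eq_one_of_mem List.nodup_range
              (List.mem_range.2 (Finset.mem_range.1 ht)), one_smul])
        · funext i
          rw [hpre]
          unfold toF
          by_cases hi : i < k
          · rw [List.getD_eq_getElem _ _ (by simpa using hi), List.getElem_map,
              List.getElem_range]
          · rw [List.getD_eq_default _ _ (by simpa using hi)]
            have := hκ.1 (not_lt.1 hi)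
            omega
      | false =>
        rw [hb, checkDfs_min] at h
        have hs : psum κ k ≠ n := Nat.ne_of_beq_eq_false hb
        have h1 := hκ.min_le_psum k 1
        rw [psum_succ] at h1
        have h2 := checkDfs_allTo _ h (κ k) (by omega) (le_min hm (by omega))
        simp only [force_eq, forceL_eq] at h2
        rw [← psum_succ] at h2
        refine ih (k + 1) _ _ _ _ ?_ (hκ.1 (Nat.le_succ k)) (fun i => ?_) (fun R' hR' a b => ?_) h2
        · rw [List.reverse_cons, hpre, List.range_succ, List.map_append]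
          rfl
        · rw [Finset.sum_range_succ]
          have h3 := checkDfs_addCol (κ k) cs 1 i
          rw [add_comm 1 i] at h3
          exact h3.trans (Nat.add_le_add_right (hcs i) _)
        · obtain ⟨R, hRm, e1, e2, e3⟩ := checkDfs_push _ Rs R' hR'
          refine hR R hRm (fun j => ?_) (e1 ▸ b)
          cases j with
          | zero => exact e2
          | succ j =>
            rw [e3, show k + (j + 1) + 1 = k + 1 + j + 1 by omega]
            exact a j

theorem dfsTop_sound {n : ℕ} {leaf : List ℕ → Bool} {Rs : List Rule} (Q : (ℕ → ℕ) → Prop)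
    (hr : ∀ R ∈ Rs, ∀ κ κ', IsPart n κ → IsConjP κ κ' → Sat κ κ' R → Q κ)
    (hl : ∀ l, leaf l = true → l.Pairwise (· ≥ ·) → l.sum = n → Q (toF l))
    (h : dfsTop n leaf Rs = true) : ∀ κ, IsPart n κ → Q κ := by
  intro κ hκ
  obtain ⟨κ', hc⟩ := hκ.exists_conj
  refine checkDfs_dfs hκ hc (fun l a b c d => d ▸ hl l a b c) (n + 1) 0 [] n _ Rs rfl ?_
    (fun i => ?_) (fun R hR a b => hr R hR κ κ' hκ hc ⟨fun j => ?_, b⟩) h
  · have := hκ.psum_le 1
    rw [psum_succ] at this
    omega
  · refine le_trans (le_of_eq ?_) (Nat.zero_le _)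
    rw [List.getD_eq_getElem?_getD, List.getElem?_replicate]
    split_ifs <;> rfl
  · simpa only [zero_add] using a j

theorem checkDfs_psums_cons (s x : ℕ) (l : List ℕ) :
    psums s (x :: l) = (s + x) :: psums (s + x) l := rfl

theorem checkDfs_psums : ∀ (l : List ℕ) (s k : ℕ), k < l.length →
    (psums s l).getD k 0 = s + (l.take (k + 1)).sum := by
  intro l
  induction l with
  | nil => intro s k hk; exact absurd hk (Nat.not_lt_zero _)
  | cons x l ih =>
    intro s k hk
    rw [checkDfs_psums_cons, List.take_succ_cons, List.sum_cons]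
    cases k with
    | zero => simp
    | succ k => rw [List.getD_cons_succ, ih _ k (by simpa using hk), add_assoc]

/-- Prefix-sum lower bounds give dominance. -/
theorem dom_of_psums {κ : ℕ → ℕ} (g : GD)
    (h : ∀ k, (psums 0 (swts g)).getD k 0 ≤ psum κ (k + 1)) : Dom κ (wts g.1 g.2.1 g.2.2) := by
  refine dom_of_sorted (ws := swts g) (List.perm_insertionSort _ _)
    (List.pairwise_insertionSort _ _) fun k hk => ?_
  cases k with
  | zero => exact Nat.zero_le _
  | succ k =>
    have := h k
    rwa [checkDfs_psums _ _ _ hk, zero_add] at this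

end Crest.Agent.R195
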