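import Crest.Agent.R195.Check

/-! Row 195: generated certificate data. -/

set_option autoImplicit false
set_option maxRecDepth 100000

namespace Crest.Agent.R195

def out_0 : List (List ℕ) :=
  []

theorem good_0 : GoodL [1] :=
  good_chk1 (q := 1) (ν := []) (gs := [])
    (out := out_0) goodL_nil (by simp [out_0]) (by decide +kernel)

def out_1 : List (List ℕ) :=
  []

theorem good_1 : GoodL [2,1] :=
  good_chk1 (q := 2) (ν := []) (gs := [([2],[],[])])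
    (out := out_1) goodL_nil (by simp [out_1]) (by decide +kernel)

def out_2 : List (List ℕ) :=
  [[3,1,1]]

def nodes_2_0 : List Node :=
  [.T [1], .T [2,1], .S 1 0 0 13, .S 2 0 0 1]

def refs_2 : List (ℕ × ℕ) :=
  [(0,0)]

theorem cert_2 : ∀ l ∈ out_2, KT ([3,1,1], [3,1,1], l) :=
  certOK_sound (Bs := [])
    (Gt := []) (nodes := nodes_2_0) (refs := refs_2)
    (by simp) specT_ok (by decide +kernel)

theorem good_2 : GoodL [3,1,1] :=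
  good_chk1 (q := 3) (ν := []) (gs := [])
    (out := out_2) goodL_nil cert_2 (by decide +kernel)

def out_3 : List (List ℕ) :=
  [[5,1,1], [4,2,1], [4,1,1,1], [3,3,1]]

def nodes_3_0 : List Node :=
  [.T [1,1], .T [2,1], .S 1 3 0 13, .S 2 3 0 17, .T [1],
   .H 2 3 1 [3,1,1],   .S 1 0 0 15, .S 2 0 0 1, .G 0 [2,1,1,1], .S 4 0 0 0, .S 5 0 0 1,
   .T [1,1,1],   .H 3 0 1 [4,1,1], .S 8 0 0 11]

def refs_3 : List (ℕ × ℕ) :=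
  [(10,12), (6,13), (3,0), (0,13)]

theorem cert_3 : ∀ l ∈ out_3, KT ([4,1,1,1], [4,1,1,1], l) :=
  certOK_sound (Bs := [])
    (Gt := [[3,1,1]]) (nodes := nodes_3_0) (refs := refs_3)
    (by
    simp only [List.forall_mem_cons]
    exact ⟨good_2, by simp⟩) specT_ok (by decide +kernel)

theorem good_3 : GoodL [4,1,1,1] :=
  good_chk1 (q := 4) (ν := []) (gs := [])
    (out := out_3) goodL_nil cert_3 (by decide +kernel)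

def out_10 : List (List ℕ) :=
  []

theorem good_10 : GoodL [3,2,1] :=
  good_chk1 (q := 3) (ν := [1]) (gs := [([3],[1],[])])
    (out := out_10) good_0 (by simp [out_10]) (by decide +kernel)

def out_20 : List (List ℕ) :=
  [[4,2,2], [4,2,1,1], [3,3,2]]

def nodes_20_0 : List Node :=
  [.T [1,1], .H 2 0 2 [2,2], .H 4 0 16 [4,2,1,1], .T [1], .T [2,1],
   .S 1 0 0 13,   .H 4 0 1 [4,2,1,1]]

def refs_20 : List (ℕ × ℕ) :=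
  [(4,12), (0,0), (11,0)]

theorem cert_20 : ∀ l ∈ out_20, KT ([4,2,1,1], [4,2,1,1], l) :=
  certOK_sound (Bs := [])
    (Gt := []) (nodes := nodes_20_0) (refs := refs_20)
    (by simp) specT_ok (by decide +kernel)

theorem good_20 : GoodL [4,2,1,1] :=
  good_chk1 (q := 4) (ν := [1]) (gs := [([2],[],[(1,4)])])
    (out := out_20) good_0 cert_20 (by decide +kernel)

def out_11 : List (List ℕ) :=
  []

theorem good_11 : GoodL [4,3,2,1] :=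
  good_chk1 (q := 4) (ν := [2,1]) (gs := [([4,2],[],[])])
    (out := out_11) good_1 (by simp [out_11]) (by decide +kernel)

def out_21 : List (List ℕ) :=
  [[5,3,2,2], [5,3,2,1,1], [4,4,4], [4,4,3,1], [4,4,2,2]]

def nodes_21_0 : List Node :=
  [.T [1,1], .H 2 0 2 [2,2], .H 3 0 0 [3,2,2], .H 5 0 16 [5,3,2,1,1], .T [1],
   .T [2,1],   .S 1 0 0 13, .H 3 0 1 [3,2,1,1], .H 5 0 0 [5,3,2,1,1], .H 3 3 0 [5,1], .S 0 6 0 2,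
   .T [3,1],   .H 2 0 1 [3,2,1], .S 3 6 0 12, .S 1 8 1 12]

def refs_21 : List (ℕ × ℕ) :=
  [(11,12), (6,0), (4,12), (1,12), (0,12)]

theorem cert_21 : ∀ l ∈ out_21, KT ([5,3,2,1,1], [5,3,2,1,1], l) :=
  certOK_sound (Bs := [])
    (Gt := []) (nodes := nodes_21_0) (refs := refs_21)
    (by simp) specT_ok (by decide +kernel)

theorem good_21 : GoodL [5,3,2,1,1] :=
  good_chk1 (q := 5) (ν := [2,1]) (gs := [([],[5,3,1],[(1,2)]),([3],[1],[(1,5)])])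
    (out := out_21) good_1 cert_21 (by decide +kernel)

def out_12 : List (List ℕ) :=
  []

theorem good_12 : GoodL [5,4,2,2,1] :=
  good_chk1 (q := 5) (ν := [3,1,1]) (gs := [([5],[2],[(2,1)])])
    (out := out_12) good_2 (by simp [out_12]) (by decide +kernel)

def out_22 : List (List ℕ) :=
  [[9,1,1,1,1,1,1,1], [8,2,2,2,2], [8,2,2,2,1,1], [8,2,2,1,1,1,1], [8,2,1,1,1,1,1,1], [7,3,3,3],
  [7,3,3,2,1], [7,3,3,1,1,1], [7,3,2,2,2], [7,3,2,2,1,1], [7,3,2,1,1,1,1], [6,4,4,2],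
  [6,4,4,1,1], [6,4,3,3], [6,4,3,2,1], [6,4,3,1,1,1], [6,4,2,2,2], [6,4,2,2,1,1],
  [6,3,3,3,1], [6,3,3,2,2], [5,5,5,1], [5,5,4,2], [5,5,4,1,1], [5,5,3,3],
  [5,5,3,2,1], [5,5,2,2,2], [5,4,4,3], [5,4,4,2,1], [4,4,4,4]]

def nodes_22_0 : List Node :=
  [.T [1,1], .T [2,2], .S 1 2 0 13, .S 2 3 0 7, .S 3 3 0 14,
   .H 6 0 13 [8,1,1,1,1,1,1,1,1],   .T [2,1], .S 0 13 0 13, .H 4 0 1 [4,2,2,2], .H 6 0 0 [8,2,2,2,2], .B 0 [5,1],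
   .S 10 2 0 3,   .S 11 3 0 22, .H 6 0 1 [6,4,2,2,1,1], .H 6 1 13 [7,3,1,1,1,1,1,1], .H 6 2 13 [8,2,1,1,1,1,1,1], .T [1],
   .S 0 0 10 13,   .S 0 2 10 17, .H 6 0 15 [7,3,3,3], .G 0 [2,1], .S 14 13 0 0, .H 4 0 1 [4,3,2,1],
   .H 6 0 0 [7,3,3,2,1],   .H 2 23 2 [2,2], .B 1 [5,1], .S 1 4 0 3, .H 6 0 1 [6,4,2,2,1,1], .H 6 19 0 [7,3,2,2,2],
   .H 2 22 1 [3,1,1],   .T [4,1], .S 1 3 0 14, .H 6 0 1 [6,4,2,2,1,1], .H 6 1 13 [7,3,2,1,1,1,1], .B 0 [4,2],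
   .H 4 0 3 [4,2,2,1,1],   .H 6 0 0 [6,4,2,2,1,1], .S 30 13 30 12, .H 4 0 1 [4,4,1,1], .H 6 0 16 [6,4,2,2,1,1], .H 6 21 3 [6,4,2,2,1,1],
   .H 6 18 16 [6,4,2,2,1,1],   .T [3,2], .G 1 [2,1,1,1], .S 1 13 0 4, .H 6 0 1 [6,4,2,2,1,1], .H 6 37 16 [6,4,2,2,1,1],
   .T [3,1],   .S 0 2 37 3, .H 6 0 1 [6,4,2,2,1,1], .H 3 43 0 [4,2], .H 4 0 19 [5,3,1,1], .H 6 0 11 [6,4,2,2,1,1],
   .S 52 3 51 13,   .H 4 0 2 [5,3,1,1], .H 6 0 11 [6,4,2,2,1,1], .B 2 [4,1], .S 56 1 0 3, .H 3 51 0 [5,1],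
   .H 3 0 19 [6,2,1],   .S 2 1 0 11, .S 59 13 59 0, .H 3 19 2 [4,2,1,1], .S 1 9 0 12, .S 62 13 16 0,
   .T [1,1,1],   .H 2 0 2 [3,2], .S 60 9 0 6, .S 3 9 0 13, .S 4 9 4 13, .B 3 [3,1],
   .S 23 14 0 1,   .S 7 9 0 13, .S 52 0 25 14, .T [3,1,1], .S 50 1 0 13, .S 2 1 0 17,
   .S 70 8 47 15,   .S 16 9 0 5, .S 72 0 35 0, .S 18 9 0 13, .H 4 33 11 [6,1,1], .S 20 9 0 11]

def refs_22 : List (ℕ × ℕ) :=
  [(77,2), (73,0), (69,13), (68,2), (67,0), (63,0), (59,0), (55,13), (54,0), (50,13), (49,0), (46,12),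
  (43,12), (42,12), (41,12), (37,13), (36,12), (33,0), (30,12), (27,12), (22,12), (19,12), (14,12), (13,13),
  (10,13), (6,12), (4,13), (2,13), (0,12)]

theorem cert_22 : ∀ l ∈ out_22, KT ([6,4,2,2,1,1], [6,4,2,2,1,1], l) :=
  certOK_sound (Bs := [([4,2],([],[4,2],[])),([4,1,1],([],[1],[(1,4)])),([3,2],([3],[],[])),([2,1,1],([],[1],[(1,2)]))])
    (Gt := [[2,1],[3,1,1]]) (nodes := nodes_22_0) (refs := refs_22)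
    (by
    simp only [List.forall_mem_cons]
    exact ⟨good_1, good_2, by simp⟩) specT_ok (by decide +kernel)

theorem good_22 : GoodL [6,4,2,2,1,1] :=
  good_chk1 (q := 6) (ν := [3,1,1]) (gs := [])
    (out := out_22) good_2 cert_22 (by decide +kernel)

def out_13 : List (List ℕ) :=
  [[7,3,3,3,2], [7,3,3,3,1,1], [6,4,4,4], [6,4,4,3,1], [6,4,4,2,2], [6,4,4,2,1,1],
  [6,4,3,3,2], [6,3,3,3,3], [5,5,5,3], [5,5,5,2,1], [5,5,4,4], [5,5,4,3,1],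
  [5,5,4,2,2], [5,4,4,4,1]]

def nodes_13_0 : List Node :=
  [.T [2,2], .T [3,1], .B 0 [3,1], .S 1 13 0 2, .S 3 1 0 17,
   .H 6 0 15 [7,3,3,3,2],   .T [1,1], .B 1 [4,1], .S 1 2 0 3, .H 5 0 17 [6,2,2,2], .H 6 0 18 [6,5,2,2,2,1],
   .T [1,1,1],   .H 3 0 1 [4,1,1], .H 3 0 11 [3,3,1,1,1], .T [2,1], .S 8 3 0 13, .S 14 13 0 7,
   .S 3 0 0 17,   .T [3,2], .B 2 [5,2], .S 1 9 0 2, .H 6 0 3 [6,5,2,2,2,1], .H 2 20 1 [3,3],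
   .S 0 12 0 8,   .H 6 0 3 [6,5,2,2,2,1], .H 5 16 14 [5,2,2,2,1], .H 6 0 1 [6,5,2,2,2,1], .H 6 22 3 [6,5,2,2,2,1], .S 26 1 26 2,
   .S 28 1 0 3,   .H 6 0 3 [6,5,2,2,2,1], .S 16 8 12 14, .T [3,1,1], .S 0 1 0 1, .S 2 1 0 3,
   .S 28 0 37 0,   .S 29 1 0 14, .H 3 22 0 [5,1], .H 3 0 19 [6,2,1], .S 2 1 0 11, .S 39 8 21 14,
   .S 0 5 0 1,   .T [1], .S 0 0 28 13, .S 0 0 11 13, .S 8 1 0 17, .H 2 39 2 [2,2],
   .S 0 1 14 13,   .S 11 1 0 17, .S 12 1 32 17]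

def refs_13 : List (ℕ × ℕ) :=
  [(44,0), (39,13), (32,12), (28,12), (25,12), (23,13), (22,12), (19,12), (15,13), (10,12), (8,13), (4,13),
  (1,13), (0,12)]

theorem cert_13 : ∀ l ∈ out_13, KT ([6,5,2,2,2,1], [6,5,2,2,2,1], l) :=
  certOK_sound (Bs := [([2,1,1],([],[1],[(1,2)])),([3,2],([3],[],[])),([4,3],([4],[],[]))])
    (Gt := []) (nodes := nodes_13_0) (refs := refs_13)
    (by simp) specT_ok (by decide +kernel)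

theorem good_13 : GoodL [6,5,2,2,2,1] :=
  good_chk1 (q := 6) (ν := [4,1,1,1]) (gs := [])
    (out := out_13) good_3 cert_13 (by decide +kernel)

def out_23 : List (List ℕ) :=
  [[11,1,1,1,1,1,1,1,1,1], [10,2,2,2,2,2], [10,2,2,2,2,1,1], [10,2,2,2,1,1,1,1], [10,2,2,1,1,1,1,1,1], [10,2,1,1,1,1,1,1,1,1],
  [9,3,3,3,2], [9,3,3,3,1,1], [9,3,3,2,2,1], [9,3,3,2,1,1,1], [9,3,3,1,1,1,1,1], [9,3,2,2,2,2],
  [9,3,2,2,2,1,1], [9,3,2,2,1,1,1,1], [9,3,2,1,1,1,1,1,1], [8,4,4,4], [8,4,4,3,1], [8,4,4,2,2],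
  [8,4,4,2,1,1], [8,4,4,1,1,1,1], [8,4,3,3,2], [8,4,3,3,1,1], [8,4,3,2,2,1], [8,4,3,2,1,1,1],
  [8,4,3,1,1,1,1,1], [8,4,2,2,2,2], [8,4,2,2,2,1,1], [8,4,2,2,1,1,1,1], [8,3,3,3,3], [8,3,3,3,2,1],
  [8,3,3,3,1,1,1], [8,3,3,2,2,2], [8,3,3,2,2,1,1], [7,5,5,3], [7,5,5,2,1], [7,5,5,1,1,1],
  [7,5,4,4], [7,5,4,3,1], [7,5,4,2,2], [7,5,4,2,1,1], [7,5,4,1,1,1,1], [7,5,3,3,2],
  [7,5,3,3,1,1], [7,5,3,2,2,1], [7,5,3,2,1,1,1], [7,5,2,2,2,2], [7,5,2,2,2,1,1], [7,4,4,4,1],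
  [7,4,4,3,2], [7,4,4,3,1,1], [7,4,4,2,2,1], [7,4,4,2,1,1,1], [7,4,3,3,3], [7,4,3,3,2,1],
  [7,4,3,2,2,2], [7,3,3,3,3,1], [7,3,3,3,2,2], [6,6,6,2], [6,6,6,1,1], [6,6,5,3],
  [6,6,5,2,1], [6,6,5,1,1,1], [6,6,4,4], [6,6,4,3,1], [6,6,4,2,2], [6,6,4,2,1,1],
  [6,6,3,3,2], [6,6,3,3,1,1], [6,6,3,2,2,1], [6,6,2,2,2,2], [6,5,5,4], [6,5,5,3,1],
  [6,5,5,2,2], [6,5,5,2,1,1], [6,5,4,4,1], [6,5,4,3,2], [6,5,4,3,1,1], [6,5,4,2,2,1],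
  [6,5,3,3,3], [6,4,4,4,2], [6,4,4,4,1,1], [6,4,4,3,3], [5,5,5,5], [5,5,5,4,1],
  [5,5,5,3,2], [5,5,4,4,2]]

def nodes_23_0 : List Node :=
  [.T [1,1], .H 2 0 2 [2,2], .H 3 0 5 [6,1], .S 2 2 0 3, .S 3 3 0 7,
   .S 4 3 0 14,   .H 7 0 13 [10,1,1,1,1,1,1,1,1,1,1], .T [1], .T [1,1,1], .H 4 0 1 [5,1,1], .S 2 0 0 10,
   .H 5 0 2 [6,4,1,1,1],   .H 7 0 7 [10,2,2,2,2,2], .T [2,2], .H 3 0 1 [3,2,2], .S 14 2 0 15, .S 15 3 0 3,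
   .S 16 3 0 21,   .H 7 0 1 [7,5,2,2,2,1,1], .H 7 1 13 [8,4,1,1,1,1,1,1,1,1], .H 7 2 13 [9,3,1,1,1,1,1,1,1,1], .H 7 3 13 [10,2,1,1,1,1,1,1,1,1], .T [2,1],
   .S 0 13 25 0,   .H 5 0 17 [5,2,2,2,1,1], .H 7 0 12 [9,3,3,3,2], .S 12 13 24 1, .H 5 0 1 [5,3,3,1,1], .H 7 0 0 [9,3,3,3,1,1],
   .S 21 0 6 13,   .S 16 13 0 0, .H 5 0 1 [5,3,2,2,1], .H 7 0 0 [9,3,3,2,2,1], .H 3 24 0 [3,1,1,1], .B 0 [6,1],
   .S 1 8 0 3,   .H 7 0 1 [7,5,2,2,2,1,1], .H 7 1 13 [8,3,3,1,1,1,1,1,1], .H 7 26 7 [9,3,2,2,2,2], .T [3,1], .H 2 0 1 [4,1,1],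
   .T [1,1,1,1,1],   .H 2 0 2 [5,2], .S 2 3 0 6, .H 7 0 1 [7,5,2,2,2,1,1], .H 7 1 13 [8,4,2,1,1,1,1,1,1], .H 7 2 13 [9,3,2,1,1,1,1,1,1],
   .S 48 0 45 1,   .H 5 0 17 [5,2,2,2,1,1], .H 7 0 12 [8,4,4,4], .S 51 0 20 0, .H 5 0 17 [5,2,2,2,1,1], .H 7 0 12 [8,4,4,3,1],
   .S 51 18 51 6,   .H 5 0 17 [5,2,2,2,1,1], .H 7 0 12 [8,4,4,2,2], .B 1 [3,1], .S 43 13 0 1, .H 5 0 1 [5,4,2,1,1],
   .H 7 0 0 [8,4,4,2,1,1],   .T [3,3], .G 0 [2,1,1,1], .S 61 3 0 0, .S 2 13 0 3, .H 7 0 1 [7,5,2,2,2,1,1],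
   .H 7 40 12 [8,4,3,3,2],   .H 7 38 0 [8,4,3,3,1,1], .H 7 35 0 [8,4,3,2,2,1], .S 67 2 66 6, .S 0 2 34 3, .H 7 0 1 [7,5,2,2,2,1,1],
   .H 7 1 13 [8,3,3,2,1,1,1,1],   .H 7 60 7 [8,4,2,2,2,2], .B 2 [6,1], .S 33 3 0 3, .H 7 0 1 [7,5,2,2,2,1,1], .H 7 1 13 [8,4,2,2,1,1,1,1],
   .S 16 13 67 15,   .H 7 0 13 [8,3,3,3,3], .T [3,2], .S 57 12 0 14, .H 5 0 2 [6,4,1,1,1], .H 7 0 7 [8,3,3,3,2,1],
   .S 74 3 43 14,   .S 50 8 0 21, .H 7 0 1 [7,5,2,2,2,1,1], .T [4,1], .S 78 2 0 2, .H 5 0 0 [6,4,1,1,1],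
   .H 7 0 7 [8,3,3,2,2,2],   .H 2 3 1 [5,1,1], .S 50 15 0 8, .H 7 0 2 [7,5,3,1,1,1,1,1], .B 3 [5,3], .H 5 0 3 [5,2,2,2,1,1],
   .H 7 0 0 [7,5,2,2,2,1,1],   .S 94 18 94 5, .H 5 0 17 [5,2,2,2,1,1], .H 7 0 0 [7,5,2,2,2,1,1], .S 85 13 59 12, .H 5 0 1 [5,5,1,1,1],
   .H 7 0 16 [7,5,2,2,2,1,1],   .H 7 53 0 [7,5,2,2,2,1,1], .H 7 51 0 [7,5,2,2,2,1,1], .H 7 49 0 [7,5,2,2,2,1,1], .H 7 46 16 [7,5,2,2,2,1,1], .H 4 83 9 [5,1,1],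
   .S 46 13 0 7,   .H 7 0 1 [7,5,2,2,2,1,1], .H 7 84 0 [7,5,2,2,2,1,1], .H 7 82 16 [7,5,2,2,2,1,1], .H 7 79 16 [7,5,2,2,2,1,1], .H 3 72 1 [6,1],
   .S 44 2 0 11,   .H 7 0 1 [7,5,2,2,2,1,1], .H 7 103 11 [7,5,2,2,2,1,1], .H 2 29 1 [4,3], .S 76 3 0 20, .H 7 0 1 [7,5,2,2,2,1,1]]

def nodes_23_1 : List Node :=
  [.H 2 79 1 [3,3],   .B 4 [5,2], .S 1 19 0 2, .H 7 0 3 [7,5,2,2,2,1,1], .B 4 [5,1,1], .S 4 12 0 6,
   .H 7 0 3 [7,5,2,2,2,1,1],   .S 125 2 6 15, .H 5 0 2 [6,4,1,1,1], .H 7 0 11 [7,5,2,2,2,1,1], .S 106 13 106 12, .S 129 2 0 3,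
   .H 5 0 1 [6,4,1,1,1],   .H 7 0 11 [7,5,2,2,2,1,1], .G 1 [3,1,1,1,1], .S 73 13 0 4, .H 7 0 1 [7,5,2,2,2,1,1], .H 7 58 1 [7,5,2,2,2,1,1],
   .H 7 55 11 [7,5,2,2,2,1,1],   .H 7 49 11 [7,5,2,2,2,1,1], .S 125 13 137 5, .H 5 0 2 [6,4,1,1,1], .H 7 0 11 [7,5,2,2,2,1,1], .H 5 84 2 [6,4,1,1,1],
   .H 7 0 11 [7,5,2,2,2,1,1],   .H 3 142 7 [6,1], .H 3 0 23 [4,3,1,1,1], .S 0 8 0 12, .H 3 86 10 [5,2,2], .H 3 139 1 [4,1,1],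
   .S 62 2 0 11,   .S 2 6 0 3, .H 3 121 2 [6,1], .H 3 0 23 [4,3,1,1,1], .S 7 8 0 12, .H 4 131 9 [6,1],
   .H 3 0 18 [4,3,1,1,1],   .S 10 8 0 12, .S 117 8 70 14, .B 5 [3,1,1], .S 158 1 0 7, .S 146 8 0 7,
   .S 3 9 0 5,   .S 82 14 82 8, .S 0 1 0 5, .T [3,1,1], .B 5 [4,1], .S 1 13 0 16,
   .S 4 1 0 13,   .H 3 84 1 [4,3,1,1,1], .S 6 1 0 12, .H 2 147 1 [3,1,1], .S 0 17 84 14, .S 9 1 0 13,
   .S 8 1 86 2,   .H 4 105 15 [7,2,1], .S 1 3 0 2, .S 9 9 9 13, .S 8 8 10 13, .S 9 8 9 12,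
   .S 5 3 16 5,   .S 6 3 13 13, .S 7 3 12 12, .S 8 3 10 13, .B 6 [4,1], .S 19 9 0 3,
   .S 22 1 0 14,   .S 23 1 30 12, .S 28 16 100 14, .S 25 1 0 13, .G 0 [2,2,1], .S 0 2 103 14,
   .S 28 1 0 13,   .S 18 3 1 13, .S 30 1 40 12, .S 193 3 154 14, .H 4 0 12 [7,2,1], .S 33 1 0 2,
   .S 34 1 51 12,   .S 24 3 24 7, .S 25 3 14 14, .S 26 3 44 12, .S 27 3 48 12]

def refs_23 : List (ℕ × ℕ) :=
  [(195,2), (189,0), (183,13), (182,2), (181,2), (180,0), (176,0), (173,0), (169,0), (165,13), (164,2), (163,0),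
  (157,13), (156,2), (155,0), (152,0), (149,0), (146,0), (142,0), (137,13), (136,0), (135,0), (134,0), (131,13),
  (130,2), (129,0), (126,13), (125,0), (123,0), (119,0), (116,13), (112,0), (109,2), (106,12), (103,12), (100,12),
  (99,12), (98,12), (97,12), (96,12), (93,13), (92,12), (91,12), (90,12), (87,13), (86,12), (83,0), (79,12),
  (76,12), (73,12), (69,12), (66,13), (65,12), (64,12), (63,12), (60,12), (58,12), (55,12), (51,12), (48,12),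
  (45,12), (40,13), (38,13), (34,13), (32,13), (29,13), (26,12), (25,13), (24,13), (23,12), (22,13), (21,13),
  (20,13), (19,13), (16,13), (15,13), (13,13), (10,13), (9,12), (8,13), (5,12), (4,13), (3,13), (2,13),
  (1,13), (0,12)]

theorem cert_23 : ∀ l ∈ out_23, KT ([7,5,2,2,2,1,1], [7,5,2,2,2,1,1], l) :=
  certOK_sound (Bs := [([5,1,1],([],[1],[(1,5)])),([2,1,1],([],[1],[(1,2)])),([5,2],([],[5,2],[])),([5,3],([],[5,3],[])),([4,3],([4],[],[])),([3,2],([3],[],[])),([4,1],([],[4,1],[]))])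
    (Gt := [[3,1,1],[4,1,1,1]]) (nodes := nodes_23_0 ++ nodes_23_1) (refs := refs_23)
    (by
    simp only [List.forall_mem_cons]
    exact ⟨good_2, good_3, by simp⟩) specT_ok (by decide +kernel)

theorem good_23 : GoodL [7,5,2,2,2,1,1] :=
  good_chk1 (q := 7) (ν := [4,1,1,1]) (gs := [])
    (out := out_23) good_3 cert_23 (by decide +kernel)

def out_100 : List (List ℕ) :=
  [[6,1,1,1,1,1]]

def nodes_100_0 : List Node :=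
  [.T [2,2], .H 3 0 1 [3,2,2], .H 4 0 15 [6,1,1,1,1,1]]

def refs_100 : List (ℕ × ℕ) :=
  [(0,0)]

theorem cert_100 : ∀ l ∈ out_100, KT ([4,3,3,1], [4,3,3,1], l) :=
  certOK_sound (Bs := [])
    (Gt := []) (nodes := nodes_100_0) (refs := refs_100)
    (by simp) specT_ok (by decide +kernel)

theorem good_100 : GoodL [4,3,3,1] :=
  good_chk0 (gs := [([4],[],[(3,1)])]) (out := out_100) cert_100 (by decide +kernel)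

def out_010 : List (List ℕ) :=
  [[8,1,1,1,1,1], [7,2,1,1,1,1], [7,1,1,1,1,1,1], [6,3,1,1,1,1], [5,5,3], [5,5,2,1],
  [5,5,1,1,1], [5,4,4], [5,4,3,1], [5,4,2,2], [5,4,2,1,1], [5,3,3,2],
  [5,3,3,1,1], [4,4,4,1], [4,4,3,2]]

def nodes_010_0 : List Node :=
  [.T [1,1,1,1], .T [3,1], .T [3,2], .S 1 14 0 3, .S 3 2 0 13,
   .B 0 [4,1],   .S 4 14 0 17, .S 6 2 0 13, .T [3,2,1], .H 3 0 1 [3,3,2,1], .S 9 2 0 12,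
   .B 1 [3,2],   .S 10 14 0 2, .S 12 2 0 13, .T [2,1], .S 0 13 0 13, .B 2 [3,3,1],
   .S 1 17 0 17,   .B 3 [3,2,2,2], .H 4 0 16 [4,4,3,2], .T [1,1,1], .T [2,2], .T [1,1],
   .S 0 0 24 0,   .S 2 13 0 14, .S 4 2 0 13, .B 2 [3,2,2], .S 11 17 0 17, .B 3 [3,3,2,1],
   .H 4 0 2 [4,4,3,2],   .B 0 [2,1,1,1], .S 9 13 32 0, .S 1 17 0 17, .S 10 2 38 1, .S 11 3 12 13,
   .B 2 [2,2,2,1],   .S 1 17 0 1, .S 14 2 43 1, .B 3 [3,3,3], .H 4 0 16 [4,4,3,2], .S 18 13 18 13,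
   .S 43 1 0 1]

def refs_010 : List (ℕ × ℕ) :=
  [(37,2), (34,2), (31,0), (28,2), (24,12), (22,13), (16,2), (14,12), (12,13), (9,12), (8,2), (5,12),
  (4,0), (2,13), (0,0)]

theorem cert_010 : ∀ l ∈ out_010, KT ([4,4,3,2], [4,4,3,2], l) :=
  certOK_sound (Bs := [([3,2],([3],[],[])),([2,2,1],([],[2],[(2,1)])),([4,3],([4],[],[])),([4,3,2],([4],[2],[]))])
    (Gt := []) (nodes := nodes_010_0) (refs := refs_010)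
    (by simp) specT_ok (by decide +kernel)

theorem good_010 : GoodL [4,4,3,2] :=
  good_chk0 (gs := [([4],[],[(4,2)])]) (out := out_010) cert_010 (by decide +kernel)

def out_110 : List (List ℕ) :=
  []

theorem good_110 : GoodL [5,4,3,2,1] :=
  good_chk1 (q := 5) (ν := [3,2,1]) (gs := [([5,3],[1],[])])
    (out := out_110) good_10 (by simp [out_110]) (by decide +kernel)

def out_101 : List (List ℕ) :=
  [[11,1,1,1,1,1,1], [10,2,1,1,1,1,1], [10,1,1,1,1,1,1,1], [9,3,1,1,1,1,1], [9,2,2,1,1,1,1], [9,2,1,1,1,1,1,1],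
  [9,1,1,1,1,1,1,1,1], [8,4,1,1,1,1,1], [8,3,2,1,1,1,1], [8,3,1,1,1,1,1,1], [8,2,2,2,1,1,1], [7,5,1,1,1,1,1],
  [7,4,2,1,1,1,1], [7,3,3,1,1,1,1]]

def nodes_101_0 : List Node :=
  [.B 0 [2,1,1,1], .H 3 0 2 [7,1], .H 4 0 1 [10,1,1], .H 5 0 3 [7,1,1,1,1,1,1,1,1,1,1], .T [3,3,2],
   .H 4 0 1 [4,3,3,2],   .H 5 0 15 [7,2,1,1,1,1,1,1,1,1], .H 5 1 15 [8,1,1,1,1,1,1,1,1,1], .B 1 [7,1], .H 4 0 18 [4,3,3,2], .H 5 0 15 [7,2,2,1,1,1,1,1,1],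
   .H 4 2 2 [5,1,1,1,1,1,1,1],   .H 5 0 1 [7,3,1,1,1,1,1,1,1], .H 5 1 1 [8,2,1,1,1,1,1,1,1], .H 5 2 1 [9,1,1,1,1,1,1,1,1], .B 1 [6,2], .H 4 0 18 [4,3,3,2],
   .H 5 0 15 [7,2,2,2,1,1,1,1],   .T [1,1,1], .B 0 [3,1,1], .S 1 0 0 17, .H 4 0 13 [5,2,1,1,1,1,1], .H 5 0 1 [7,3,2,1,1,1,1,1],
   .H 5 1 1 [8,2,2,1,1,1,1,1],   .H 4 3 13 [6,1,1,1,1,1,1], .H 5 0 1 [7,4,1,1,1,1,1,1], .B 1 [5,3], .H 4 0 18 [4,3,3,2], .H 5 0 15 [7,2,2,2,2,1,1],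
   .H 3 28 16 [3,3,2],   .H 4 0 12 [5,2,2,1,1,1], .H 5 0 1 [7,3,2,2,1,1,1], .S 13 2 31 1, .H 4 0 2 [5,3,1,1,1,1], .H 5 0 1 [7,3,3,1,1,1,1]]

def refs_101 : List (ℕ × ℕ) :=
  [(31,2), (28,2), (27,2), (24,2), (22,2), (21,2), (20,0), (17,2), (12,2), (11,2), (9,2), (6,2),
  (3,2), (0,0)]

theorem cert_101 : ∀ l ∈ out_101, KT ([5,4,4,3,1], [5,4,4,3,1], l) :=
  certOK_sound (Bs := [([3,2],([3],[],[])),([3,3,2],([],[3],[(3,2)]))])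
    (Gt := []) (nodes := nodes_101_0) (refs := refs_101)
    (by simp) specT_ok (by decide +kernel)

theorem good_101 : GoodL [5,4,4,3,1] :=
  good_chk0 (gs := [([5],[3],[(4,1)])]) (out := out_101) cert_101 (by decide +kernel)

def out_120 : List (List ℕ) :=
  []

theorem good_120 : GoodL [6,5,3,2,2,1] :=
  good_chk1 (q := 6) (ν := [4,2,1,1]) (gs := [([6,3],[],[(2,1)])])
    (out := out_120) good_20 (by simp [out_120]) (by decide +kernel)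

def out_111 : List (List ℕ) :=
  []

theorem good_111 : GoodL [6,5,4,3,2,1] :=
  good_chk1 (q := 6) (ν := [4,3,2,1]) (gs := [([6,4,2],[],[])])
    (out := out_111) good_11 (by simp [out_111]) (by decide +kernel)

def out_130 : List (List ℕ) :=
  [[9,3,3,3,2,1,1,1], [9,3,3,3,1,1,1,1,1], [8,4,4,3,1,1,1,1], [8,4,4,2,2,1,1,1], [8,4,4,2,1,1,1,1,1], [8,4,4,1,1,1,1,1,1,1],
  [8,4,3,3,2,1,1,1], [8,4,3,3,1,1,1,1,1], [8,3,3,3,3,1,1,1], [8,3,3,3,2,2,1,1], [8,3,3,3,2,1,1,1,1], [8,3,3,3,1,1,1,1,1,1]]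

def nodes_130_0 : List Node :=
  [.T [1,1], .T [2,1], .S 1 3 0 13, .H 5 0 1 [7,1,1,1], .H 6 0 2 [6,4,1,1,1,1,1,1],
   .H 7 0 1 [8,5,4,1,1,1,1,1,1],   .H 5 3 7 [5,2,1,1,1], .H 6 0 18 [8,3,3,1,1], .H 7 0 2 [9,3,3,3,1,1,1,1,1], .T [1,1,1], .H 2 0 2 [3,2],
   .T [3,2],   .S 1 19 0 14, .H 6 0 17 [7,3,3,2,1], .H 7 0 2 [8,4,4,3,1,1,1,1], .H 5 4 6 [5,2,1,1,1], .H 6 0 18 [7,4,2,2,1],
   .H 7 0 2 [8,4,4,2,2,1,1,1],   .H 6 2 18 [8,3,2,2,1], .H 7 0 2 [8,4,4,2,1,1,1,1,1], .H 6 4 18 [9,2,2,2,1], .H 7 0 2 [8,4,4,1,1,1,1,1,1,1], .H 6 15 18 [7,4,3,1,1],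
   .H 7 0 2 [8,4,3,3,2,1,1,1],   .H 7 16 2 [8,4,3,3,1,1,1,1,1], .B 0 [5,2,1,1,1], .H 6 0 18 [7,4,4,1], .H 7 0 2 [8,3,3,3,3,1,1,1], .T [2,2],
   .S 27 0 0 13,   .H 3 0 1 [5,2,1,1,1], .H 6 0 22 [7,5,3,1], .H 7 0 2 [8,3,3,3,2,2,1,1], .H 6 2 22 [8,4,3,1], .H 7 0 2 [8,3,3,3,2,1,1,1,1],
   .H 6 4 22 [9,3,3,1],   .H 7 0 2 [8,3,3,3,1,1,1,1,1,1]]

def refs_130 : List (ℕ × ℕ) :=
  [(31,2), (28,0), (22,0), (19,0), (17,0), (15,0), (13,0), (12,0), (9,0), (4,0), (2,0), (0,0)]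

theorem cert_130 : ∀ l ∈ out_130, KT ([7,6,3,2,2,2,1], [7,6,3,2,2,2,1], l) :=
  certOK_sound (Bs := [([5,4,1],([5],[1],[]))])
    (Gt := []) (nodes := nodes_130_0) (refs := refs_130)
    (by simp) specT_ok (by decide +kernel)

theorem good_130 : GoodL [7,6,3,2,2,2,1] :=
  good_chk2 (q := 7) (ν := [1]) (gs := [([7],[2],[(2,1),(2,3)])])
    (out := out_130) good_0 cert_130 (by decide +kernel)

def out_121 : List (List ℕ) :=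
  []

theorem good_121 : GoodL [7,6,4,3,2,2,1] :=
  good_chk1 (q := 7) (ν := [5,3,2,1,1]) (gs := [([7,4],[2],[(2,1)])])
    (out := out_121) good_21 (by simp [out_121]) (by decide +kernel)

def out_112 : List (List ℕ) :=
  []

theorem good_112 : GoodL [7,6,5,3,3,2,1] :=
  good_chk1 (q := 7) (ν := [5,4,2,2,1]) (gs := [([7,3],[5],[(3,1)])])
    (out := out_112) good_12 (by simp [out_112]) (by decide +kernel)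

def out_131 : List (List ℕ) :=
  []

theorem good_131 : GoodL [8,7,4,3,2,2,2,1] :=
  good_chk2 (q := 8) (ν := [2,1]) (gs := [([8],[4,2],[(2,1),(2,3)]),([8,3],[],[(2,1),(2,4)])])
    (out := out_131) good_1 (by simp [out_131]) (by decide +kernel)

def out_122 : List (List ℕ) :=
  []

theorem good_122 : GoodL [8,7,5,3,3,2,2,1] :=
  good_chk1 (q := 8) (ν := [6,4,2,2,1,1]) (gs := [([8],[5,3],[(3,2),(2,1)]),([8,3],[],[(3,1),(2,5)])])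
    (out := out_122) good_22 (by simp [out_122]) (by decide +kernel)

def out_113 : List (List ℕ) :=
  []

theorem good_113 : GoodL [8,7,6,3,3,3,2,1] :=
  good_chk1 (q := 8) (ν := [6,5,2,2,2,1]) (gs := [([8],[6,3],[(3,1),(3,2)]),([8,3],[],[(3,1),(3,6)])])
    (out := out_113) good_13 (by simp [out_113]) (by decide +kernel)

end Crest.Agent.R195
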