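import Crest.Agent.R195.Data1

/-! Row 195: generated certificate data. -/

set_option autoImplicit false
set_option maxRecDepth 100000

namespace Crest.Agent.R195

def out_132 : List (List ℕ) :=
  [[13,3,3,3,3,3,3,3,1], [12,4,4,4,4,4,1,1,1], [12,4,4,4,4,3,2,1,1], [12,4,4,4,4,3,1,1,1,1], [12,4,4,4,4,2,2,2,1], [12,4,4,4,4,2,2,1,1,1],
  [12,4,4,4,4,2,1,1,1,1,1], [12,4,4,4,4,1,1,1,1,1,1,1], [12,4,4,4,3,3,3,1,1], [12,4,4,4,3,3,2,2,1], [12,4,4,4,3,3,2,1,1,1], [12,4,4,4,3,3,1,1,1,1,1],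
  [12,4,4,3,3,3,3,2,1], [12,4,4,3,3,3,3,1,1,1], [12,4,3,3,3,3,3,3,1], [12,3,3,3,3,3,3,3,2], [12,3,3,3,3,3,3,3,1,1], [11,5,5,5,5,1,1,1,1],
  [11,5,5,5,4,2,1,1,1], [11,5,5,5,4,1,1,1,1,1], [11,5,5,5,3,3,1,1,1], [11,5,5,5,3,2,2,1,1], [11,5,5,5,3,2,1,1,1,1], [11,5,5,5,3,1,1,1,1,1,1],
  [11,5,5,5,2,2,2,2,1], [11,5,5,5,2,2,2,1,1,1], [11,5,5,5,2,2,1,1,1,1,1], [11,5,5,5,2,1,1,1,1,1,1,1], [11,5,5,5,1,1,1,1,1,1,1,1,1], [11,5,5,4,4,3,1,1,1],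
  [11,5,5,4,4,2,2,1,1], [11,5,5,4,4,2,1,1,1,1], [11,5,5,4,3,3,2,1,1], [11,5,5,4,3,3,1,1,1,1], [11,5,5,4,3,2,2,2,1], [11,5,5,4,3,2,2,1,1,1],
  [11,5,5,4,3,2,1,1,1,1,1], [11,5,5,4,3,1,1,1,1,1,1,1], [11,5,5,3,3,3,3,1,1], [11,5,5,3,3,3,2,2,1], [11,5,5,3,3,3,2,1,1,1], [11,5,5,3,3,3,1,1,1,1,1],
  [11,5,4,4,4,4,1,1,1], [11,5,4,4,4,3,2,1,1], [11,5,4,4,4,3,1,1,1,1], [11,5,4,4,4,2,2,2,1], [11,5,4,4,4,2,2,1,1,1], [11,5,4,4,4,2,1,1,1,1,1],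
  [11,5,4,4,4,1,1,1,1,1,1,1], [11,5,4,4,3,3,3,1,1], [11,5,4,4,3,3,2,2,1], [11,5,4,4,3,3,2,1,1,1], [11,5,4,4,3,3,1,1,1,1,1], [11,5,4,3,3,3,3,2,1],
  [11,5,4,3,3,3,3,1,1,1], [11,5,3,3,3,3,3,3,1], [11,4,4,4,4,4,2,1,1], [11,4,4,4,4,4,1,1,1,1], [11,4,4,4,4,3,3,1,1], [11,4,4,4,4,3,2,2,1],
  [11,4,4,4,4,3,2,1,1,1], [11,4,4,4,4,3,1,1,1,1,1], [11,4,4,4,4,2,2,2,2], [11,4,4,4,4,2,2,2,1,1], [11,4,4,4,4,2,2,1,1,1,1], [11,4,4,4,4,2,1,1,1,1,1,1],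
  [11,4,4,4,4,1,1,1,1,1,1,1,1], [11,4,4,4,3,3,3,2,1], [11,4,4,4,3,3,3,1,1,1], [11,4,4,4,3,3,2,2,2], [11,4,4,4,3,3,2,2,1,1], [11,4,4,4,3,3,2,1,1,1,1],
  [11,4,4,4,3,3,1,1,1,1,1,1], [11,4,4,3,3,3,3,3,1], [11,4,4,3,3,3,3,2,2], [11,4,4,3,3,3,3,2,1,1], [11,4,4,3,3,3,3,1,1,1,1], [11,4,3,3,3,3,3,3,2],
  [11,4,3,3,3,3,3,3,1,1], [11,3,3,3,3,3,3,3,3], [11,3,3,3,3,3,3,3,2,1], [11,3,3,3,3,3,3,3,1,1,1], [11,1,1,1,1,1,1,1,1,1,1,1,1,1,1,1,1,1,1,1,1,1,1,1,1], [10,6,6,6,3,1,1,1,1],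
  [10,6,6,6,2,2,1,1,1], [10,6,6,6,2,1,1,1,1,1], [10,6,6,5,4,1,1,1,1], [10,6,6,5,3,2,1,1,1], [10,6,6,5,3,1,1,1,1,1], [10,6,6,5,2,2,2,1,1],
  [10,6,6,5,2,2,1,1,1,1], [10,6,6,4,4,2,1,1,1], [10,6,6,4,4,1,1,1,1,1], [10,6,6,4,3,3,1,1,1], [10,6,6,4,3,2,2,1,1], [10,6,6,4,3,2,1,1,1,1],
  [10,6,6,4,2,2,2,2,1], [10,6,6,4,2,2,2,1,1,1], [10,6,6,4,2,2,1,1,1,1,1], [10,6,6,4,2,1,1,1,1,1,1,1], [10,6,6,4,1,1,1,1,1,1,1,1,1], [10,6,6,3,3,3,2,1,1],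
  [10,6,6,3,3,3,1,1,1,1], [10,6,6,3,3,2,2,2,1], [10,6,6,3,3,2,2,1,1,1], [10,6,6,3,3,2,1,1,1,1,1], [10,6,6,3,3,1,1,1,1,1,1,1], [10,6,5,5,5,1,1,1,1],
  [10,6,5,5,4,2,1,1,1], [10,6,5,5,4,1,1,1,1,1], [10,6,5,5,3,3,1,1,1], [10,6,5,5,3,2,2,1,1], [10,6,5,5,3,2,1,1,1,1], [10,6,5,5,2,2,2,2,1],
  [10,6,5,5,2,2,2,1,1,1], [10,6,5,5,2,2,1,1,1,1,1], [10,6,5,5,2,1,1,1,1,1,1,1], [10,6,5,5,1,1,1,1,1,1,1,1,1], [10,6,5,4,4,3,1,1,1], [10,6,5,4,4,2,2,1,1],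
  [10,6,5,4,3,3,2,1,1], [10,6,5,4,3,2,2,2,1], [10,6,5,4,3,2,2,1,1,1], [10,6,5,4,3,2,1,1,1,1,1], [10,6,5,4,3,1,1,1,1,1,1,1], [10,6,5,3,3,3,3,1,1],
  [10,6,5,3,3,3,2,2,1], [10,6,5,3,3,3,2,1,1,1], [10,6,5,3,3,3,1,1,1,1,1], [10,6,4,4,4,4,1,1,1], [10,6,4,4,4,3,2,1,1], [10,6,4,4,4,2,2,2,1],
  [10,6,4,4,4,2,2,1,1,1], [10,6,4,4,4,2,1,1,1,1,1], [10,6,4,4,4,1,1,1,1,1,1,1], [10,6,4,4,3,3,3,1,1], [10,6,4,4,3,3,2,2,1], [10,6,4,4,3,3,2,1,1,1],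
  [10,6,4,4,3,3,1,1,1,1,1], [10,6,4,3,3,3,3,2,1], [10,6,4,3,3,3,3,1,1,1], [10,6,3,3,3,3,3,3,1], [10,5,5,5,5,2,1,1,1], [10,5,5,5,5,1,1,1,1,1],
  [10,5,5,5,4,3,1,1,1], [10,5,5,5,4,2,2,1,1], [10,5,5,5,3,3,2,1,1], [10,5,5,5,3,2,2,2,1], [10,5,5,5,3,2,2,1,1,1], [10,5,5,5,3,2,1,1,1,1,1],
  [10,5,5,5,3,1,1,1,1,1,1,1], [10,5,5,5,2,2,2,2,2], [10,5,5,5,2,2,2,2,1,1], [10,5,5,5,2,2,2,1,1,1,1], [10,5,5,5,2,2,1,1,1,1,1,1], [10,5,5,5,2,1,1,1,1,1,1,1,1],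
  [10,5,5,5,1,1,1,1,1,1,1,1,1,1], [10,5,5,4,4,4,1,1,1], [10,5,5,4,4,3,2,1,1], [10,5,5,4,4,2,2,2,1], [10,5,5,4,4,2,2,1,1,1], [10,5,5,4,4,2,1,1,1,1,1],
  [10,5,5,4,4,1,1,1,1,1,1,1], [10,5,5,4,3,3,3,1,1], [10,5,5,4,3,3,2,2,1], [10,5,5,4,3,3,2,1,1,1], [10,5,5,4,3,3,1,1,1,1,1], [10,5,5,4,3,2,2,2,2],
  [10,5,5,4,3,2,2,2,1,1], [10,5,5,4,3,2,2,1,1,1,1], [10,5,5,4,3,2,1,1,1,1,1,1], [10,5,5,4,3,1,1,1,1,1,1,1,1], [10,5,5,3,3,3,3,2,1], [10,5,5,3,3,3,3,1,1,1],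
  [10,5,5,3,3,3,2,2,2], [10,5,5,3,3,3,2,2,1,1], [10,5,5,3,3,3,2,1,1,1,1], [10,5,5,3,3,3,1,1,1,1,1,1], [10,5,4,4,4,4,2,1,1], [10,5,4,4,4,3,3,1,1],
  [10,5,4,4,4,3,2,2,1], [10,5,4,4,4,3,2,1,1,1], [10,5,4,4,4,3,1,1,1,1,1], [10,5,4,4,4,2,2,2,2], [10,5,4,4,4,2,2,2,1,1], [10,5,4,4,4,2,2,1,1,1,1],
  [10,5,4,4,4,2,1,1,1,1,1,1], [10,5,4,4,4,1,1,1,1,1,1,1,1], [10,5,4,4,3,3,3,2,1], [10,5,4,4,3,3,3,1,1,1], [10,5,4,4,3,3,2,2,2], [10,5,4,4,3,3,2,2,1,1],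
  [10,5,4,4,3,3,2,1,1,1,1], [10,5,4,4,3,3,1,1,1,1,1,1], [10,5,4,3,3,3,3,3,1], [10,5,4,3,3,3,3,2,2], [10,5,4,3,3,3,3,2,1,1], [10,5,4,3,3,3,3,1,1,1,1],
  [10,5,3,3,3,3,3,3,2], [10,5,3,3,3,3,3,3,1,1], [10,4,4,4,4,4,3,1,1], [10,4,4,4,4,4,2,2,1], [10,4,4,4,4,4,2,1,1,1], [10,4,4,4,4,4,1,1,1,1,1],
  [10,4,4,4,4,3,3,2,1], [10,4,4,4,4,3,3,1,1,1], [10,4,4,4,4,3,2,2,2], [10,4,4,4,4,3,2,2,1,1], [10,4,4,4,4,3,2,1,1,1,1], [10,4,4,4,4,3,1,1,1,1,1,1],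
  [10,4,4,4,4,2,2,2,2,1], [10,4,4,4,4,2,2,2,1,1,1], [10,4,4,4,4,2,2,1,1,1,1,1], [10,4,4,4,4,2,1,1,1,1,1,1,1], [10,4,4,4,4,1,1,1,1,1,1,1,1,1], [10,4,4,4,3,3,3,3,1],
  [10,4,4,4,3,3,3,2,2], [10,4,4,4,3,3,3,2,1,1], [10,4,4,4,3,3,3,1,1,1,1], [10,4,4,4,3,3,2,2,2,1], [10,4,4,4,3,3,2,2,1,1,1], [10,4,4,4,3,3,2,1,1,1,1,1],
  [10,4,4,4,3,3,1,1,1,1,1,1,1], [10,4,4,3,3,3,3,3,2], [10,4,4,3,3,3,3,3,1,1], [10,4,4,3,3,3,3,2,2,1], [10,4,4,3,3,3,3,2,1,1,1], [10,4,4,3,3,3,3,1,1,1,1,1],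
  [10,4,3,3,3,3,3,3,3], [10,4,3,3,3,3,3,3,2,1], [10,4,3,3,3,3,3,3,1,1,1], [10,3,3,3,3,3,3,3,3,1], [10,3,3,3,3,3,3,3,2,2], [10,3,3,3,3,3,3,3,2,1,1],
  [10,3,3,3,3,3,3,3,1,1,1,1], [10,2,2,2,2,2,2,2,2,2,2,2,2,1], [10,2,2,2,2,2,2,2,2,2,2,2,1,1,1], [10,2,2,2,2,2,2,2,2,2,2,1,1,1,1,1], [10,2,2,2,2,2,2,2,2,2,1,1,1,1,1,1,1], [10,2,2,2,2,2,2,2,2,1,1,1,1,1,1,1,1,1],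
  [10,2,2,2,2,2,2,2,1,1,1,1,1,1,1,1,1,1,1], [10,2,2,2,2,2,2,1,1,1,1,1,1,1,1,1,1,1,1,1], [10,2,2,2,2,2,1,1,1,1,1,1,1,1,1,1,1,1,1,1,1], [10,2,2,2,2,1,1,1,1,1,1,1,1,1,1,1,1,1,1,1,1,1], [10,2,2,2,1,1,1,1,1,1,1,1,1,1,1,1,1,1,1,1,1,1,1], [10,2,2,1,1,1,1,1,1,1,1,1,1,1,1,1,1,1,1,1,1,1,1,1],
  [10,2,1,1,1,1,1,1,1,1,1,1,1,1,1,1,1,1,1,1,1,1,1,1,1], [10,1,1,1,1,1,1,1,1,1,1,1,1,1,1,1,1,1,1,1,1,1,1,1,1,1], [9,7,7,7,1,1,1,1,1], [9,7,7,6,2,1,1,1,1], [9,7,7,5,3,1,1,1,1], [9,7,7,5,2,2,1,1,1],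
  [9,7,7,4,4,1,1,1,1], [9,7,7,4,3,2,1,1,1], [9,7,7,4,2,2,2,1,1], [9,7,7,3,3,3,1,1,1], [9,7,7,3,3,2,2,1,1], [9,7,7,3,2,2,2,2,1],
  [9,7,7,3,2,2,2,1,1,1], [9,7,7,3,2,2,1,1,1,1,1], [9,7,7,3,2,1,1,1,1,1,1,1], [9,7,7,3,1,1,1,1,1,1,1,1,1], [9,7,6,6,3,1,1,1,1], [9,7,6,6,2,2,1,1,1],
  [9,7,6,5,4,1,1,1,1], [9,7,6,5,3,2,1,1,1], [9,7,6,5,2,2,2,1,1], [9,7,6,4,4,2,1,1,1], [9,7,6,4,3,3,1,1,1], [9,7,6,4,3,2,2,1,1],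
  [9,7,6,4,2,2,2,2,1], [9,7,6,4,2,2,2,1,1,1], [9,7,6,4,2,2,1,1,1,1,1], [9,7,6,4,2,1,1,1,1,1,1,1], [9,7,6,4,1,1,1,1,1,1,1,1,1], [9,7,6,3,3,3,2,1,1],
  [9,7,6,3,3,2,2,2,1], [9,7,6,3,3,2,2,1,1,1], [9,7,6,3,3,2,1,1,1,1,1], [9,7,6,3,3,1,1,1,1,1,1,1], [9,7,5,5,5,1,1,1,1], [9,7,5,5,4,2,1,1,1],
  [9,7,5,5,3,3,1,1,1], [9,7,5,5,3,2,2,1,1], [9,7,5,5,2,2,2,2,1], [9,7,5,5,2,2,2,1,1,1], [9,7,5,5,2,2,1,1,1,1,1], [9,7,5,5,2,1,1,1,1,1,1,1],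
  [9,7,5,5,1,1,1,1,1,1,1,1,1], [9,7,5,4,4,3,1,1,1], [9,7,5,4,3,2,2,2,1], [9,7,5,4,3,2,2,1,1,1], [9,7,5,4,3,2,1,1,1,1,1], [9,7,5,4,3,1,1,1,1,1,1,1],
  [9,7,5,3,3,3,2,2,1], [9,7,5,3,3,3,2,1,1,1], [9,7,5,3,3,3,1,1,1,1,1], [9,7,4,4,4,4,1,1,1], [9,7,4,4,4,2,2,2,1], [9,7,4,4,4,2,2,1,1,1],
  [9,7,4,4,4,2,1,1,1,1,1], [9,7,4,4,4,1,1,1,1,1,1,1], [9,7,4,4,3,3,2,2,1], [9,7,4,4,3,3,2,1,1,1], [9,7,4,4,3,3,1,1,1,1,1], [9,7,4,3,3,3,3,2,1],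
  [9,7,4,3,3,3,3,1,1,1], [9,7,3,3,3,3,3,3,1], [9,6,6,6,4,1,1,1,1], [9,6,6,6,3,2,1,1,1], [9,6,6,5,5,1,1,1,1], [9,6,6,5,4,2,1,1,1],
  [9,6,6,5,3,3,1,1,1], [9,6,6,5,2,2,2,2,1], [9,6,6,5,2,2,2,1,1,1], [9,6,6,5,2,2,1,1,1,1,1], [9,6,6,5,2,1,1,1,1,1,1,1], [9,6,6,5,1,1,1,1,1,1,1,1,1],
  [9,6,6,4,3,2,2,2,1], [9,6,6,4,3,2,2,1,1,1], [9,6,6,4,3,2,1,1,1,1,1], [9,6,6,4,3,1,1,1,1,1,1,1], [9,6,6,4,2,2,2,2,2], [9,6,6,4,2,2,2,2,1,1],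
  [9,6,6,4,2,2,2,1,1,1,1], [9,6,6,4,2,2,1,1,1,1,1,1], [9,6,6,4,2,1,1,1,1,1,1,1,1], [9,6,6,4,1,1,1,1,1,1,1,1,1,1], [9,6,6,3,3,3,2,2,1], [9,6,6,3,3,3,2,1,1,1],
  [9,6,6,3,3,3,1,1,1,1,1], [9,6,6,3,3,2,2,2,2], [9,6,6,3,3,2,2,2,1,1], [9,6,6,3,3,2,2,1,1,1,1], [9,6,6,3,3,2,1,1,1,1,1,1], [9,6,6,3,3,1,1,1,1,1,1,1,1],
  [9,6,5,5,5,2,1,1,1], [9,6,5,5,3,2,2,2,1], [9,6,5,5,3,2,2,1,1,1], [9,6,5,5,3,2,1,1,1,1,1], [9,6,5,5,3,1,1,1,1,1,1,1], [9,6,5,5,2,2,2,2,2],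
  [9,6,5,5,2,2,2,2,1,1], [9,6,5,5,2,2,2,1,1,1,1], [9,6,5,5,2,2,1,1,1,1,1,1], [9,6,5,5,2,1,1,1,1,1,1,1,1], [9,6,5,5,1,1,1,1,1,1,1,1,1,1], [9,6,5,4,4,2,2,2,1],
  [9,6,5,4,4,2,2,1,1,1], [9,6,5,4,4,2,1,1,1,1,1], [9,6,5,4,4,1,1,1,1,1,1,1], [9,6,5,4,3,3,2,2,1], [9,6,5,4,3,3,2,1,1,1], [9,6,5,4,3,3,1,1,1,1,1],
  [9,6,5,4,3,2,2,2,2], [9,6,5,4,3,2,2,2,1,1], [9,6,5,4,3,2,2,1,1,1,1], [9,6,5,4,3,2,1,1,1,1,1,1], [9,6,5,4,3,1,1,1,1,1,1,1,1], [9,6,5,3,3,3,3,2,1],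
  [9,6,5,3,3,3,3,1,1,1], [9,6,5,3,3,3,2,2,2], [9,6,5,3,3,3,2,2,1,1], [9,6,5,3,3,3,2,1,1,1,1], [9,6,5,3,3,3,1,1,1,1,1,1], [9,6,4,4,4,3,2,2,1],
  [9,6,4,4,4,3,2,1,1,1], [9,6,4,4,4,3,1,1,1,1,1], [9,6,4,4,4,2,2,2,2], [9,6,4,4,4,2,2,2,1,1], [9,6,4,4,4,2,2,1,1,1,1], [9,6,4,4,4,2,1,1,1,1,1,1],
  [9,6,4,4,4,1,1,1,1,1,1,1,1], [9,6,4,4,3,3,3,2,1], [9,6,4,4,3,3,3,1,1,1], [9,6,4,4,3,3,2,2,2], [9,6,4,4,3,3,2,2,1,1], [9,6,4,4,3,3,2,1,1,1,1],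
  [9,6,4,4,3,3,1,1,1,1,1,1], [9,6,4,3,3,3,3,3,1], [9,6,4,3,3,3,3,2,2], [9,6,4,3,3,3,3,2,1,1], [9,6,4,3,3,3,3,1,1,1,1], [9,6,3,3,3,3,3,3,2],
  [9,6,3,3,3,3,3,3,1,1], [9,5,5,5,4,2,2,2,1], [9,5,5,5,4,2,2,1,1,1], [9,5,5,5,4,2,1,1,1,1,1], [9,5,5,5,4,1,1,1,1,1,1,1], [9,5,5,5,3,3,2,2,1],
  [9,5,5,5,3,3,2,1,1,1], [9,5,5,5,3,3,1,1,1,1,1], [9,5,5,5,3,2,2,2,2], [9,5,5,5,3,2,2,2,1,1], [9,5,5,5,3,2,2,1,1,1,1], [9,5,5,5,3,2,1,1,1,1,1,1],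
  [9,5,5,5,3,1,1,1,1,1,1,1,1], [9,5,5,5,2,2,2,2,2,1], [9,5,5,5,2,2,2,2,1,1,1], [9,5,5,5,2,2,2,1,1,1,1,1], [9,5,5,5,2,2,1,1,1,1,1,1,1], [9,5,5,5,2,1,1,1,1,1,1,1,1,1],
  [9,5,5,5,1,1,1,1,1,1,1,1,1,1,1], [9,5,5,4,4,3,2,2,1], [9,5,5,4,4,3,2,1,1,1], [9,5,5,4,4,3,1,1,1,1,1], [9,5,5,4,4,2,2,2,2], [9,5,5,4,4,2,2,2,1,1],
  [9,5,5,4,4,2,2,1,1,1,1], [9,5,5,4,4,2,1,1,1,1,1,1], [9,5,5,4,4,1,1,1,1,1,1,1,1], [9,5,5,4,3,3,3,2,1], [9,5,5,4,3,3,3,1,1,1], [9,5,5,4,3,3,2,2,2],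
  [9,5,5,4,3,3,2,2,1,1], [9,5,5,4,3,3,2,1,1,1,1], [9,5,5,4,3,3,1,1,1,1,1,1], [9,5,5,4,3,2,2,2,2,1], [9,5,5,4,3,2,2,2,1,1,1], [9,5,5,4,3,2,2,1,1,1,1,1],
  [9,5,5,4,3,2,1,1,1,1,1,1,1], [9,5,5,4,3,1,1,1,1,1,1,1,1,1], [9,5,5,3,3,3,3,3,1], [9,5,5,3,3,3,3,2,2], [9,5,5,3,3,3,3,2,1,1], [9,5,5,3,3,3,3,1,1,1,1],
  [9,5,5,3,3,3,2,2,2,1], [9,5,5,3,3,3,2,2,1,1,1], [9,5,5,3,3,3,2,1,1,1,1,1], [9,5,5,3,3,3,1,1,1,1,1,1,1], [9,5,4,4,4,4,2,2,1], [9,5,4,4,4,4,2,1,1,1],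
  [9,5,4,4,4,4,1,1,1,1,1], [9,5,4,4,4,3,3,2,1], [9,5,4,4,4,3,3,1,1,1], [9,5,4,4,4,3,2,2,2], [9,5,4,4,4,3,2,2,1,1], [9,5,4,4,4,3,2,1,1,1,1],
  [9,5,4,4,4,3,1,1,1,1,1,1], [9,5,4,4,4,2,2,2,2,1], [9,5,4,4,4,2,2,2,1,1,1], [9,5,4,4,4,2,2,1,1,1,1,1], [9,5,4,4,4,2,1,1,1,1,1,1,1], [9,5,4,4,4,1,1,1,1,1,1,1,1,1],
  [9,5,4,4,3,3,3,3,1], [9,5,4,4,3,3,3,2,2], [9,5,4,4,3,3,3,2,1,1], [9,5,4,4,3,3,3,1,1,1,1], [9,5,4,4,3,3,2,2,2,1], [9,5,4,4,3,3,2,2,1,1,1],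
  [9,5,4,4,3,3,2,1,1,1,1,1], [9,5,4,4,3,3,1,1,1,1,1,1,1], [9,5,4,3,3,3,3,3,2], [9,5,4,3,3,3,3,3,1,1], [9,5,4,3,3,3,3,2,2,1], [9,5,4,3,3,3,3,2,1,1,1],
  [9,5,4,3,3,3,3,1,1,1,1,1], [9,5,3,3,3,3,3,3,3], [9,5,3,3,3,3,3,3,2,1], [9,5,3,3,3,3,3,3,1,1,1], [6,6,6,6,6,5]]

def nodes_132_0 : List Node :=
  [.T [3,3], .T [2,1], .T [1,1,1], .S 1 13 0 3, .S 0 7 3 3,
   .S 4 12 0 13,   .H 8 0 1 [8,8,1,1,1,1,1,1,1,1,1,1], .H 9 0 0 [9,8,8,1,1,1,1,1,1,1,1,1,1], .T [3,1], .H 2 7 1 [3,1,1], .S 1 15 0 20,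
   .S 12 0 0 10,   .H 5 0 2 [7,4,2,2,1,1,1], .H 8 0 19 [11,3,3,3,3,3], .H 9 0 18 [9,8,5,3,3,2,2,2,1], .B 0 [3,1,1], .S 7 14 0 4,
   .T [3,2,1],   .H 3 0 1 [3,3,2,1], .S 2 9 0 15, .H 8 0 17 [11,3,3,3,3,2,1], .H 9 0 18 [9,8,5,3,3,2,2,2,1], .H 9 1 2 [10,6,6,5,1,1,1,1,1,1,1,1],
   .T [1],   .H 3 15 2 [4,1,1,1], .S 1 0 0 2, .H 2 17 1 [3,3], .S 18 12 0 15, .S 2 10 0 9,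
   .H 8 0 2 [8,5,5,1,1,1,1,1,1,1,1],   .H 9 0 0 [9,8,5,5,1,1,1,1,1,1,1,1], .H 9 1 0 [10,7,5,5,1,1,1,1,1,1,1,1], .H 9 2 0 [11,6,5,5,1,1,1,1,1,1,1,1], .S 9 0 31 13, .S 32 13 0 0,
   .H 4 0 1 [5,2,2,2],   .H 7 0 6 [7,4,2,2,1,1,1], .H 8 0 18 [11,4,4,4,1,1,1], .H 9 0 2 [12,4,4,4,4,1,1,1,1,1,1,1], .T [1,1], .T [3,2],
   .S 1 1 0 10,   .S 2 0 0 13, .S 26 9 0 22, .H 8 0 17 [11,3,3,3,2,2,2], .H 9 0 18 [9,8,5,3,3,2,2,2,1], .T [4,1,1],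
   .H 3 0 1 [6,1,1,1],   .H 2 8 2 [2,2], .S 9 2 0 6, .S 48 12 0 3, .S 3 8 0 10, .H 8 0 2 [8,6,4,1,1,1,1,1,1,1,1],
   .H 9 0 0 [9,8,6,4,1,1,1,1,1,1,1,1],   .H 9 1 0 [10,7,6,4,1,1,1,1,1,1,1,1], .H 9 2 0 [11,6,6,4,1,1,1,1,1,1,1,1], .T [1,1,1,1,1], .H 3 0 2 [5,3], .H 2 55 2 [3,2],
   .S 18 12 0 6,   .S 2 19 0 10, .H 8 0 2 [8,7,3,1,1,1,1,1,1,1,1], .H 9 0 0 [9,8,7,3,1,1,1,1,1,1,1,1], .H 9 1 0 [10,7,7,3,1,1,1,1,1,1,1,1], .B 1 [6,1],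
   .T [4,1],   .S 0 14 48 0, .S 2 0 0 13, .H 8 0 1 [8,8,2,1,1,1,1,1,1,1,1], .H 9 0 0 [9,8,8,2,1,1,1,1,1,1,1,1], .T [3,3,1],
   .S 0 12 4 13,   .H 8 0 1 [9,8,1,1,1,1,1,1,1,1,1], .H 9 0 0 [9,9,8,1,1,1,1,1,1,1,1,1], .H 9 1 0 [10,8,8,1,1,1,1,1,1,1,1,1], .T [2,2], .S 0 0 35 14,
   .H 3 75 8 [4,1,1],   .H 3 0 11 [4,2,1,1,1], .S 2 13 0 3, .H 8 0 23 [10,4,4,4,4], .H 9 0 18 [9,8,5,3,3,2,2,2,1], .H 3 79 0 [3,1,1,1],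
   .B 2 [6,1],   .S 1 2 0 3, .H 5 0 1 [7,4,2,2,1,1,1], .H 8 0 19 [10,4,4,4,3,1], .H 9 0 18 [9,8,5,3,3,2,2,2,1], .H 9 1 2 [10,5,5,5,4,1,1,1,1,1,1],
   .H 3 87 1 [5,1],   .S 0 14 25 3, .H 5 0 1 [7,4,2,2,1,1,1], .H 8 0 19 [10,4,4,4,2,2], .H 9 0 18 [9,8,5,3,3,2,2,2,1], .H 3 76 1 [4,3,1,1],
   .S 78 9 0 15,   .H 8 0 18 [10,4,4,4,2,1,1], .H 9 0 18 [9,8,5,3,3,2,2,2,1], .H 9 1 2 [10,6,5,4,4,1,1,1,1,1,1], .H 9 2 2 [11,5,5,4,4,1,1,1,1,1,1], .B 3 [6,3],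
   .S 61 3 76 2,   .S 1 2 0 21, .H 8 0 1 [8,5,3,3,2,2,2,1], .H 9 0 0 [9,8,5,3,3,2,2,2,1], .H 9 1 12 [10,7,4,4,4,1,1,1,1,1,1], .G 0 [2,1],
   .S 0 0 58 1,   .H 4 0 1 [5,3,3], .H 7 0 6 [7,4,2,2,1,1,1], .H 8 0 18 [10,5,3,3,3,1,1], .H 9 0 2 [11,5,5,5,2,2,1,1,1,1,1], .H 8 2 18 [11,4,3,3,3,1,1],
   .H 9 0 2 [11,5,5,5,2,1,1,1,1,1,1,1],   .H 8 4 18 [12,3,3,3,3,1,1], .H 9 0 2 [11,5,5,5,1,1,1,1,1,1,1,1,1], .H 3 114 0 [4,2], .H 2 51 1 [4,3], .S 1 1 0 20]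

def nodes_132_1 : List Node :=
  [.H 5 0 2 [7,4,2,2,1,1,1],   .H 8 0 19 [10,4,4,3,3,2], .H 9 0 18 [9,8,5,3,3,2,2,2,1], .H 8 26 17 [10,4,4,3,3,1,1], .H 9 0 18 [9,8,5,3,3,2,2,2,1], .H 9 1 2 [10,6,5,5,3,1,1,1,1,1,1],
   .H 3 107 1 [4,2,2,1],   .S 109 9 0 15, .H 8 0 17 [10,4,4,3,2,2,1], .H 9 0 18 [9,8,5,3,3,2,2,2,1], .H 9 1 2 [10,6,6,4,3,1,1,1,1,1,1], .B 4 [3,2],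
   .T [3,3,2],   .S 1 1 0 13, .H 5 0 1 [5,4,3,1,1,1,1,1,1], .H 8 0 0 [8,5,4,3,1,1,1,1,1,1], .H 9 0 0 [9,8,5,4,3,1,1,1,1,1,1], .H 9 1 0 [10,7,5,4,3,1,1,1,1,1,1],
   .B 5 [3,1],   .S 136 13 0 1, .H 4 0 1 [5,3,2,1], .H 7 0 6 [7,4,2,2,1,1,1], .H 8 0 18 [10,5,4,3,2,1,1], .H 9 0 2 [11,5,5,4,3,2,1,1,1,1,1],
   .H 8 2 18 [11,4,4,3,2,1,1],   .H 9 0 2 [11,5,5,4,3,1,1,1,1,1,1,1], .B 6 [5,1], .H 3 0 18 [4,3,1,1], .H 3 57 22 [7,1,1], .S 1 8 0 11,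
   .H 8 0 18 [10,4,4,2,2,2,2],   .H 9 0 18 [9,8,5,3,3,2,2,2,1], .H 5 18 1 [6,3,3,1,1,1,1,1,1], .H 8 0 0 [8,6,3,3,1,1,1,1,1,1], .H 9 0 0 [9,8,6,3,3,1,1,1,1,1,1], .H 9 1 0 [10,7,6,3,3,1,1,1,1,1,1],
   .S 152 3 79 13,   .H 4 0 1 [5,3,1,1,1], .H 7 0 6 [7,4,2,2,1,1,1], .H 8 0 18 [10,5,5,2,2,1,1], .H 9 0 2 [11,5,5,3,3,3,1,1,1,1,1], .H 8 147 19 [10,4,3,3,3,3],
   .H 9 0 18 [9,8,5,3,3,2,2,2,1],   .H 8 142 17 [10,4,3,3,3,2,1], .H 9 0 18 [9,8,5,3,3,2,2,2,1], .H 9 1 2 [10,6,6,5,2,1,1,1,1,1,1], .B 0 [4,1], .S 0 0 34 13,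
   .H 5 0 1 [5,5,2,1,1,1,1,1,1],   .H 8 0 0 [8,5,5,2,1,1,1,1,1,1], .H 9 0 0 [9,8,5,5,2,1,1,1,1,1,1], .H 9 1 0 [10,7,5,5,2,1,1,1,1,1,1], .H 8 134 18 [10,5,4,4,1,1,1], .H 9 0 2 [11,5,4,4,4,2,1,1,1,1,1],
   .H 9 135 2 [11,5,4,4,4,1,1,1,1,1,1,1],   .H 8 130 17 [10,4,3,3,2,2,2], .H 9 0 18 [9,8,5,3,3,2,2,2,1], .H 5 9 1 [6,4,2,1,1,1,1,1,1], .H 8 0 0 [8,6,4,2,1,1,1,1,1,1], .H 9 0 0 [9,8,6,4,2,1,1,1,1,1,1],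
   .H 9 1 0 [10,7,6,4,2,1,1,1,1,1,1],   .H 2 171 1 [4,1,1], .S 171 3 0 15, .H 7 0 7 [7,4,2,2,1,1,1], .H 8 0 18 [10,5,5,3,1,1,1], .H 9 0 2 [11,5,4,4,3,3,1,1,1,1,1],
   .H 5 18 1 [7,3,2,1,1,1,1,1,1],   .H 8 0 0 [8,7,3,2,1,1,1,1,1,1], .H 9 0 0 [9,8,7,3,2,1,1,1,1,1,1], .H 9 1 0 [10,7,7,3,2,1,1,1,1,1,1], .H 5 22 1 [8,2,2,1,1,1,1,1,1], .H 8 0 0 [8,8,2,2,1,1,1,1,1,1],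
   .H 9 0 0 [9,8,8,2,2,1,1,1,1,1,1],   .S 189 0 158 1, .S 192 14 0 12, .H 5 0 1 [7,4,2,2,1,1,1], .H 8 0 16 [10,3,3,3,3,3,1], .H 9 0 18 [9,8,5,3,3,2,2,2,1],
   .H 9 1 2 [10,6,6,6,1,1,1,1,1,1,1],   .H 3 122 1 [3,2,2], .S 198 14 0 14, .H 5 0 1 [7,4,2,2,1,1,1], .H 8 0 16 [10,3,3,3,3,2,2], .H 9 0 18 [9,8,5,3,3,2,2,2,1],
   .S 162 12 71 13,   .H 5 0 1 [6,5,1,1,1,1,1,1,1], .H 8 0 0 [8,6,5,1,1,1,1,1,1,1], .H 9 0 0 [9,8,6,5,1,1,1,1,1,1,1], .H 9 1 0 [10,7,6,5,1,1,1,1,1,1,1], .S 206 13 132 0,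
   .S 131 9 0 14,   .H 5 0 1 [7,4,2,2,1,1,1], .H 8 0 19 [10,5,5,4,1,1], .H 9 0 2 [11,4,4,4,4,3,1,1,1,1,1], .H 8 8 0 [9,5,5,1,1,1,1,1,1,1], .H 9 0 0 [9,9,5,5,1,1,1,1,1,1,1],
   .H 9 1 0 [10,8,5,5,1,1,1,1,1,1,1],   .H 6 181 2 [7,3,3], .H 5 0 15 [7,4,2,2,1,1,1], .H 8 0 19 [10,6,4,4,1,1], .H 9 0 2 [11,4,4,4,4,2,2,1,1,1,1], .H 8 2 19 [11,5,4,4,1,1],
   .H 9 0 2 [11,4,4,4,4,2,1,1,1,1,1,1],   .H 8 4 19 [12,4,4,4,1,1], .H 9 0 2 [11,4,4,4,4,1,1,1,1,1,1,1,1], .H 5 20 1 [7,4,1,1,1,1,1,1,1], .H 8 0 0 [8,7,4,1,1,1,1,1,1,1], .H 9 0 0 [9,8,7,4,1,1,1,1,1,1,1],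
   .H 9 1 0 [10,7,7,4,1,1,1,1,1,1,1],   .H 8 3 0 [9,6,4,1,1,1,1,1,1,1], .H 9 0 0 [9,9,6,4,1,1,1,1,1,1,1], .H 9 1 0 [10,8,6,4,1,1,1,1,1,1,1], .H 3 182 7 [6,1], .S 154 0 0 2,
   .H 5 0 1 [7,4,2,2,1,1,1],   .H 8 0 22 [10,6,5,3,1,1], .H 9 0 2 [11,4,4,4,3,3,2,1,1,1,1], .H 8 2 22 [11,5,5,3,1,1], .H 9 0 2 [11,4,4,4,3,3,1,1,1,1,1,1], .H 5 34 1 [8,3,1,1,1,1,1,1,1]]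

def nodes_132_2 : List Node :=
  [.H 8 0 0 [8,8,3,1,1,1,1,1,1,1],   .H 9 0 0 [9,8,8,3,1,1,1,1,1,1,1], .H 8 2 0 [9,7,3,1,1,1,1,1,1,1], .H 9 0 0 [9,9,7,3,1,1,1,1,1,1,1], .H 9 1 0 [10,8,7,3,1,1,1,1,1,1,1], .H 4 242 8 [5,1,1],
   .S 244 14 0 0,   .H 5 0 1 [7,4,2,2,1,1,1], .H 8 0 22 [10,6,6,2,1,1], .H 9 0 2 [11,4,4,3,3,3,3,1,1,1,1], .H 5 45 1 [9,2,1,1,1,1,1,1,1], .H 8 0 0 [9,8,2,1,1,1,1,1,1,1],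
   .H 9 0 0 [9,9,8,2,1,1,1,1,1,1,1],   .H 9 1 0 [10,8,8,2,1,1,1,1,1,1,1], .H 8 3 0 [9,9,1,1,1,1,1,1,1,1], .H 9 0 0 [9,9,9,1,1,1,1,1,1,1,1], .H 5 51 1 [10,1,1,1,1,1,1,1,1], .H 8 0 0 [10,8,1,1,1,1,1,1,1,1],
   .H 9 0 0 [10,9,8,1,1,1,1,1,1,1,1],   .S 248 1 211 14, .H 7 0 12 [9,7,1,1], .H 8 0 9 [10,7,7,1,1], .H 9 0 2 [11,3,3,3,3,3,3,3,1,1,1], .H 8 6 0 [17,1,1,1,1,1,1,1,1,1],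
   .H 9 0 0 [25,1,1,1,1,1,1,1,1,1,1],   .S 224 2 188 13, .S 262 0 0 1, .H 3 265 1 [4,3,2], .S 1 10 0 12, .H 8 0 23 [9,5,5,5,2],
   .H 9 0 18 [9,8,5,3,3,2,2,2,1],   .H 8 75 19 [9,5,5,5,1,1], .H 9 0 18 [9,8,5,3,3,2,2,2,1], .H 9 1 2 [10,5,4,4,4,4,1,1,1,1], .S 264 14 263 6, .S 0 21 195 3,
   .H 8 0 23 [9,5,5,4,3],   .H 9 0 18 [9,8,5,3,3,2,2,2,1], .S 227 9 68 14, .H 5 0 1 [7,4,2,2,1,1,1], .H 8 0 19 [9,5,5,4,2,1], .H 9 0 18 [9,8,5,3,3,2,2,2,1],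
   .H 9 1 2 [10,5,5,4,4,3,1,1,1,1],   .H 8 262 18 [9,5,5,4,1,1,1], .H 9 0 18 [9,8,5,3,3,2,2,2,1], .H 9 1 2 [10,6,4,4,4,3,1,1,1,1], .H 4 283 0 [6,1], .S 236 9 0 3,
   .H 5 0 1 [7,4,2,2,1,1,1],   .H 8 0 19 [9,5,5,3,3,1], .H 9 0 18 [9,8,5,3,3,2,2,2,1], .H 9 1 2 [10,5,5,5,3,3,1,1,1,1], .S 213 9 173 20, .H 5 0 1 [7,4,2,2,1,1,1],
   .H 8 0 19 [9,5,5,3,2,2],   .H 9 0 18 [9,8,5,3,3,2,2,2,1], .H 8 168 18 [9,5,5,3,2,1,1], .H 9 0 18 [9,8,5,3,3,2,2,2,1], .H 9 1 2 [10,6,5,4,3,3,1,1,1,1], .S 289 10 288 11,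
   .S 275 0 289 15,   .S 297 0 0 14, .S 2 14 0 14, .H 8 0 1 [8,5,3,3,2,2,2,1], .H 9 0 0 [9,8,5,3,3,2,2,2,1], .B 7 [5,2],
   .H 4 0 1 [5,4,2],   .H 7 0 6 [7,4,2,2,1,1,1], .H 8 0 18 [9,6,3,3,2,2,1], .H 9 0 2 [10,6,6,4,2,2,2,1,1,1], .H 8 2 18 [10,5,3,3,2,2,1], .H 9 0 2 [10,6,6,4,2,2,1,1,1,1,1],
   .H 8 4 18 [11,4,3,3,2,2,1],   .H 9 0 2 [10,6,6,4,2,1,1,1,1,1,1,1], .H 8 6 18 [12,3,3,3,2,2,1], .H 9 0 2 [10,6,6,4,1,1,1,1,1,1,1,1,1], .G 1 [2,1,1,1], .S 267 0 0 0,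
   .S 0 1 169 11,   .H 8 0 17 [9,5,5,2,2,2,1], .H 9 0 18 [9,8,5,3,3,2,2,2,1], .H 9 1 2 [10,6,6,3,3,3,1,1,1,1], .H 3 245 1 [5,2], .S 321 10 0 14,
   .H 5 0 2 [5,3,3,3,1,1,1,1],   .H 8 0 0 [8,5,3,3,3,1,1,1,1], .H 9 0 0 [9,8,5,3,3,3,1,1,1,1], .S 324 13 317 12, .H 4 0 1 [5,4,1,1], .H 7 0 6 [7,4,2,2,1,1,1],
   .H 8 0 18 [9,6,4,2,2,2,1],   .H 9 0 2 [10,6,6,3,3,2,2,1,1,1], .H 8 2 18 [10,5,4,2,2,2,1], .H 9 0 2 [10,6,6,3,3,2,1,1,1,1,1], .H 8 4 18 [11,4,4,2,2,2,1], .H 9 0 2 [10,6,6,3,3,1,1,1,1,1,1,1],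
   .H 8 255 23 [9,5,4,4,4],   .H 9 0 18 [9,8,5,3,3,2,2,2,1], .H 8 251 19 [9,5,4,4,3,1], .H 9 0 18 [9,8,5,3,3,2,2,2,1], .H 9 1 2 [10,5,5,5,4,2,1,1,1,1], .H 8 248 19 [9,5,4,4,2,2],
   .H 9 0 18 [9,8,5,3,3,2,2,2,1],   .H 8 246 18 [9,5,4,4,2,1,1], .H 9 0 18 [9,8,5,3,3,2,2,2,1], .H 9 1 2 [10,6,5,4,4,2,1,1,1,1], .H 4 335 11 [7,1,1], .S 47 14 0 11,
   .H 8 0 1 [8,5,3,3,2,2,2,1],   .H 9 0 0 [9,8,5,3,3,2,2,2,1], .H 8 239 18 [9,6,3,3,3,1,1], .H 9 0 2 [10,6,5,5,2,2,2,1,1,1], .H 9 240 2 [10,6,5,5,2,2,1,1,1,1,1], .H 9 239 2 [10,6,5,5,2,1,1,1,1,1,1,1],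
   .H 9 238 2 [10,6,5,5,1,1,1,1,1,1,1,1,1],   .H 8 234 19 [9,5,4,3,3,2], .H 9 0 18 [9,8,5,3,3,2,2,2,1], .H 8 260 17 [9,5,4,3,3,1,1], .H 9 0 18 [9,8,5,3,3,2,2,2,1], .H 8 231 17 [9,5,4,3,2,2,1]]

def nodes_132_3 : List Node :=
  [.H 9 0 18 [9,8,5,3,3,2,2,2,1],   .G 2 [2,2,2], .S 0 18 290 13, .H 5 0 1 [5,4,3,2,1,1,1,1], .H 8 0 0 [8,5,4,3,2,1,1,1,1], .H 9 0 0 [9,8,5,4,3,2,1,1,1,1],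
   .H 8 224 18 [9,6,4,3,2,1,1],   .H 9 0 2 [10,6,5,4,3,2,2,1,1,1], .H 9 225 2 [10,6,5,4,3,2,1,1,1,1,1], .H 9 224 2 [10,6,5,4,3,1,1,1,1,1,1,1], .H 8 220 18 [9,5,4,2,2,2,2], .H 9 0 18 [9,8,5,3,3,2,2,2,1],
   .H 5 9 1 [6,3,3,2,1,1,1,1],   .H 8 0 0 [8,6,3,3,2,1,1,1,1], .H 9 0 0 [9,8,6,3,3,2,1,1,1,1], .H 8 216 18 [9,6,5,2,2,1,1], .H 9 0 2 [10,6,5,3,3,3,2,1,1,1], .H 9 217 2 [10,6,5,3,3,3,1,1,1,1,1],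
   .H 8 364 19 [9,5,3,3,3,3],   .H 9 0 18 [9,8,5,3,3,2,2,2,1], .H 8 359 17 [9,5,3,3,3,2,1], .H 9 0 18 [9,8,5,3,3,2,2,2,1], .S 303 8 310 13, .H 5 0 1 [5,5,2,2,1,1,1,1],
   .H 8 0 0 [8,5,5,2,2,1,1,1,1],   .H 9 0 0 [9,8,5,5,2,2,1,1,1,1], .H 8 348 18 [9,6,4,4,1,1,1], .H 9 0 2 [10,6,4,4,4,2,2,1,1,1], .H 9 215 2 [10,6,4,4,4,2,1,1,1,1,1], .H 9 350 2 [10,6,4,4,4,1,1,1,1,1,1,1],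
   .H 8 345 17 [9,5,3,3,2,2,2],   .H 9 0 18 [9,8,5,3,3,2,2,2,1], .H 5 9 1 [6,4,2,2,1,1,1,1], .H 8 0 0 [8,6,4,2,2,1,1,1,1], .H 9 0 0 [9,8,6,4,2,2,1,1,1,1], .H 8 211 18 [9,6,5,3,1,1,1],
   .H 9 0 2 [10,6,4,4,3,3,2,1,1,1],   .H 9 212 2 [10,6,4,4,3,3,1,1,1,1,1], .H 5 15 1 [7,3,2,2,1,1,1,1], .H 8 0 0 [8,7,3,2,2,1,1,1,1], .H 9 0 0 [9,8,7,3,2,2,1,1,1,1], .H 4 398 9 [6,1],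
   .S 352 17 0 10,   .H 7 0 7 [7,4,2,2,1,1,1], .H 8 0 18 [9,6,6,2,1,1,1], .H 9 0 2 [10,6,4,3,3,3,3,1,1,1], .H 5 23 1 [8,2,2,2,1,1,1,1], .H 8 0 0 [8,8,2,2,2,1,1,1,1],
   .H 9 0 0 [9,8,8,2,2,2,1,1,1,1],   .S 368 0 409 0, .S 0 15 325 3, .H 5 0 2 [7,4,2,2,1,1,1], .H 8 0 16 [9,4,4,4,4,1], .H 9 0 18 [9,8,5,3,3,2,2,2,1],
   .H 9 1 2 [10,5,5,5,5,1,1,1,1,1],   .S 364 9 330 3, .H 5 0 1 [7,4,2,2,1,1,1], .H 8 0 16 [9,4,4,4,3,2], .H 9 0 18 [9,8,5,3,3,2,2,2,1], .H 8 332 16 [9,4,4,4,3,1,1],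
   .H 9 0 18 [9,8,5,3,3,2,2,2,1],   .H 8 132 16 [9,4,4,4,2,2,1], .H 9 0 18 [9,8,5,3,3,2,2,2,1], .S 413 14 256 17, .S 424 0 0 14, .H 5 0 1 [5,4,4,1,1,1,1,1],
   .H 8 0 0 [8,5,4,4,1,1,1,1,1],   .H 9 0 0 [9,8,5,4,4,1,1,1,1,1], .S 425 13 378 1, .H 6 0 7 [6,2,2,1,1,1], .H 5 0 1 [7,4,2,2,1,1,1], .H 8 0 19 [9,6,4,3,3,1],
   .H 9 0 2 [10,5,5,5,3,2,2,1,1,1],   .H 8 2 19 [10,5,4,3,3,1], .H 9 0 2 [10,5,5,5,3,2,1,1,1,1,1], .H 8 4 19 [11,4,4,3,3,1], .H 9 0 2 [10,5,5,5,3,1,1,1,1,1,1,1], .H 8 11 0 [9,4,4,4,1,1,1,1,1],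
   .H 9 0 0 [9,9,4,4,4,1,1,1,1,1],   .H 6 10 2 [7,2,2,2], .H 5 0 15 [7,4,2,2,1,1,1], .H 8 0 19 [9,7,3,3,3,1], .H 9 0 2 [10,5,5,5,2,2,2,2,1,1], .H 8 2 19 [10,6,3,3,3,1],
   .H 9 0 2 [10,5,5,5,2,2,2,1,1,1,1],   .H 8 4 19 [11,5,3,3,3,1], .H 9 0 2 [10,5,5,5,2,2,1,1,1,1,1,1], .H 8 6 19 [12,4,3,3,3,1], .H 9 0 2 [10,5,5,5,2,1,1,1,1,1,1,1,1], .H 8 8 19 [13,3,3,3,3,1],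
   .H 9 0 2 [10,5,5,5,1,1,1,1,1,1,1,1,1,1],   .S 410 1 434 7, .S 450 14 0 18, .H 5 0 1 [7,4,2,2,1,1,1], .H 8 0 16 [9,4,4,3,3,3], .H 9 0 18 [9,8,5,3,3,2,2,2,1],
   .H 8 176 16 [9,4,4,3,3,2,1],   .H 9 0 18 [9,8,5,3,3,2,2,2,1], .S 340 0 386 13, .H 5 0 1 [5,5,3,1,1,1,1,1], .H 8 0 0 [8,5,5,3,1,1,1,1,1], .H 9 0 0 [9,8,5,5,3,1,1,1,1,1],
   .H 6 426 7 [6,2,2,1,1,1],   .H 5 0 1 [7,4,2,2,1,1,1], .H 8 0 19 [9,6,4,4,2,1], .H 9 0 2 [10,5,5,4,4,2,2,1,1,1], .H 8 2 19 [10,5,4,4,2,1], .H 9 0 2 [10,5,5,4,4,2,1,1,1,1,1],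
   .H 8 4 19 [11,4,4,4,2,1],   .H 9 0 2 [10,5,5,4,4,1,1,1,1,1,1,1], .S 204 2 385 3, .H 5 0 1 [7,4,2,2,1,1,1], .H 8 0 16 [9,4,4,3,2,2,2], .H 9 0 18 [9,8,5,3,3,2,2,2,1],
   .H 5 15 1 [6,4,3,1,1,1,1,1],   .H 8 0 0 [8,6,4,3,1,1,1,1,1], .H 9 0 0 [9,8,6,4,3,1,1,1,1,1], .S 398 9 190 3, .H 5 0 1 [7,4,2,2,1,1,1], .H 8 0 19 [9,6,5,3,2,1]]

def nodes_132_4 : List Node :=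
  [.H 9 0 2 [10,5,5,4,3,3,2,1,1,1],   .H 8 2 19 [10,5,5,3,2,1], .H 9 0 2 [10,5,5,4,3,3,1,1,1,1,1], .H 8 8 0 [9,5,4,3,1,1,1,1,1], .H 9 0 0 [9,9,5,4,3,1,1,1,1,1], .H 6 449 2 [7,3,2,1],
   .H 5 0 15 [7,4,2,2,1,1,1],   .H 8 0 19 [9,7,4,3,2,1], .H 9 0 2 [10,5,5,4,3,2,2,2,1,1], .H 8 2 19 [10,6,4,3,2,1], .H 9 0 2 [10,5,5,4,3,2,2,1,1,1,1], .H 8 4 19 [11,5,4,3,2,1],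
   .H 9 0 2 [10,5,5,4,3,2,1,1,1,1,1,1],   .H 8 6 19 [12,4,4,3,2,1], .H 9 0 2 [10,5,5,4,3,1,1,1,1,1,1,1,1], .H 5 36 1 [7,3,3,1,1,1,1,1], .H 8 0 0 [8,7,3,3,1,1,1,1,1], .H 9 0 0 [9,8,7,3,3,1,1,1,1,1],
   .S 494 1 488 1,   .S 497 13 0 6, .H 5 0 1 [7,4,2,2,1,1,1], .H 8 0 19 [9,6,6,2,2,1], .H 9 0 2 [10,5,5,3,3,3,3,1,1,1], .H 8 7 0 [9,6,3,3,1,1,1,1,1],
   .H 9 0 0 [9,9,6,3,3,1,1,1,1,1],   .H 6 348 2 [7,4,1,1], .H 5 0 15 [7,4,2,2,1,1,1], .H 8 0 19 [9,7,5,2,2,1], .H 9 0 2 [10,5,5,3,3,3,2,2,1,1], .H 8 2 19 [10,6,5,2,2,1],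
   .H 9 0 2 [10,5,5,3,3,3,2,1,1,1,1],   .H 8 4 19 [11,5,5,2,2,1], .H 9 0 2 [10,5,5,3,3,3,1,1,1,1,1,1], .H 8 317 16 [9,4,3,3,3,3,1], .H 9 0 18 [9,8,5,3,3,2,2,2,1], .H 8 313 16 [9,4,3,3,3,2,2],
   .H 9 0 18 [9,8,5,3,3,2,2,2,1],   .H 3 514 0 [5,1], .S 0 0 446 13, .H 5 0 1 [6,5,2,1,1,1,1,1], .H 8 0 0 [8,6,5,2,1,1,1,1,1], .H 9 0 0 [9,8,6,5,2,1,1,1,1,1],
   .H 8 310 19 [9,6,5,4,1,1],   .H 9 0 2 [10,5,4,4,4,3,2,1,1,1], .H 9 311 2 [10,5,4,4,4,3,1,1,1,1,1], .H 8 5 0 [9,5,5,2,1,1,1,1,1], .H 9 0 0 [9,9,5,5,2,1,1,1,1,1], .H 8 308 19 [9,7,4,4,1,1],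
   .H 9 0 2 [10,5,4,4,4,2,2,2,1,1],   .H 9 309 2 [10,5,4,4,4,2,2,1,1,1,1], .H 9 308 2 [10,5,4,4,4,2,1,1,1,1,1,1], .H 9 307 2 [10,5,4,4,4,1,1,1,1,1,1,1,1], .H 5 13 1 [7,4,2,1,1,1,1,1], .H 8 0 0 [8,7,4,2,1,1,1,1,1],
   .H 9 0 0 [9,8,7,4,2,1,1,1,1,1],   .S 533 13 492 7, .H 5 0 1 [7,4,2,2,1,1,1], .H 8 0 19 [9,6,6,3,1,1], .H 9 0 2 [10,5,4,4,3,3,3,1,1,1], .H 8 6 0 [9,6,4,2,1,1,1,1,1],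
   .H 9 0 0 [9,9,6,4,2,1,1,1,1,1],   .H 8 306 22 [9,7,5,3,1,1], .H 9 0 2 [10,5,4,4,3,3,2,2,1,1], .H 9 307 2 [10,5,4,4,3,3,2,1,1,1,1], .H 9 306 2 [10,5,4,4,3,3,1,1,1,1,1,1], .H 5 26 1 [8,3,2,1,1,1,1,1],
   .H 8 0 0 [8,8,3,2,1,1,1,1,1],   .H 9 0 0 [9,8,8,3,2,1,1,1,1,1], .H 8 2 0 [9,7,3,2,1,1,1,1,1], .H 9 0 0 [9,9,7,3,2,1,1,1,1,1], .H 8 302 22 [9,7,6,2,1,1], .H 9 0 2 [10,5,4,3,3,3,3,2,1,1],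
   .H 9 303 2 [10,5,4,3,3,3,3,1,1,1,1],   .H 5 34 1 [9,2,2,1,1,1,1,1], .H 8 0 0 [9,8,2,2,1,1,1,1,1], .H 9 0 0 [9,9,8,2,2,1,1,1,1,1], .B 2 [5,1,1], .S 555 14 0 0,
   .H 5 0 1 [7,4,2,2,1,1,1],   .H 8 0 22 [9,7,7,1,1,1], .H 9 0 2 [10,5,3,3,3,3,3,3,1,1], .B 8 [7,1,1], .S 295 10 0 2, .H 8 0 21 [9,3,3,3,3,3,2],
   .H 9 0 18 [9,8,5,3,3,2,2,2,1],   .H 5 46 1 [6,6,1,1,1,1,1,1], .H 8 0 0 [8,6,6,1,1,1,1,1,1], .H 9 0 0 [9,8,6,6,1,1,1,1,1,1], .B 9 [5,1], .S 502 1 0 19,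
   .H 7 0 2 [7,4,2,2,1,1,1],   .H 8 0 23 [9,6,5,5,1], .H 9 0 2 [10,4,4,4,4,4,2,1,1,1], .H 8 2 23 [10,5,5,5,1], .H 9 0 2 [10,4,4,4,4,4,1,1,1,1,1], .B 10 [7,1],
   .S 534 12 0 2,   .H 5 0 1 [7,5,1,1,1,1,1,1], .H 8 0 0 [8,7,5,1,1,1,1,1,1], .H 9 0 0 [9,8,7,5,1,1,1,1,1,1], .T [4,2], .S 570 10 0 14,
   .H 7 0 0 [7,4,2,2,1,1,1],   .H 8 0 23 [9,6,6,4,1], .H 9 0 2 [10,4,4,4,4,3,3,1,1,1], .H 8 7 0 [9,6,5,1,1,1,1,1,1], .H 9 0 0 [9,9,6,5,1,1,1,1,1,1], .H 7 5 12 [8,5,4,1],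
   .H 8 0 9 [9,7,5,4,1],   .H 9 0 2 [10,4,4,4,4,3,2,2,1,1], .H 8 2 9 [10,6,5,4,1], .H 9 0 2 [10,4,4,4,4,3,2,1,1,1,1], .H 8 4 9 [11,5,5,4,1], .H 9 0 2 [10,4,4,4,4,3,1,1,1,1,1,1],
   .H 7 12 12 [9,4,4,1],   .H 8 0 9 [9,8,4,4,1], .H 9 0 2 [10,4,4,4,4,2,2,2,2,1], .H 8 2 9 [10,7,4,4,1], .H 9 0 2 [10,4,4,4,4,2,2,2,1,1,1], .H 8 4 9 [11,6,4,4,1]]

def nodes_132_5 : List Node :=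
  [.H 9 0 2 [10,4,4,4,4,2,2,1,1,1,1,1],   .H 8 6 9 [12,5,4,4,1], .H 9 0 2 [10,4,4,4,4,2,1,1,1,1,1,1,1], .H 8 8 9 [13,4,4,4,1], .H 9 0 2 [10,4,4,4,4,1,1,1,1,1,1,1,1,1], .H 5 28 1 [8,4,1,1,1,1,1,1],
   .H 8 0 0 [8,8,4,1,1,1,1,1,1],   .H 9 0 0 [9,8,8,4,1,1,1,1,1,1], .H 8 2 0 [9,7,4,1,1,1,1,1,1], .H 9 0 0 [9,9,7,4,1,1,1,1,1,1], .S 593 0 562 14, .H 7 0 12 [8,6,3,1],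
   .H 8 0 9 [9,7,6,3,1],   .H 9 0 2 [10,4,4,4,3,3,3,2,1,1], .H 8 2 9 [10,6,6,3,1], .H 9 0 2 [10,4,4,4,3,3,3,1,1,1,1], .H 7 5 12 [9,5,3,1], .H 8 0 9 [9,8,5,3,1],
   .H 9 0 2 [10,4,4,4,3,3,2,2,2,1],   .H 8 2 9 [10,7,5,3,1], .H 9 0 2 [10,4,4,4,3,3,2,2,1,1,1], .H 8 4 9 [11,6,5,3,1], .H 9 0 2 [10,4,4,4,3,3,2,1,1,1,1,1], .H 8 6 9 [12,5,5,3,1],
   .H 9 0 2 [10,4,4,4,3,3,1,1,1,1,1,1,1],   .H 5 48 1 [9,3,1,1,1,1,1,1], .H 8 0 0 [9,8,3,1,1,1,1,1,1], .H 9 0 0 [9,9,8,3,1,1,1,1,1,1], .H 7 368 12 [8,7,2,1], .H 8 0 9 [9,7,7,2,1],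
   .H 9 0 2 [10,4,4,3,3,3,3,3,1,1],   .H 7 371 12 [9,6,2,1], .H 8 0 9 [9,8,6,2,1], .H 9 0 2 [10,4,4,3,3,3,3,2,2,1], .H 8 2 9 [10,7,6,2,1], .H 9 0 2 [10,4,4,3,3,3,3,2,1,1,1],
   .H 8 4 9 [11,6,6,2,1],   .H 9 0 2 [10,4,4,3,3,3,3,1,1,1,1,1], .H 8 12 0 [9,9,2,1,1,1,1,1,1], .H 9 0 0 [9,9,9,2,1,1,1,1,1,1], .H 8 379 9 [9,8,7,1,1], .H 9 0 2 [10,4,3,3,3,3,3,3,2,1],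
   .H 9 380 2 [10,4,3,3,3,3,3,3,1,1,1],   .S 602 3 640 13, .S 0 0 63 14, .H 7 0 12 [9,8,1], .H 8 0 9 [9,8,8,1], .H 9 0 2 [10,3,3,3,3,3,3,3,3,1],
   .H 8 2 9 [9,9,7,1],   .H 9 0 2 [10,3,3,3,3,3,3,3,2,2], .H 7 5 12 [10,7,1], .H 8 0 9 [10,8,7,1], .H 9 0 2 [10,3,3,3,3,3,3,3,2,1,1], .H 8 2 9 [11,7,7,1],
   .H 9 0 2 [10,3,3,3,3,3,3,3,1,1,1,1],   .H 7 10 12 [13,5], .H 8 0 9 [13,12,1], .H 9 0 2 [10,2,2,2,2,2,2,2,2,2,2,2,2,1], .H 7 13 12 [14,4], .H 8 0 9 [14,11,1],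
   .H 9 0 2 [10,2,2,2,2,2,2,2,2,2,2,2,1,1,1],   .H 7 16 12 [15,3], .H 8 0 9 [15,10,1], .H 9 0 2 [10,2,2,2,2,2,2,2,2,2,2,1,1,1,1,1], .H 8 2 9 [16,9,1], .H 9 0 2 [10,2,2,2,2,2,2,2,2,2,1,1,1,1,1,1,1],
   .H 8 4 9 [17,8,1],   .H 9 0 2 [10,2,2,2,2,2,2,2,2,1,1,1,1,1,1,1,1,1], .H 8 6 9 [18,7,1], .H 9 0 2 [10,2,2,2,2,2,2,2,1,1,1,1,1,1,1,1,1,1,1], .H 8 8 9 [19,6,1], .H 9 0 2 [10,2,2,2,2,2,2,1,1,1,1,1,1,1,1,1,1,1,1,1],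
   .H 8 10 9 [20,5,1],   .H 9 0 2 [10,2,2,2,2,2,1,1,1,1,1,1,1,1,1,1,1,1,1,1,1], .H 8 12 9 [21,4,1], .H 9 0 2 [10,2,2,2,2,1,1,1,1,1,1,1,1,1,1,1,1,1,1,1,1,1], .H 8 14 9 [22,3,1], .H 9 0 2 [10,2,2,2,1,1,1,1,1,1,1,1,1,1,1,1,1,1,1,1,1,1,1],
   .H 7 418 12 [15,2,1],   .H 8 0 9 [23,2,1], .H 9 0 2 [10,2,2,1,1,1,1,1,1,1,1,1,1,1,1,1,1,1,1,1,1,1,1,1], .H 5 104 1 [11,1,1,1,1,1,1,1], .H 8 0 0 [18,1,1,1,1,1,1,1,1], .H 9 0 0 [25,2,1,1,1,1,1,1,1,1],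
   .H 9 1 0 [26,1,1,1,1,1,1,1,1,1],   .S 681 0 606 17, .S 419 10 0 22, .H 8 0 7 [8,5,3,3,2,2,2,1], .H 9 0 1 [9,8,5,3,3,2,2,2,1], .H 8 126 7 [8,5,3,3,2,2,2,1],
   .H 9 0 1 [9,8,5,3,3,2,2,2,1],   .B 11 [4,2,1,1,1], .S 417 21 0 3, .H 8 0 7 [8,5,3,3,2,2,2,1], .H 9 0 1 [9,8,5,3,3,2,2,2,1], .H 8 493 15 [8,5,3,3,2,2,2,1],
   .H 9 0 1 [9,8,5,3,3,2,2,2,1],   .H 5 647 19 [6,3], .B 0 [2,1,1,1], .S 664 0 0 19, .S 2 18 0 13, .H 8 0 5 [8,5,3,3,2,2,2,1],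
   .H 9 0 1 [9,8,5,3,3,2,2,2,1],   .H 8 231 15 [8,5,3,3,2,2,2,1], .H 9 0 1 [9,8,5,3,3,2,2,2,1], .H 8 660 14 [8,5,3,3,2,2,2,1], .H 9 0 1 [9,8,5,3,3,2,2,2,1], .S 441 2 588 20,
   .H 5 0 1 [7,4,2,2,1,1,1],   .H 8 0 15 [8,5,3,3,2,2,2,1], .H 9 0 1 [9,8,5,3,3,2,2,2,1], .H 8 561 13 [8,5,3,3,2,2,2,1], .H 9 0 1 [9,8,5,3,3,2,2,2,1], .H 4 407 1 [5,5,1],
   .H 7 0 6 [7,4,2,2,1,1,1],   .H 8 0 14 [8,5,3,3,2,2,2,1], .H 9 0 1 [9,8,5,3,3,2,2,2,1], .H 8 2 18 [9,6,3,2,2,2,2], .H 9 0 18 [9,8,5,3,3,2,2,2,1], .H 8 4 18 [10,5,3,2,2,2,2]]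

def nodes_132_6 : List Node :=
  [.H 9 0 18 [9,8,5,3,3,2,2,2,1],   .H 8 6 18 [11,4,3,2,2,2,2], .H 9 0 18 [9,8,5,3,3,2,2,2,1], .H 8 8 18 [12,3,3,2,2,2,2], .H 9 0 18 [9,8,5,3,3,2,2,2,1], .H 8 456 7 [8,5,3,3,2,2,2,1],
   .H 9 0 1 [9,8,5,3,3,2,2,2,1],   .H 8 531 15 [8,5,3,3,2,2,2,1], .H 9 0 1 [9,8,5,3,3,2,2,2,1], .H 8 453 7 [8,5,3,3,2,2,2,1], .H 9 0 1 [9,8,5,3,3,2,2,2,1], .H 8 451 15 [8,5,3,3,2,2,2,1],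
   .H 9 0 1 [9,8,5,3,3,2,2,2,1],   .H 8 712 14 [8,5,3,3,2,2,2,1], .H 9 0 1 [9,8,5,3,3,2,2,2,1], .H 8 446 15 [8,5,3,3,2,2,2,1], .H 9 0 1 [9,8,5,3,3,2,2,2,1], .H 8 443 15 [8,5,3,3,2,2,2,1],
   .H 9 0 1 [9,8,5,3,3,2,2,2,1],   .H 8 611 14 [8,5,3,3,2,2,2,1], .H 9 0 1 [9,8,5,3,3,2,2,2,1], .H 8 433 14 [8,5,3,3,2,2,2,1], .H 9 0 1 [9,8,5,3,3,2,2,2,1], .H 9 434 18 [9,8,5,3,3,2,2,2,1],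
   .H 9 433 18 [9,8,5,3,3,2,2,2,1],   .H 9 432 18 [9,8,5,3,3,2,2,2,1], .H 9 431 18 [9,8,5,3,3,2,2,2,1], .H 8 428 13 [8,5,3,3,2,2,2,1], .H 9 0 1 [9,8,5,3,3,2,2,2,1], .H 8 419 14 [8,5,3,3,2,2,2,1],
   .H 9 0 1 [9,8,5,3,3,2,2,2,1],   .H 9 420 18 [9,8,5,3,3,2,2,2,1], .H 9 419 18 [9,8,5,3,3,2,2,2,1], .H 9 418 18 [9,8,5,3,3,2,2,2,1], .H 8 673 7 [8,5,3,3,2,2,2,1], .H 9 0 1 [9,8,5,3,3,2,2,2,1],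
   .H 8 669 15 [8,5,3,3,2,2,2,1],   .H 9 0 1 [9,8,5,3,3,2,2,2,1], .H 8 665 15 [8,5,3,3,2,2,2,1], .H 9 0 1 [9,8,5,3,3,2,2,2,1], .H 8 663 14 [8,5,3,3,2,2,2,1], .H 9 0 1 [9,8,5,3,3,2,2,2,1],
   .H 8 651 14 [8,5,3,3,2,2,2,1],   .H 9 0 1 [9,8,5,3,3,2,2,2,1], .H 9 413 18 [9,8,5,3,3,2,2,2,1], .H 9 653 18 [9,8,5,3,3,2,2,2,1], .H 9 652 18 [9,8,5,3,3,2,2,2,1], .H 9 651 18 [9,8,5,3,3,2,2,2,1],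
   .H 8 647 15 [8,5,3,3,2,2,2,1],   .H 9 0 1 [9,8,5,3,3,2,2,2,1], .H 8 628 14 [8,5,3,3,2,2,2,1], .H 9 0 1 [9,8,5,3,3,2,2,2,1], .H 9 405 18 [9,8,5,3,3,2,2,2,1], .H 9 630 18 [9,8,5,3,3,2,2,2,1],
   .H 9 629 18 [9,8,5,3,3,2,2,2,1],   .H 8 616 14 [8,5,3,3,2,2,2,1], .H 9 0 1 [9,8,5,3,3,2,2,2,1], .H 9 401 18 [9,8,5,3,3,2,2,2,1], .H 9 618 18 [9,8,5,3,3,2,2,2,1], .H 8 765 15 [8,5,3,3,2,2,2,1],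
   .H 9 0 1 [9,8,5,3,3,2,2,2,1],   .H 8 743 14 [8,5,3,3,2,2,2,1], .H 9 0 1 [9,8,5,3,3,2,2,2,1], .H 9 396 18 [9,8,5,3,3,2,2,2,1], .H 9 611 18 [9,8,5,3,3,2,2,2,1], .H 9 746 18 [9,8,5,3,3,2,2,2,1],
   .H 8 602 14 [8,5,3,3,2,2,2,1],   .H 9 0 1 [9,8,5,3,3,2,2,2,1], .H 9 392 18 [9,8,5,3,3,2,2,2,1], .H 9 604 18 [9,8,5,3,3,2,2,2,1], .H 8 386 14 [8,5,3,3,2,2,2,1], .H 9 0 1 [9,8,5,3,3,2,2,2,1],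
   .H 9 387 18 [9,8,5,3,3,2,2,2,1],   .T [4,1,1,1], .S 717 12 0 13, .H 7 0 7 [7,4,2,2,1,1,1], .H 8 0 14 [8,5,3,3,2,2,2,1], .H 9 0 1 [9,8,5,3,3,2,2,2,1],
   .H 3 748 5 [5,2],   .S 797 14 0 1, .H 5 0 10 [7,4,2,2,1,1,1], .H 8 0 4 [8,5,3,3,2,2,2,1], .H 9 0 1 [9,8,5,3,3,2,2,2,1], .H 8 349 15 [8,5,3,3,2,2,2,1],
   .H 9 0 1 [9,8,5,3,3,2,2,2,1],   .S 395 15 595 14, .H 5 0 10 [7,4,2,2,1,1,1], .H 8 0 4 [8,5,3,3,2,2,2,1], .H 9 0 1 [9,8,5,3,3,2,2,2,1], .H 8 392 15 [8,5,3,3,2,2,2,1],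
   .H 9 0 1 [9,8,5,3,3,2,2,2,1],   .S 760 15 726 3, .H 5 0 2 [7,4,2,2,1,1,1], .H 8 0 15 [8,5,3,3,2,2,2,1], .H 9 0 1 [9,8,5,3,3,2,2,2,1], .H 6 706 7 [6,2,2,1,1,1],
   .H 5 0 1 [7,4,2,2,1,1,1],   .H 8 0 15 [8,5,3,3,2,2,2,1], .H 9 0 1 [9,8,5,3,3,2,2,2,1], .H 8 2 19 [9,6,3,3,3,2], .H 9 0 18 [9,8,5,3,3,2,2,2,1], .H 8 4 19 [10,5,3,3,3,2],
   .H 9 0 18 [9,8,5,3,3,2,2,2,1],   .H 8 6 19 [11,4,3,3,3,2], .H 9 0 18 [9,8,5,3,3,2,2,2,1], .H 8 8 19 [12,3,3,3,3,2], .H 9 0 18 [9,8,5,3,3,2,2,2,1], .H 6 687 7 [6,2,2,1,1,1],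
   .H 5 0 1 [7,4,2,2,1,1,1],   .H 8 0 15 [8,5,3,3,2,2,2,1], .H 9 0 1 [9,8,5,3,3,2,2,2,1], .H 8 2 19 [9,6,4,3,2,2], .H 9 0 18 [9,8,5,3,3,2,2,2,1], .H 8 4 19 [10,5,4,3,2,2],
   .H 9 0 18 [9,8,5,3,3,2,2,2,1],   .H 8 6 19 [11,4,4,3,2,2], .H 9 0 18 [9,8,5,3,3,2,2,2,1], .H 6 697 2 [7,2,2,1,1], .H 5 0 15 [7,4,2,2,1,1,1], .H 8 0 15 [8,5,3,3,2,2,2,1]]

def nodes_132_7 : List Node :=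
  [.H 9 0 1 [9,8,5,3,3,2,2,2,1],   .H 8 2 19 [9,7,3,3,2,2], .H 9 0 18 [9,8,5,3,3,2,2,2,1], .H 8 4 19 [10,6,3,3,2,2], .H 9 0 18 [9,8,5,3,3,2,2,2,1], .H 8 6 19 [11,5,3,3,2,2],
   .H 9 0 18 [9,8,5,3,3,2,2,2,1],   .H 8 8 19 [12,4,3,3,2,2], .H 9 0 18 [9,8,5,3,3,2,2,2,1], .H 8 10 19 [13,3,3,3,2,2], .H 9 0 18 [9,8,5,3,3,2,2,2,1], .H 6 694 7 [6,2,2,1,1,1],
   .H 5 0 1 [7,4,2,2,1,1,1],   .H 8 0 15 [8,5,3,3,2,2,2,1], .H 9 0 1 [9,8,5,3,3,2,2,2,1], .H 8 2 19 [9,6,5,2,2,2], .H 9 0 18 [9,8,5,3,3,2,2,2,1], .H 8 4 19 [10,5,5,2,2,2],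
   .H 9 0 18 [9,8,5,3,3,2,2,2,1],   .H 6 702 2 [7,3,1,1,1], .H 5 0 15 [7,4,2,2,1,1,1], .H 8 0 15 [8,5,3,3,2,2,2,1], .H 9 0 1 [9,8,5,3,3,2,2,2,1], .H 8 2 19 [9,7,4,2,2,2],
   .H 9 0 18 [9,8,5,3,3,2,2,2,1],   .H 8 4 19 [10,6,4,2,2,2], .H 9 0 18 [9,8,5,3,3,2,2,2,1], .H 8 6 19 [11,5,4,2,2,2], .H 9 0 18 [9,8,5,3,3,2,2,2,1], .H 8 8 19 [12,4,4,2,2,2],
   .H 9 0 18 [9,8,5,3,3,2,2,2,1],   .H 8 459 12 [8,5,3,3,2,2,2,1], .H 9 0 1 [9,8,5,3,3,2,2,2,1], .H 8 442 15 [8,5,3,3,2,2,2,1], .H 9 0 1 [9,8,5,3,3,2,2,2,1], .H 9 443 18 [9,8,5,3,3,2,2,2,1],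
   .H 9 442 18 [9,8,5,3,3,2,2,2,1],   .H 9 441 18 [9,8,5,3,3,2,2,2,1], .H 8 437 15 [8,5,3,3,2,2,2,1], .H 9 0 1 [9,8,5,3,3,2,2,2,1], .H 9 438 18 [9,8,5,3,3,2,2,2,1], .H 9 437 18 [9,8,5,3,3,2,2,2,1],
   .H 9 436 18 [9,8,5,3,3,2,2,2,1],   .H 9 435 18 [9,8,5,3,3,2,2,2,1], .H 9 434 18 [9,8,5,3,3,2,2,2,1], .H 8 421 15 [8,5,3,3,2,2,2,1], .H 9 0 1 [9,8,5,3,3,2,2,2,1], .H 9 422 18 [9,8,5,3,3,2,2,2,1],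
   .H 9 421 18 [9,8,5,3,3,2,2,2,1],   .H 9 420 18 [9,8,5,3,3,2,2,2,1], .H 8 411 15 [8,5,3,3,2,2,2,1], .H 9 0 1 [9,8,5,3,3,2,2,2,1], .H 9 412 18 [9,8,5,3,3,2,2,2,1], .H 9 411 18 [9,8,5,3,3,2,2,2,1],
   .H 8 407 15 [8,5,3,3,2,2,2,1],   .H 9 0 1 [9,8,5,3,3,2,2,2,1], .H 9 408 18 [9,8,5,3,3,2,2,2,1], .H 9 407 18 [9,8,5,3,3,2,2,2,1], .H 9 406 18 [9,8,5,3,3,2,2,2,1], .H 9 405 18 [9,8,5,3,3,2,2,2,1],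
   .H 8 399 15 [8,5,3,3,2,2,2,1],   .H 9 0 1 [9,8,5,3,3,2,2,2,1], .H 9 400 18 [9,8,5,3,3,2,2,2,1], .H 8 396 15 [8,5,3,3,2,2,2,1], .H 9 0 1 [9,8,5,3,3,2,2,2,1], .H 9 397 18 [9,8,5,3,3,2,2,2,1],
   .H 9 396 18 [9,8,5,3,3,2,2,2,1],   .H 9 395 18 [9,8,5,3,3,2,2,2,1], .H 8 696 15 [8,5,3,3,2,2,2,1], .H 9 0 1 [9,8,5,3,3,2,2,2,1], .H 9 387 18 [9,8,5,3,3,2,2,2,1], .H 9 698 18 [9,8,5,3,3,2,2,2,1],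
   .H 8 693 15 [8,5,3,3,2,2,2,1],   .H 9 0 1 [9,8,5,3,3,2,2,2,1], .H 9 386 18 [9,8,5,3,3,2,2,2,1], .H 9 695 18 [9,8,5,3,3,2,2,2,1], .H 9 694 18 [9,8,5,3,3,2,2,2,1], .H 9 693 18 [9,8,5,3,3,2,2,2,1],
   .H 8 381 6 [8,5,3,3,2,2,2,1],   .H 9 0 1 [9,8,5,3,3,2,2,2,1], .H 9 382 18 [9,8,5,3,3,2,2,2,1], .H 8 686 6 [8,5,3,3,2,2,2,1], .H 9 0 1 [9,8,5,3,3,2,2,2,1], .H 9 381 18 [9,8,5,3,3,2,2,2,1],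
   .H 9 688 18 [9,8,5,3,3,2,2,2,1],   .H 9 687 18 [9,8,5,3,3,2,2,2,1], .S 924 14 474 16, .H 5 0 1 [7,4,2,2,1,1,1], .H 8 0 6 [8,5,3,3,2,2,2,1], .H 9 0 1 [9,8,5,3,3,2,2,2,1],
   .H 8 682 6 [8,5,3,3,2,2,2,1],   .H 9 0 1 [9,8,5,3,3,2,2,2,1], .H 9 381 18 [9,8,5,3,3,2,2,2,1], .H 9 684 18 [9,8,5,3,3,2,2,2,1], .H 8 375 6 [8,5,3,3,2,2,2,1], .H 9 0 1 [9,8,5,3,3,2,2,2,1],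
   .H 9 376 18 [9,8,5,3,3,2,2,2,1],   .S 934 0 860 13, .H 4 0 2 [6,3,1,1], .H 7 0 10 [7,4,2,2,1,1,1], .H 8 0 7 [8,5,3,3,2,2,2,1], .H 9 0 1 [9,8,5,3,3,2,2,2,1],
   .H 8 2 23 [9,6,4,4,3],   .H 9 0 18 [9,8,5,3,3,2,2,2,1], .H 8 4 23 [10,5,4,4,3], .H 9 0 18 [9,8,5,3,3,2,2,2,1], .H 8 6 23 [11,4,4,4,3], .H 9 0 18 [9,8,5,3,3,2,2,2,1],
   .H 3 913 2 [6,1],   .S 810 3 0 11, .H 7 0 0 [7,4,2,2,1,1,1], .H 8 0 7 [8,5,3,3,2,2,2,1], .H 9 0 1 [9,8,5,3,3,2,2,2,1], .H 8 2 23 [9,6,5,3,3],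
   .H 9 0 18 [9,8,5,3,3,2,2,2,1],   .H 8 4 23 [10,5,5,3,3], .H 9 0 18 [9,8,5,3,3,2,2,2,1], .H 7 7 12 [8,4,3,3], .H 8 0 21 [8,5,3,3,2,2,2,1], .H 9 0 1 [9,8,5,3,3,2,2,2,1]]

def nodes_132_8 : List Node :=
  [.H 8 2 9 [9,7,4,3,3],   .H 9 0 18 [9,8,5,3,3,2,2,2,1], .H 8 4 9 [10,6,4,3,3], .H 9 0 18 [9,8,5,3,3,2,2,2,1], .H 8 6 9 [11,5,4,3,3], .H 9 0 18 [9,8,5,3,3,2,2,2,1],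
   .H 8 8 9 [12,4,4,3,3],   .H 9 0 18 [9,8,5,3,3,2,2,2,1], .H 7 18 12 [9,3,3,3], .H 8 0 9 [9,8,3,3,3], .H 9 0 18 [9,8,5,3,3,2,2,2,1], .H 8 2 9 [10,7,3,3,3],
   .H 9 0 18 [9,8,5,3,3,2,2,2,1],   .H 8 4 9 [11,6,3,3,3], .H 9 0 18 [9,8,5,3,3,2,2,2,1], .H 8 6 9 [12,5,3,3,3], .H 9 0 18 [9,8,5,3,3,2,2,2,1], .H 8 8 9 [13,4,3,3,3],
   .H 9 0 18 [9,8,5,3,3,2,2,2,1],   .H 8 10 9 [14,3,3,3,3], .H 9 0 18 [9,8,5,3,3,2,2,2,1], .B 9 [4,2], .S 915 1 0 2, .H 7 0 2 [7,4,2,2,1,1,1],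
   .H 8 0 7 [8,5,3,3,2,2,2,1],   .H 9 0 1 [9,8,5,3,3,2,2,2,1], .H 8 2 23 [9,6,5,4,2], .H 9 0 18 [9,8,5,3,3,2,2,2,1], .H 8 4 23 [10,5,5,4,2], .H 9 0 18 [9,8,5,3,3,2,2,2,1],
   .H 7 7 14 [8,4,4,2],   .H 8 0 21 [8,5,3,3,2,2,2,1], .H 9 0 1 [9,8,5,3,3,2,2,2,1], .H 8 2 9 [9,7,4,4,2], .H 9 0 18 [9,8,5,3,3,2,2,2,1], .H 8 4 9 [10,6,4,4,2],
   .H 9 0 18 [9,8,5,3,3,2,2,2,1],   .H 8 6 9 [11,5,4,4,2], .H 9 0 18 [9,8,5,3,3,2,2,2,1], .H 8 8 9 [12,4,4,4,2], .H 9 0 18 [9,8,5,3,3,2,2,2,1], .S 984 2 953 14,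
   .H 7 0 0 [7,4,2,2,1,1,1],   .H 8 0 7 [8,5,3,3,2,2,2,1], .H 9 0 1 [9,8,5,3,3,2,2,2,1], .H 8 2 23 [9,6,6,3,2], .H 9 0 18 [9,8,5,3,3,2,2,2,1], .H 7 5 12 [8,5,3,2],
   .H 8 0 21 [8,5,3,3,2,2,2,1],   .H 9 0 1 [9,8,5,3,3,2,2,2,1], .H 8 2 9 [9,7,5,3,2], .H 9 0 18 [9,8,5,3,3,2,2,2,1], .H 8 4 9 [10,6,5,3,2], .H 9 0 18 [9,8,5,3,3,2,2,2,1],
   .H 8 6 9 [11,5,5,3,2],   .H 9 0 18 [9,8,5,3,3,2,2,2,1], .H 7 14 12 [9,4,3,2], .H 8 0 9 [9,8,4,3,2], .H 9 0 18 [9,8,5,3,3,2,2,2,1], .H 8 2 9 [10,7,4,3,2],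
   .H 9 0 18 [9,8,5,3,3,2,2,2,1],   .H 8 4 9 [11,6,4,3,2], .H 9 0 18 [9,8,5,3,3,2,2,2,1], .H 8 6 9 [12,5,4,3,2], .H 9 0 18 [9,8,5,3,3,2,2,2,1], .H 8 8 9 [13,4,4,3,2],
   .H 9 0 18 [9,8,5,3,3,2,2,2,1],   .G 1 [2,2,1], .S 0 6 980 14, .H 7 0 0 [7,4,2,2,1,1,1], .H 8 0 7 [8,5,3,3,2,2,2,1], .H 9 0 1 [9,8,5,3,3,2,2,2,1],
   .H 7 3 12 [8,6,2,2],   .H 8 0 21 [8,5,3,3,2,2,2,1], .H 9 0 1 [9,8,5,3,3,2,2,2,1], .H 8 2 9 [9,7,6,2,2], .H 9 0 18 [9,8,5,3,3,2,2,2,1], .H 8 4 9 [10,6,6,2,2],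
   .H 9 0 18 [9,8,5,3,3,2,2,2,1],   .H 7 10 12 [9,5,2,2], .H 8 0 9 [9,8,5,2,2], .H 9 0 18 [9,8,5,3,3,2,2,2,1], .H 8 2 9 [10,7,5,2,2], .H 9 0 18 [9,8,5,3,3,2,2,2,1],
   .H 8 4 9 [11,6,5,2,2],   .H 9 0 18 [9,8,5,3,3,2,2,2,1], .H 8 6 9 [12,5,5,2,2], .H 9 0 18 [9,8,5,3,3,2,2,2,1], .H 8 477 7 [8,5,3,3,2,2,2,1], .H 9 0 1 [9,8,5,3,3,2,2,2,1],
   .H 9 478 18 [9,8,5,3,3,2,2,2,1],   .H 9 477 18 [9,8,5,3,3,2,2,2,1], .H 8 469 7 [8,5,3,3,2,2,2,1], .H 9 0 1 [9,8,5,3,3,2,2,2,1], .H 9 470 18 [9,8,5,3,3,2,2,2,1], .H 8 467 21 [8,5,3,3,2,2,2,1],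
   .H 9 0 1 [9,8,5,3,3,2,2,2,1],   .H 9 468 18 [9,8,5,3,3,2,2,2,1], .H 9 467 18 [9,8,5,3,3,2,2,2,1], .H 9 466 18 [9,8,5,3,3,2,2,2,1], .H 9 464 18 [9,8,5,3,3,2,2,2,1], .H 9 463 18 [9,8,5,3,3,2,2,2,1],
   .H 9 462 18 [9,8,5,3,3,2,2,2,1],   .H 9 461 18 [9,8,5,3,3,2,2,2,1], .H 9 460 18 [9,8,5,3,3,2,2,2,1], .H 7 454 0 [7,4,2,2,1,1,1], .H 8 0 7 [8,5,3,3,2,2,2,1], .H 9 0 1 [9,8,5,3,3,2,2,2,1],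
   .H 8 456 21 [8,5,3,3,2,2,2,1],   .H 9 0 1 [9,8,5,3,3,2,2,2,1], .H 9 457 18 [9,8,5,3,3,2,2,2,1], .H 9 456 18 [9,8,5,3,3,2,2,2,1], .H 9 454 18 [9,8,5,3,3,2,2,2,1], .H 9 453 18 [9,8,5,3,3,2,2,2,1],
   .H 9 452 18 [9,8,5,3,3,2,2,2,1],   .H 9 451 18 [9,8,5,3,3,2,2,2,1], .H 8 447 21 [8,5,3,3,2,2,2,1], .H 9 0 1 [9,8,5,3,3,2,2,2,1], .H 9 448 18 [9,8,5,3,3,2,2,2,1], .H 9 446 18 [9,8,5,3,3,2,2,2,1]]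

def nodes_132_9 : List Node :=
  [.H 9 445 18 [9,8,5,3,3,2,2,2,1],   .H 9 444 18 [9,8,5,3,3,2,2,2,1], .H 7 822 12 [8,8,1,1], .H 8 0 21 [8,5,3,3,2,2,2,1], .H 9 0 1 [9,8,5,3,3,2,2,2,1], .H 9 444 18 [9,8,5,3,3,2,2,2,1],
   .H 9 824 18 [9,8,5,3,3,2,2,2,1],   .S 1084 13 388 19, .T [3,3,3], .S 1 3 0 9, .B 12 [4,4], .S 1014 8 0 16,
   .H 6 0 11 [8,3,2,2,2,1],   .S 3 18 0 11]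

def refs_132 : List (ℕ × ℕ) :=
  [(1085,2), (1078,13), (1071,13), (1070,2), (1062,2), (1061,2), (1060,2), (1054,0), (1047,13), (1039,2), (1038,2), (1037,2),
  (1030,2), (1029,2), (1023,2), (1019,2), (1018,2), (1011,13), (1005,13), (1004,2), (999,13), (995,13), (994,2), (993,2),
  (988,13), (987,2), (981,0), (979,0), (977,0), (971,13), (969,13), (968,2), (964,13), (963,2), (957,2), (956,2),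
  (950,0), (948,0), (942,13), (939,2), (938,2), (933,0), (931,13), (929,13), (928,2), (923,2), (922,2), (920,0),
  (919,0), (917,13), (914,2), (913,2), (908,0), (905,2), (904,2), (901,2), (896,13), (895,2), (890,13), (886,2),
  (885,2), (880,0), (878,2), (877,2), (873,0), (871,0), (869,0), (866,2), (865,2), (863,2), (862,2), (857,0),
  (855,0), (852,2), (850,2), (849,2), (844,0), (841,2), (840,2), (838,2), (835,2), (831,0), (829,2), (823,13),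
  (821,13), (820,2), (816,13), (812,13), (811,2), (809,13), (808,2), (803,13), (802,2), (798,13), (796,13), (795,2),
  (789,13), (784,0), (782,0), (780,0), (778,0), (773,13), (772,0), (767,2), (762,0), (760,0), (758,0), (756,13),
  (754,13), (753,2), (751,13), (749,13), (748,2), (744,13), (742,0), (741,0), (740,0), (739,0), (737,13), (735,13),
  (733,13), (728,2), (726,0), (725,0), (724,0), (722,13), (719,2), (717,0), (716,0), (714,13), (712,13), (708,2),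
  (706,0), (705,0), (704,0), (702,13), (699,2), (697,0), (696,0), (693,2), (688,0), (685,2), (680,13), (679,0),
  (675,13), (673,13), (671,13), (666,2), (661,0), (659,0), (657,0), (655,2), (651,0), (649,0), (647,0), (645,0),
  (643,0), (638,13), (636,13), (632,2), (628,0), (626,0), (624,0), (620,13), (617,2), (613,0), (611,0), (609,2),
  (605,0), (603,0), (601,0), (599,0), (596,2), (591,0), (589,2), (585,0), (583,0), (581,0), (579,13), (577,13),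
  (572,2), (570,0), (569,0), (567,2), (565,0), (564,0), (563,0), (562,0), (559,2), (555,0), (553,2), (551,0),
  (550,0), (549,0), (546,2), (544,2), (542,0), (541,0), (538,2), (533,0), (529,13), (526,2), (521,0), (519,0),
  (514,2), (509,0), (507,2), (504,0), (502,0), (500,0), (497,0), (495,0), (493,0), (491,0), (489,0), (486,2),
  (484,2), (480,0), (478,0), (475,0), (473,0), (471,0), (469,0), (466,2), (463,0), (460,0), (458,0), (456,0),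
  (454,2), (452,0), (451,0), (446,0), (444,0), (441,0), (439,0), (436,0), (433,0), (430,0), (428,0), (426,0),
  (424,0), (422,0), (420,0), (418,0), (416,0), (413,0), (410,2), (409,2), (405,13), (403,13), (399,13), (397,13),
  (391,13), (389,13), (387,13), (383,13), (381,13), (377,12), (375,12), (373,12), (371,12), (369,12), (367,13), (365,13),
  (363,13), (361,13), (359,13), (357,13), (355,13), (353,13), (351,12), (350,12), (349,12), (348,12), (347,12), (345,12),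
  (343,12), (342,12), (341,12), (340,12), (338,13), (336,13), (334,13), (332,13), (330,12), (329,12), (328,12), (327,12),
  (326,12), (324,13), (322,12), (321,12), (320,12), (319,12), (317,12), (316,12), (315,12), (313,13), (311,12), (310,12),
  (309,12), (308,12), (306,12), (305,12), (304,12), (302,12), (301,12), (296,12), (291,13), (289,13), (285,13), (283,13),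
  (279,13), (275,12), (273,12), (271,12), (269,12), (267,12), (263,12), (261,12), (259,12), (257,12), (253,12), (251,12),
  (249,12), (247,12), (245,12), (243,12), (239,12), (237,12), (235,12), (231,12), (229,12), (227,12), (225,12), (223,12),
  (221,12), (219,12), (218,12), (217,12), (216,12), (214,12), (213,12), (212,12), (211,12), (210,12), (209,12), (207,12),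
  (206,12), (205,12), (204,12), (202,12), (201,12), (200,12), (198,12), (197,12), (196,12), (195,12), (194,12), (192,12),
  (191,12), (189,12), (188,12), (187,12), (186,12), (184,12), (183,12), (182,12), (180,12), (179,12), (178,12), (177,12),
  (176,12), (174,12), (173,12), (171,12), (170,12), (169,12), (168,12), (164,12), (162,12), (161,12), (160,12), (158,12),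
  (157,12), (152,12), (150,12), (148,12), (146,12), (141,12), (139,12), (137,12), (134,12), (132,12), (130,12), (128,12),
  (126,12), (123,12), (121,12), (119,12), (117,12), (115,12), (113,12), (108,12), (106,12), (104,12), (101,12), (99,12),
  (97,12), (95,12), (93,12), (89,12), (87,12), (84,12), (82,12), (80,12), (78,12), (75,12), (73,12), (71,12),
  (69,12), (67,12), (62,12), (59,12), (57,12), (55,12), (52,12), (50,12), (48,12), (46,12), (44,12), (43,12),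
  (42,12), (40,12), (39,12), (37,12), (36,12), (35,12), (34,12), (33,12), (32,12), (31,12), (30,12), (29,12),
  (26,12), (24,12), (23,12), (22,12), (21,12), (20,12), (19,12), (18,12), (16,12), (15,12), (14,12), (13,12),
  (12,12), (9,12), (8,12), (7,12), (0,12)]

theorem cert_132 : ∀ l ∈ out_132, KT ([9,8,5,3,3,2,2,2,1], [9,8,5,3,3,2,2,2,1], l) :=
  certOK_sound (Bs := [([3,2],([3],[],[])),([3,3,1],([],[3],[(3,1)])),([4,3],([4],[],[])),([4,4,1],([],[4],[(4,1)])),([2,2,1],([],[2],[(2,1)])),([2,1,1],([],[1],[(1,2)])),([4,1,1],([],[1],[(1,4)])),([5,2],([],[5,2],[])),([4,3,2],([4],[2],[])),([4,2],([],[4,2],[])),([3,3,2],([],[3],[(3,2)])),([3,3,2,1],([3],[],[(3,1)])),([3,2,1,1,1],([],[1],[(1,3),(1,2)]))])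
    (Gt := [[2,1],[3,1,1],[3,2,1]]) (nodes := nodes_132_0 ++ nodes_132_1 ++ nodes_132_2 ++ nodes_132_3 ++ nodes_132_4 ++ nodes_132_5 ++ nodes_132_6 ++ nodes_132_7 ++ nodes_132_8 ++ nodes_132_9) (refs := refs_132)
    (by
    simp only [List.forall_mem_cons]
    exact ⟨good_1, good_2, good_10, by simp⟩) specT_ok (by decide +kernel)

theorem good_132 : GoodL [9,8,5,3,3,2,2,2,1] :=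
  good_chk2 (q := 9) (ν := [3,1,1]) (gs := [([9],[3],[(3,2),(2,1),(2,5)])])
    (out := out_132) good_2 cert_132 (by decide +kernel)

def out_1100 : List (List ℕ) :=
  []

theorem good_1100 : GoodL [6,5,4,4,2,1] :=
  good_chk1 (q := 6) (ν := [4,3,3,1]) (gs := [([6],[4,2],[(4,1)])])
    (out := out_1100) good_100 (by simp [out_1100]) (by decide +kernel)

def out_1010 : List (List ℕ) :=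
  [[5,5,5,5,4]]

def nodes_1010_0 : List Node :=
  [.T [3,2], .S 0 1 0 2, .B 0 [3,3,3,3,2], .S 1 3 0 17]

def refs_1010 : List (ℕ × ℕ) :=
  [(0,12)]

theorem cert_1010 : ∀ l ∈ out_1010, KT ([6,5,5,4,3,1], [6,5,5,4,3,1], l) :=
  certOK_sound (Bs := [([6,5,3],([6],[3],[]))])
    (Gt := []) (nodes := nodes_1010_0) (refs := refs_1010)
    (by simp) specT_ok (by decide +kernel)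

theorem good_1010 : GoodL [6,5,5,4,3,1] :=
  good_chk1 (q := 6) (ν := [4,4,3,2]) (gs := [])
    (out := out_1010) good_010 cert_1010 (by decide +kernel)

def out_1200 : List (List ℕ) :=
  [[19,1,1,1,1,1,1,1], [18,2,1,1,1,1,1,1], [18,1,1,1,1,1,1,1,1], [17,3,1,1,1,1,1,1], [17,2,2,1,1,1,1,1], [17,2,1,1,1,1,1,1,1],
  [17,1,1,1,1,1,1,1,1,1], [16,4,1,1,1,1,1,1], [16,3,2,1,1,1,1,1], [16,3,1,1,1,1,1,1,1], [16,2,2,2,1,1,1,1], [16,2,2,1,1,1,1,1,1],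
  [16,2,1,1,1,1,1,1,1,1], [16,1,1,1,1,1,1,1,1,1,1], [15,5,1,1,1,1,1,1], [15,4,2,1,1,1,1,1], [15,4,1,1,1,1,1,1,1], [15,3,3,1,1,1,1,1],
  [15,3,2,2,1,1,1,1], [15,3,2,1,1,1,1,1,1], [15,3,1,1,1,1,1,1,1,1], [15,2,2,2,2,1,1,1], [15,2,2,2,1,1,1,1,1], [15,2,2,1,1,1,1,1,1,1],
  [15,2,1,1,1,1,1,1,1,1,1], [15,1,1,1,1,1,1,1,1,1,1,1], [14,6,1,1,1,1,1,1], [14,5,2,1,1,1,1,1], [14,5,1,1,1,1,1,1,1], [14,4,3,1,1,1,1,1],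
  [14,4,2,2,1,1,1,1], [14,4,2,1,1,1,1,1,1], [14,4,1,1,1,1,1,1,1,1], [14,3,3,2,1,1,1,1], [14,3,3,1,1,1,1,1,1], [14,3,2,2,2,1,1,1],
  [14,3,2,2,1,1,1,1,1], [14,3,2,1,1,1,1,1,1,1], [14,3,1,1,1,1,1,1,1,1,1], [14,2,2,2,2,2,1,1], [14,2,2,2,2,1,1,1,1], [14,2,2,2,1,1,1,1,1,1],
  [14,2,2,1,1,1,1,1,1,1,1], [14,2,1,1,1,1,1,1,1,1,1,1], [14,1,1,1,1,1,1,1,1,1,1,1,1], [13,7,1,1,1,1,1,1], [13,6,2,1,1,1,1,1], [13,6,1,1,1,1,1,1,1],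
  [13,5,3,1,1,1,1,1], [13,5,2,2,1,1,1,1], [13,5,2,1,1,1,1,1,1], [13,5,1,1,1,1,1,1,1,1], [13,4,4,1,1,1,1,1], [13,4,3,2,1,1,1,1],
  [13,4,3,1,1,1,1,1,1], [13,4,2,2,2,1,1,1], [13,4,2,2,1,1,1,1,1], [13,4,2,1,1,1,1,1,1,1], [13,4,1,1,1,1,1,1,1,1,1], [13,3,3,3,1,1,1,1],
  [13,3,3,2,2,1,1,1], [13,3,3,2,1,1,1,1,1], [13,3,3,1,1,1,1,1,1,1], [13,3,2,2,2,2,1,1], [13,3,2,2,2,1,1,1,1], [13,3,2,2,1,1,1,1,1,1],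
  [13,3,2,1,1,1,1,1,1,1,1], [13,3,1,1,1,1,1,1,1,1,1,1], [13,2,2,2,2,2,2,1], [13,2,2,2,2,2,1,1,1], [13,2,2,2,2,1,1,1,1,1], [13,2,2,2,1,1,1,1,1,1,1],
  [13,2,2,1,1,1,1,1,1,1,1,1], [13,2,1,1,1,1,1,1,1,1,1,1,1], [12,8,1,1,1,1,1,1], [12,7,2,1,1,1,1,1], [12,7,1,1,1,1,1,1,1], [12,6,3,1,1,1,1,1],
  [12,6,2,2,1,1,1,1], [12,6,2,1,1,1,1,1,1], [12,6,1,1,1,1,1,1,1,1], [12,5,4,1,1,1,1,1], [12,5,3,2,1,1,1,1], [12,5,3,1,1,1,1,1,1],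
  [12,5,2,2,2,1,1,1], [12,5,2,2,1,1,1,1,1], [12,5,2,1,1,1,1,1,1,1], [12,5,1,1,1,1,1,1,1,1,1], [12,4,4,2,1,1,1,1], [12,4,4,1,1,1,1,1,1],
  [12,4,3,3,1,1,1,1], [12,4,3,2,2,1,1,1], [12,4,3,2,1,1,1,1,1], [12,4,3,1,1,1,1,1,1,1], [12,4,2,2,2,2,1,1], [12,4,2,2,2,1,1,1,1],
  [12,4,2,2,1,1,1,1,1,1], [12,4,2,1,1,1,1,1,1,1,1], [12,4,1,1,1,1,1,1,1,1,1,1], [12,3,3,3,2,1,1,1], [12,3,3,3,1,1,1,1,1], [12,3,3,2,2,2,1,1],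
  [12,3,3,2,2,1,1,1,1], [12,3,3,2,1,1,1,1,1,1], [12,3,3,1,1,1,1,1,1,1,1], [12,3,2,2,2,2,2,1], [12,3,2,2,2,2,1,1,1], [12,3,2,2,2,1,1,1,1,1],
  [12,3,2,2,1,1,1,1,1,1,1], [12,3,2,1,1,1,1,1,1,1,1,1], [12,2,2,2,2,2,2,2], [12,2,2,2,2,2,2,1,1], [12,2,2,2,2,2,1,1,1,1], [12,2,2,2,2,1,1,1,1,1,1],
  [11,9,1,1,1,1,1,1], [11,8,2,1,1,1,1,1], [11,8,1,1,1,1,1,1,1], [11,7,3,1,1,1,1,1], [11,7,2,2,1,1,1,1], [11,7,2,1,1,1,1,1,1],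
  [11,7,1,1,1,1,1,1,1,1], [11,6,4,1,1,1,1,1], [11,6,3,2,1,1,1,1], [11,6,3,1,1,1,1,1,1], [11,6,2,2,2,1,1,1], [11,6,2,2,1,1,1,1,1],
  [11,6,2,1,1,1,1,1,1,1], [11,6,1,1,1,1,1,1,1,1,1], [11,5,5,1,1,1,1,1], [11,5,4,2,1,1,1,1], [11,5,4,1,1,1,1,1,1], [11,5,3,3,1,1,1,1],
  [11,5,3,2,2,1,1,1], [11,5,3,2,1,1,1,1,1], [11,5,3,1,1,1,1,1,1,1], [11,5,2,2,2,2,1,1], [11,5,2,2,2,1,1,1,1], [11,5,2,2,1,1,1,1,1,1],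
  [11,5,2,1,1,1,1,1,1,1,1], [11,4,4,3,1,1,1,1], [11,4,4,2,2,1,1,1], [11,4,4,2,1,1,1,1,1], [11,4,4,1,1,1,1,1,1,1], [11,4,3,3,2,1,1,1],
  [11,4,3,3,1,1,1,1,1], [11,4,3,2,2,2,1,1], [11,4,3,2,2,1,1,1,1], [11,4,3,2,1,1,1,1,1,1], [11,4,3,1,1,1,1,1,1,1,1], [11,4,2,2,2,2,2,1],
  [11,4,2,2,2,2,1,1,1], [11,4,2,2,2,1,1,1,1,1], [11,4,2,2,1,1,1,1,1,1,1], [11,3,3,3,3,1,1,1], [11,3,3,3,2,2,1,1], [11,3,3,3,2,1,1,1,1],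
  [11,3,3,3,1,1,1,1,1,1], [11,3,3,2,2,2,2,1], [11,3,3,2,2,2,1,1,1], [11,3,3,2,2,1,1,1,1,1], [11,3,2,2,2,2,2,2], [11,3,2,2,2,2,2,1,1],
  [11,3,2,2,2,2,1,1,1,1], [11,2,2,2,2,2,2,2,1], [11,2,2,2,2,2,2,1,1,1], [10,10,1,1,1,1,1,1], [10,9,2,1,1,1,1,1], [10,9,1,1,1,1,1,1,1],
  [10,8,3,1,1,1,1,1], [10,8,2,2,1,1,1,1], [10,8,2,1,1,1,1,1,1], [10,8,1,1,1,1,1,1,1,1], [10,7,4,1,1,1,1,1], [10,7,3,2,1,1,1,1],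
  [10,7,3,1,1,1,1,1,1], [10,7,2,2,2,1,1,1], [10,7,2,2,1,1,1,1,1], [10,7,2,1,1,1,1,1,1,1], [10,6,5,1,1,1,1,1], [10,6,4,2,1,1,1,1],
  [10,6,4,1,1,1,1,1,1], [10,6,3,3,1,1,1,1], [10,6,3,2,2,1,1,1], [10,6,3,2,1,1,1,1,1], [10,6,3,1,1,1,1,1,1,1], [10,6,2,2,2,2,1,1],
  [10,6,2,2,2,1,1,1,1], [10,6,2,2,1,1,1,1,1,1], [10,5,5,2,1,1,1,1], [10,5,5,1,1,1,1,1,1], [10,5,4,3,1,1,1,1], [10,5,4,2,2,1,1,1],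
  [10,5,4,2,1,1,1,1,1], [10,5,4,1,1,1,1,1,1,1], [10,5,3,3,2,1,1,1], [10,5,3,3,1,1,1,1,1], [10,5,3,2,2,2,1,1], [10,5,3,2,2,1,1,1,1],
  [10,5,3,2,1,1,1,1,1,1], [10,5,2,2,2,2,2,1], [10,5,2,2,2,2,1,1,1], [10,5,2,2,2,1,1,1,1,1], [10,4,4,4,1,1,1,1], [10,4,4,3,2,1,1,1],
  [10,4,4,3,1,1,1,1,1], [10,4,4,2,2,2,1,1], [10,4,4,2,2,1,1,1,1], [10,4,4,2,1,1,1,1,1,1], [10,4,3,3,3,1,1,1], [10,4,3,3,2,2,1,1],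
  [10,4,3,3,2,1,1,1,1], [10,4,3,2,2,2,2,1], [10,4,3,2,2,2,1,1,1], [10,4,2,2,2,2,2,2], [10,4,2,2,2,2,2,1,1], [10,3,3,3,3,2,1,1],
  [10,3,3,3,3,1,1,1,1], [10,3,3,3,2,2,2,1], [10,3,3,3,2,2,1,1,1], [10,3,3,2,2,2,2,2], [10,3,3,2,2,2,2,1,1], [10,3,2,2,2,2,2,2,1],
  [10,2,2,2,2,2,2,2,2], [9,9,3,1,1,1,1,1], [9,9,2,2,1,1,1,1], [9,9,2,1,1,1,1,1,1], [9,8,4,1,1,1,1,1], [9,8,3,2,1,1,1,1],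
  [9,8,3,1,1,1,1,1,1], [9,8,2,2,2,1,1,1], [9,8,2,2,1,1,1,1,1], [9,7,5,1,1,1,1,1], [9,7,4,2,1,1,1,1], [9,7,4,1,1,1,1,1,1],
  [9,7,3,3,1,1,1,1], [9,7,3,2,2,1,1,1], [9,7,3,2,1,1,1,1,1], [9,7,2,2,2,2,1,1], [9,7,2,2,2,1,1,1,1], [9,6,6,1,1,1,1,1],
  [9,6,5,2,1,1,1,1], [9,6,5,1,1,1,1,1,1], [9,6,4,3,1,1,1,1], [9,6,4,2,2,1,1,1], [9,6,4,2,1,1,1,1,1], [9,6,3,3,2,1,1,1],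
  [9,6,3,3,1,1,1,1,1], [9,6,3,2,2,2,1,1], [9,6,3,2,2,1,1,1,1], [9,6,2,2,2,2,2,1], [9,6,2,2,2,2,1,1,1], [9,5,5,3,1,1,1,1],
  [9,5,5,2,2,1,1,1], [9,5,5,2,1,1,1,1,1], [9,5,4,4,1,1,1,1], [9,5,4,3,2,1,1,1], [9,5,4,3,1,1,1,1,1], [9,5,4,2,2,2,1,1],
  [9,5,4,2,2,1,1,1,1], [9,5,3,3,3,1,1,1], [9,5,3,3,2,2,1,1], [9,5,3,2,2,2,2,1], [9,5,2,2,2,2,2,2], [9,4,4,4,2,1,1,1],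
  [9,4,4,4,1,1,1,1,1], [9,4,4,3,3,1,1,1], [9,4,4,3,2,2,1,1], [9,4,4,2,2,2,2,1], [9,4,3,3,3,2,1,1], [9,4,3,3,2,2,2,1],
  [9,4,3,2,2,2,2,2], [9,3,3,3,3,3,1,1], [9,3,3,3,3,2,2,1], [9,3,3,3,2,2,2,2], [8,8,5,1,1,1,1,1], [8,8,4,2,1,1,1,1],
  [8,8,3,3,1,1,1,1], [8,8,3,2,2,1,1,1], [8,8,2,2,2,2,1,1], [8,7,6,1,1,1,1,1], [8,7,5,2,1,1,1,1], [8,7,4,3,1,1,1,1],
  [8,7,4,2,2,1,1,1], [8,7,3,3,2,1,1,1], [8,7,3,2,2,2,1,1], [8,7,2,2,2,2,2,1], [8,6,6,2,1,1,1,1], [8,6,5,3,1,1,1,1],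
  [8,6,5,2,2,1,1,1], [8,6,4,4,1,1,1,1], [8,6,4,3,2,1,1,1], [8,6,4,2,2,2,1,1], [8,6,3,3,3,1,1,1], [8,5,5,4,1,1,1,1],
  [8,5,5,3,2,1,1,1], [8,5,4,4,2,1,1,1]]

def nodes_1200_0 : List Node :=
  [.T [2,2], .H 4 0 13 [4,1,1,1,1], .H 5 0 0 [8,1,1,1,1,1], .H 6 0 1 [13,1,1,1,1,1,1], .H 7 0 0 [19,1,1,1,1,1,1,1],
   .T [3,1,1],   .H 3 0 1 [3,3,1,1], .H 5 0 13 [11,1,1], .H 6 0 9 [17,1,1], .H 7 0 2 [8,2,1,1,1,1,1,1,1,1,1,1,1,1,1,1,1,1], .H 7 1 2 [9,1,1,1,1,1,1,1,1,1,1,1,1,1,1,1,1,1],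
   .T [3,1],   .T [1,1], .H 2 0 2 [2,2], .S 2 14 0 2, .H 5 0 12 [11,2], .H 6 0 9 [16,2,1],
   .H 7 0 2 [8,2,2,1,1,1,1,1,1,1,1,1,1,1,1,1,1],   .H 6 10 9 [16,1,1,1], .H 7 0 2 [8,3,1,1,1,1,1,1,1,1,1,1,1,1,1,1,1], .H 7 1 2 [9,2,1,1,1,1,1,1,1,1,1,1,1,1,1,1,1], .H 7 2 2 [10,1,1,1,1,1,1,1,1,1,1,1,1,1,1,1,1], .H 6 6 9 [15,3,1],
   .H 7 0 2 [8,2,2,2,1,1,1,1,1,1,1,1,1,1,1,1],   .H 6 16 9 [15,2,1,1], .H 7 0 2 [8,3,2,1,1,1,1,1,1,1,1,1,1,1,1,1], .H 7 1 2 [9,2,2,1,1,1,1,1,1,1,1,1,1,1,1,1], .T [4,3,1,1], .H 4 0 1 [5,3,3,1,1],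
   .H 6 0 22 [15,1,1,1,1],   .H 7 0 2 [8,4,1,1,1,1,1,1,1,1,1,1,1,1,1,1], .H 7 1 2 [9,3,1,1,1,1,1,1,1,1,1,1,1,1,1,1], .H 7 2 2 [10,2,1,1,1,1,1,1,1,1,1,1,1,1,1,1], .H 7 3 2 [11,1,1,1,1,1,1,1,1,1,1,1,1,1,1,1], .H 6 18 9 [14,4,1],
   .H 7 0 2 [8,2,2,2,2,1,1,1,1,1,1,1,1,1,1],   .H 6 28 9 [14,3,1,1], .H 7 0 2 [8,3,2,2,1,1,1,1,1,1,1,1,1,1,1], .H 7 1 2 [9,2,2,2,1,1,1,1,1,1,1,1,1,1,1], .H 5 24 12 [10,2,1], .H 6 0 9 [14,2,2,1],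
   .H 7 0 2 [8,3,3,1,1,1,1,1,1,1,1,1,1,1,1],   .H 6 13 22 [14,2,1,1,1], .H 7 0 2 [8,4,2,1,1,1,1,1,1,1,1,1,1,1,1], .H 7 1 2 [9,3,2,1,1,1,1,1,1,1,1,1,1,1,1], .H 7 2 2 [10,2,2,1,1,1,1,1,1,1,1,1,1,1,1], .H 5 44 2 [9,1,1,1,1],
   .H 6 0 1 [14,1,1,1,1,1],   .H 7 0 2 [8,5,1,1,1,1,1,1,1,1,1,1,1,1,1], .H 7 1 2 [9,4,1,1,1,1,1,1,1,1,1,1,1,1,1], .H 7 2 2 [10,3,1,1,1,1,1,1,1,1,1,1,1,1,1], .H 7 3 2 [11,2,1,1,1,1,1,1,1,1,1,1,1,1,1], .H 7 4 2 [12,1,1,1,1,1,1,1,1,1,1,1,1,1,1],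
   .H 6 37 9 [13,5,1],   .H 7 0 2 [8,2,2,2,2,2,1,1,1,1,1,1,1,1], .H 6 47 9 [13,4,1,1], .H 7 0 2 [8,3,2,2,2,1,1,1,1,1,1,1,1,1], .H 7 1 2 [9,2,2,2,2,1,1,1,1,1,1,1,1,1], .H 6 18 9 [13,3,2,1],
   .H 7 0 2 [8,3,3,2,1,1,1,1,1,1,1,1,1,1],   .H 6 31 22 [13,3,1,1,1], .H 7 0 2 [8,4,2,2,1,1,1,1,1,1,1,1,1,1], .H 7 1 2 [9,3,2,2,1,1,1,1,1,1,1,1,1,1], .H 7 2 2 [10,2,2,2,1,1,1,1,1,1,1,1,1,1], .B 0 [8,1],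
   .H 4 0 18 [5,3,3,1,1],   .H 6 0 22 [13,2,2,1,1], .H 7 0 2 [8,4,3,1,1,1,1,1,1,1,1,1,1,1], .H 7 1 2 [9,3,3,1,1,1,1,1,1,1,1,1,1,1], .T [4,2], .T [4,1],
   .H 2 0 1 [4,2,1],   .S 2 3 0 6, .H 6 0 1 [6,4,4,2,2,1], .H 7 0 12 [8,5,2,1,1,1,1,1,1,1,1,1,1,1], .H 7 1 12 [9,4,2,1,1,1,1,1,1,1,1,1,1,1], .H 7 2 12 [10,3,2,1,1,1,1,1,1,1,1,1,1,1],
   .H 7 3 12 [11,2,2,1,1,1,1,1,1,1,1,1,1,1],   .H 6 5 13 [7,1,1,1,1,1,1,1,1,1,1,1,1], .H 7 0 0 [8,6,1,1,1,1,1,1,1,1,1,1,1,1], .H 7 1 0 [9,5,1,1,1,1,1,1,1,1,1,1,1,1], .H 7 2 0 [10,4,1,1,1,1,1,1,1,1,1,1,1,1], .H 7 3 0 [11,3,1,1,1,1,1,1,1,1,1,1,1,1],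
   .H 7 4 0 [12,2,1,1,1,1,1,1,1,1,1,1,1,1],   .H 7 5 0 [13,1,1,1,1,1,1,1,1,1,1,1,1,1], .H 6 69 9 [12,6,1], .H 7 0 2 [8,2,2,2,2,2,2,1,1,1,1,1,1], .H 6 79 9 [12,5,1,1], .H 7 0 2 [8,3,2,2,2,2,1,1,1,1,1,1,1],
   .H 7 1 2 [9,2,2,2,2,2,1,1,1,1,1,1,1],   .H 6 50 9 [12,4,2,1], .H 7 0 2 [8,3,3,2,2,1,1,1,1,1,1,1,1], .H 6 63 22 [12,4,1,1,1], .H 7 0 2 [8,4,2,2,2,1,1,1,1,1,1,1,1], .H 7 1 2 [9,3,2,2,2,1,1,1,1,1,1,1,1],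
   .H 7 2 2 [10,2,2,2,2,1,1,1,1,1,1,1,1],   .H 5 81 12 [9,3,1], .H 6 0 9 [12,3,3,1], .H 7 0 2 [8,3,3,3,1,1,1,1,1,1,1,1,1], .H 6 33 22 [12,3,2,1,1], .H 7 0 2 [8,4,3,2,1,1,1,1,1,1,1,1,1],
   .H 7 1 2 [9,3,3,2,1,1,1,1,1,1,1,1,1],   .B 1 [5,1], .S 0 17 31 6, .H 6 0 1 [6,4,4,2,2,1], .H 7 0 12 [8,5,2,2,1,1,1,1,1,1,1,1,1], .H 7 1 12 [9,4,2,2,1,1,1,1,1,1,1,1,1],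
   .H 7 2 12 [10,3,2,2,1,1,1,1,1,1,1,1,1],   .H 7 3 12 [11,2,2,2,1,1,1,1,1,1,1,1,1], .B 0 [7,1,1], .H 4 0 18 [5,3,3,1,1], .H 6 0 22 [12,2,2,2,1], .H 7 0 2 [8,4,4,1,1,1,1,1,1,1,1,1,1],
   .H 3 101 1 [5,2],   .S 44 3 0 2, .H 6 0 1 [6,4,4,2,2,1], .H 7 0 12 [8,5,3,1,1,1,1,1,1,1,1,1,1], .H 7 1 12 [9,4,3,1,1,1,1,1,1,1,1,1,1], .H 7 2 12 [10,3,3,1,1,1,1,1,1,1,1,1,1]]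

def nodes_1200_1 : List Node :=
  [.H 6 4 13 [7,2,1,1,1,1,1,1,1,1,1,1],   .H 7 0 0 [8,6,2,1,1,1,1,1,1,1,1,1,1], .H 7 1 0 [9,5,2,1,1,1,1,1,1,1,1,1,1], .H 7 2 0 [10,4,2,1,1,1,1,1,1,1,1,1,1], .H 7 3 0 [11,3,2,1,1,1,1,1,1,1,1,1,1], .H 7 4 0 [12,2,2,1,1,1,1,1,1,1,1,1,1],
   .H 6 10 13 [8,1,1,1,1,1,1,1,1,1,1,1],   .H 7 0 0 [8,7,1,1,1,1,1,1,1,1,1,1,1], .H 7 1 0 [9,6,1,1,1,1,1,1,1,1,1,1,1], .H 7 2 0 [10,5,1,1,1,1,1,1,1,1,1,1,1], .H 7 3 0 [11,4,1,1,1,1,1,1,1,1,1,1,1], .H 7 4 0 [12,3,1,1,1,1,1,1,1,1,1,1,1],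
   .H 7 5 0 [13,2,1,1,1,1,1,1,1,1,1,1,1],   .H 6 116 9 [11,7,1], .H 7 0 2 [8,2,2,2,2,2,2,2,1,1,1,1], .H 6 126 9 [11,6,1,1], .H 7 0 2 [8,3,2,2,2,2,2,1,1,1,1,1], .H 7 1 2 [9,2,2,2,2,2,2,1,1,1,1,1],
   .H 6 97 9 [11,5,2,1],   .H 7 0 2 [8,3,3,2,2,2,1,1,1,1,1,1], .H 6 110 22 [11,5,1,1,1], .H 7 0 2 [8,4,2,2,2,2,1,1,1,1,1,1], .H 7 1 2 [9,3,2,2,2,2,1,1,1,1,1,1], .H 7 2 2 [10,2,2,2,2,2,1,1,1,1,1,1],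
   .H 6 46 9 [11,4,3,1],   .H 7 0 2 [8,3,3,3,2,1,1,1,1,1,1,1], .H 6 79 22 [11,4,2,1,1], .H 7 0 2 [8,4,3,2,2,1,1,1,1,1,1,1], .H 7 1 2 [9,3,3,2,2,1,1,1,1,1,1,1], .B 1 [4,2],
   .S 0 3 77 6,   .H 6 0 1 [6,4,4,2,2,1], .H 7 0 12 [8,5,2,2,2,1,1,1,1,1,1,1], .H 7 1 12 [9,4,2,2,2,1,1,1,1,1,1,1], .H 7 2 12 [10,3,2,2,2,1,1,1,1,1,1,1], .H 7 3 12 [11,2,2,2,2,1,1,1,1,1,1,1],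
   .B 0 [7,2],   .H 4 0 18 [5,3,3,1,1], .H 6 0 22 [11,3,3,1,1], .H 7 0 2 [8,4,3,3,1,1,1,1,1,1,1,1], .H 7 1 2 [9,3,3,3,1,1,1,1,1,1,1,1], .H 6 49 22 [11,3,2,2,1],
   .H 7 0 2 [8,4,4,2,1,1,1,1,1,1,1,1],   .T [2,1], .S 0 13 0 12, .S 0 17 92 6, .H 6 0 1 [6,4,4,2,2,1], .H 7 0 12 [8,5,3,2,1,1,1,1,1,1,1,1],
   .H 7 1 12 [9,4,3,2,1,1,1,1,1,1,1,1],   .H 7 2 12 [10,3,3,2,1,1,1,1,1,1,1,1], .H 6 4 13 [7,2,2,1,1,1,1,1,1,1,1], .H 7 0 0 [8,6,2,2,1,1,1,1,1,1,1,1], .H 7 1 0 [9,5,2,2,1,1,1,1,1,1,1,1], .H 7 2 0 [10,4,2,2,1,1,1,1,1,1,1,1],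
   .H 7 3 0 [11,3,2,2,1,1,1,1,1,1,1,1],   .H 7 4 0 [12,2,2,2,1,1,1,1,1,1,1,1], .H 4 12 9 [5,2], .S 106 3 0 10, .H 6 0 1 [6,4,4,2,2,1], .H 7 0 12 [8,5,4,1,1,1,1,1,1,1,1,1],
   .H 7 1 12 [9,4,4,1,1,1,1,1,1,1,1,1],   .H 6 3 13 [7,3,1,1,1,1,1,1,1,1,1], .H 7 0 0 [8,6,3,1,1,1,1,1,1,1,1,1], .H 7 1 0 [9,5,3,1,1,1,1,1,1,1,1,1], .H 7 2 0 [10,4,3,1,1,1,1,1,1,1,1,1], .H 7 3 0 [11,3,3,1,1,1,1,1,1,1,1,1],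
   .H 6 8 13 [8,2,1,1,1,1,1,1,1,1,1],   .H 7 0 0 [8,7,2,1,1,1,1,1,1,1,1,1], .H 7 1 0 [9,6,2,1,1,1,1,1,1,1,1,1], .H 7 2 0 [10,5,2,1,1,1,1,1,1,1,1,1], .H 7 3 0 [11,4,2,1,1,1,1,1,1,1,1,1], .H 7 4 0 [12,3,2,1,1,1,1,1,1,1,1,1],
   .H 7 5 0 [8,8,1,1,1,1,1,1,1,1,1,1],   .H 6 15 13 [9,1,1,1,1,1,1,1,1,1,1], .H 7 0 0 [9,7,1,1,1,1,1,1,1,1,1,1], .H 7 1 0 [10,6,1,1,1,1,1,1,1,1,1,1], .H 7 2 0 [11,5,1,1,1,1,1,1,1,1,1,1], .H 5 181 12 [10,3],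
   .H 6 0 9 [10,8,1],   .H 7 0 2 [8,2,2,2,2,2,2,2,2,1,1], .H 6 159 9 [10,7,1,1], .H 7 0 2 [8,3,2,2,2,2,2,2,1,1,1], .H 7 1 2 [9,2,2,2,2,2,2,2,1,1,1], .H 6 162 9 [10,6,2,1],
   .H 7 0 2 [8,3,3,2,2,2,2,1,1,1,1],   .H 6 175 22 [10,6,1,1,1], .H 7 0 2 [8,4,2,2,2,2,2,1,1,1,1], .H 7 1 2 [9,3,2,2,2,2,2,1,1,1,1], .H 7 2 2 [10,2,2,2,2,2,2,1,1,1,1], .H 6 111 9 [10,5,3,1],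
   .H 7 0 2 [8,3,3,3,2,2,1,1,1,1,1],   .H 6 144 22 [10,5,2,1,1], .H 7 0 2 [8,4,3,2,2,2,1,1,1,1,1], .H 7 1 2 [9,3,3,2,2,2,1,1,1,1,1], .B 2 [3,1], .S 51 13 0 1,
   .S 66 3 0 7,   .H 6 0 1 [6,4,4,2,2,1], .H 7 0 12 [8,5,2,2,2,2,1,1,1,1,1], .H 7 1 12 [9,4,2,2,2,2,1,1,1,1,1], .H 7 2 12 [10,3,2,2,2,2,1,1,1,1,1], .H 7 3 12 [11,2,2,2,2,2,1,1,1,1,1],
   .H 5 206 12 [8,4,1],   .H 6 0 9 [10,4,4,1], .H 7 0 2 [8,3,3,3,3,1,1,1,1,1,1], .H 6 67 22 [10,4,3,1,1], .H 7 0 2 [8,4,3,3,2,1,1,1,1,1,1], .H 7 1 2 [9,3,3,3,2,1,1,1,1,1,1],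
   .H 6 116 22 [10,4,2,2,1],   .H 7 0 2 [8,4,4,2,2,1,1,1,1,1,1], .G 0 [2,1], .S 67 13 0 0, .S 0 17 159 6, .H 6 0 1 [6,4,4,2,2,1],
   .H 7 0 12 [8,5,3,2,2,1,1,1,1,1,1],   .H 7 1 12 [9,4,3,2,2,1,1,1,1,1,1], .H 7 2 12 [10,3,3,2,2,1,1,1,1,1,1], .H 6 4 13 [7,2,2,2,1,1,1,1,1,1], .H 7 0 0 [8,6,2,2,2,1,1,1,1,1,1], .H 7 1 0 [9,5,2,2,2,1,1,1,1,1,1]]

def nodes_1200_2 : List Node :=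
  [.H 7 2 0 [10,4,2,2,2,1,1,1,1,1,1],   .H 7 3 0 [11,3,2,2,2,1,1,1,1,1,1], .B 0 [6,2,1], .H 4 0 18 [5,3,3,1,1], .H 6 0 22 [10,3,3,2,1], .H 7 0 2 [8,4,4,3,1,1,1,1,1,1,1],
   .S 81 17 131 2,   .H 6 0 1 [6,4,4,2,2,1], .H 7 0 12 [8,5,3,3,1,1,1,1,1,1,1], .H 7 1 12 [9,4,3,3,1,1,1,1,1,1,1], .H 7 2 12 [10,3,3,3,1,1,1,1,1,1,1], .H 2 87 1 [3,1,1],
   .H 4 0 22 [8,1],   .H 4 0 18 [4,4,2,2,1], .H 6 0 0 [6,4,4,2,2,1], .H 7 0 12 [8,5,4,2,1,1,1,1,1,1,1], .H 7 1 12 [9,4,4,2,1,1,1,1,1,1,1], .H 6 3 12 [7,3,2,1,1,1,1,1,1,1],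
   .H 7 0 0 [8,6,3,2,1,1,1,1,1,1,1],   .H 7 1 0 [9,5,3,2,1,1,1,1,1,1,1], .H 7 2 0 [10,4,3,2,1,1,1,1,1,1,1], .H 7 3 0 [11,3,3,2,1,1,1,1,1,1,1], .H 6 8 12 [8,2,2,1,1,1,1,1,1,1], .H 7 0 0 [8,7,2,2,1,1,1,1,1,1,1],
   .H 7 1 0 [9,6,2,2,1,1,1,1,1,1,1],   .H 7 2 0 [10,5,2,2,1,1,1,1,1,1,1], .H 7 3 0 [11,4,2,2,1,1,1,1,1,1,1], .S 103 8 254 14, .S 197 15 0 17, .H 6 0 2 [6,5,1,1,1,1,1,1,1,1],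
   .H 7 0 0 [8,5,5,1,1,1,1,1,1,1,1],   .H 6 2 2 [7,4,1,1,1,1,1,1,1,1], .H 7 0 0 [8,6,4,1,1,1,1,1,1,1,1], .H 7 1 0 [9,5,4,1,1,1,1,1,1,1,1], .H 7 2 0 [10,4,4,1,1,1,1,1,1,1,1], .H 6 6 2 [8,3,1,1,1,1,1,1,1,1],
   .H 7 0 0 [8,7,3,1,1,1,1,1,1,1,1],   .H 7 1 0 [9,6,3,1,1,1,1,1,1,1,1], .H 7 2 0 [10,5,3,1,1,1,1,1,1,1,1], .H 7 3 0 [8,8,2,1,1,1,1,1,1,1,1], .H 6 11 2 [9,2,1,1,1,1,1,1,1,1], .H 7 0 0 [9,7,2,1,1,1,1,1,1,1,1],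
   .H 7 1 0 [10,6,2,1,1,1,1,1,1,1,1],   .H 7 2 0 [9,8,1,1,1,1,1,1,1,1,1], .H 6 15 2 [10,1,1,1,1,1,1,1,1,1], .H 7 0 0 [10,7,1,1,1,1,1,1,1,1,1], .H 5 270 12 [9,4], .H 6 0 9 [9,9,1],
   .H 7 0 2 [8,2,2,2,2,2,2,2,2,2],   .H 6 191 9 [9,8,1,1], .H 7 0 2 [8,3,2,2,2,2,2,2,2,1], .H 7 1 2 [9,2,2,2,2,2,2,2,2,1], .H 6 194 9 [9,7,2,1], .H 7 0 2 [8,3,3,2,2,2,2,2,1,1],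
   .H 6 227 22 [9,7,1,1,1],   .H 7 0 2 [8,4,2,2,2,2,2,2,1,1], .H 7 1 2 [9,3,2,2,2,2,2,2,1,1], .H 7 2 2 [10,2,2,2,2,2,2,2,1,1], .H 6 200 9 [9,6,3,1], .H 7 0 2 [8,3,3,3,2,2,2,1,1,1],
   .H 6 233 22 [9,6,2,1,1],   .H 7 0 2 [8,4,3,2,2,2,2,1,1,1], .H 7 1 2 [9,3,3,2,2,2,2,1,1,1], .H 4 139 0 [5,2], .S 154 3 0 3, .H 6 0 1 [6,4,4,2,2,1],
   .H 7 0 12 [8,5,2,2,2,2,2,1,1,1],   .H 7 1 12 [9,4,2,2,2,2,2,1,1,1], .H 7 2 12 [10,3,2,2,2,2,2,1,1,1], .H 6 86 9 [9,5,4,1], .H 7 0 2 [8,3,3,3,3,2,1,1,1,1], .H 6 153 22 [9,5,3,1,1],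
   .H 7 0 2 [8,4,3,3,2,2,1,1,1,1],   .H 7 1 2 [9,3,3,3,2,2,1,1,1,1], .H 6 202 22 [9,5,2,2,1], .H 7 0 2 [8,4,4,2,2,2,1,1,1,1], .S 84 17 100 7, .H 6 0 1 [6,4,4,2,2,1],
   .H 7 0 12 [8,5,3,2,2,2,1,1,1,1],   .H 7 1 12 [9,4,3,2,2,2,1,1,1,1], .H 7 2 12 [10,3,3,2,2,2,1,1,1,1], .H 6 4 13 [7,2,2,2,2,1,1,1,1], .H 7 0 0 [8,6,2,2,2,2,1,1,1,1], .H 7 1 0 [9,5,2,2,2,2,1,1,1,1],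
   .H 7 2 0 [10,4,2,2,2,2,1,1,1,1],   .B 0 [6,3], .H 4 0 18 [5,3,3,1,1], .H 6 0 22 [9,4,4,1,1], .H 7 0 2 [8,4,3,3,3,1,1,1,1,1], .H 7 1 2 [9,3,3,3,3,1,1,1,1,1],
   .H 6 86 22 [9,4,3,2,1],   .H 7 0 2 [8,4,4,3,2,1,1,1,1,1], .S 168 13 168 13, .S 0 17 260 6, .H 6 0 1 [6,4,4,2,2,1], .H 7 0 12 [8,5,3,3,2,1,1,1,1,1],
   .H 7 1 12 [9,4,3,3,2,1,1,1,1,1],   .H 7 2 12 [10,3,3,3,2,1,1,1,1,1], .H 4 86 22 [7,2], .H 4 0 18 [4,4,2,2,1], .H 6 0 0 [6,4,4,2,2,1], .H 7 0 12 [8,5,4,2,2,1,1,1,1,1],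
   .H 7 1 12 [9,4,4,2,2,1,1,1,1,1],   .H 6 3 12 [7,3,2,2,1,1,1,1,1], .H 7 0 0 [8,6,3,2,2,1,1,1,1,1], .H 7 1 0 [9,5,3,2,2,1,1,1,1,1], .H 7 2 0 [10,4,3,2,2,1,1,1,1,1], .H 6 7 12 [8,2,2,2,1,1,1,1,1],
   .H 7 0 0 [8,7,2,2,2,1,1,1,1,1],   .H 7 1 0 [9,6,2,2,2,1,1,1,1,1], .H 7 2 0 [10,5,2,2,2,1,1,1,1,1], .B 3 [5,2,2], .H 4 0 19 [5,3,3,1,1], .H 6 0 22 [9,3,3,3,1],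
   .H 7 0 2 [8,4,4,4,1,1,1,1,1,1],   .H 4 103 22 [7,1,1], .H 4 0 18 [4,4,2,2,1], .H 6 0 0 [6,4,4,2,2,1], .H 7 0 12 [8,5,4,3,1,1,1,1,1,1], .H 7 1 12 [9,4,4,3,1,1,1,1,1,1]]

def nodes_1200_3 : List Node :=
  [.H 6 3 12 [7,3,3,1,1,1,1,1,1],   .H 7 0 0 [8,6,3,3,1,1,1,1,1,1], .H 7 1 0 [9,5,3,3,1,1,1,1,1,1], .H 7 2 0 [10,4,3,3,1,1,1,1,1,1], .S 260 1 96 17, .H 6 0 2 [6,5,2,1,1,1,1,1,1],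
   .H 7 0 0 [8,5,5,2,1,1,1,1,1,1],   .H 6 2 2 [7,4,2,1,1,1,1,1,1], .H 7 0 0 [8,6,4,2,1,1,1,1,1,1], .H 7 1 0 [9,5,4,2,1,1,1,1,1,1], .H 6 5 2 [8,3,2,1,1,1,1,1,1], .H 7 0 0 [8,7,3,2,1,1,1,1,1,1],
   .H 7 1 0 [9,6,3,2,1,1,1,1,1,1],   .H 7 2 0 [8,8,2,2,1,1,1,1,1,1], .H 6 9 2 [9,2,2,1,1,1,1,1,1], .H 7 0 0 [9,7,2,2,1,1,1,1,1,1], .T [1,1,1,1], .S 0 2 124 3,
   .H 6 0 1 [7,5,1,1,1,1,1,1,1],   .H 7 0 0 [8,6,5,1,1,1,1,1,1,1], .H 7 1 0 [9,5,5,1,1,1,1,1,1,1], .H 6 3 1 [8,4,1,1,1,1,1,1,1], .H 7 0 0 [8,7,4,1,1,1,1,1,1,1], .H 7 1 0 [9,6,4,1,1,1,1,1,1,1],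
   .H 7 2 0 [8,8,3,1,1,1,1,1,1,1],   .H 6 7 1 [9,3,1,1,1,1,1,1,1], .H 7 0 0 [9,7,3,1,1,1,1,1,1,1], .H 7 1 0 [9,8,2,1,1,1,1,1,1,1], .H 7 2 0 [9,9,1,1,1,1,1,1,1,1], .H 6 166 9 [8,8,2,1],
   .H 7 0 2 [8,3,3,2,2,2,2,2,2],   .H 6 233 22 [8,8,1,1,1], .H 7 0 2 [8,4,2,2,2,2,2,2,2], .H 7 1 2 [9,3,2,2,2,2,2,2,2], .H 6 171 9 [8,7,3,1], .H 7 0 2 [8,3,3,3,2,2,2,2,1],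
   .H 6 238 22 [8,7,2,1,1],   .H 7 0 2 [8,4,3,2,2,2,2,2,1], .H 7 1 2 [9,3,3,2,2,2,2,2,1], .B 4 [4,2,2,1], .S 398 9 0 7, .H 6 0 1 [6,4,4,2,2,1],
   .H 7 0 12 [8,5,2,2,2,2,2,2,1],   .H 7 1 12 [9,4,2,2,2,2,2,2,1], .H 6 181 9 [8,6,4,1], .H 7 0 2 [8,3,3,3,3,2,2,1,1], .H 6 248 22 [8,6,3,1,1], .H 7 0 2 [8,4,3,3,2,2,2,1,1],
   .H 7 1 2 [9,3,3,3,2,2,2,1,1],   .H 6 297 22 [8,6,2,2,1], .H 7 0 2 [8,4,4,2,2,2,2,1,1], .S 179 17 107 3, .H 6 0 1 [6,4,4,2,2,1], .H 7 0 12 [8,5,3,2,2,2,2,1,1],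
   .H 7 1 12 [9,4,3,2,2,2,2,1,1],   .H 6 3 13 [7,2,2,2,2,2,1,1], .H 7 0 0 [8,6,2,2,2,2,2,1,1], .H 7 1 0 [9,5,2,2,2,2,2,1,1], .H 5 402 12 [7,5,1], .H 6 0 9 [8,5,5,1],
   .H 7 0 2 [8,3,3,3,3,3,1,1,1],   .H 6 94 22 [8,5,4,1,1], .H 7 0 2 [8,4,3,3,3,2,1,1,1], .H 7 1 2 [9,3,3,3,3,2,1,1,1], .H 6 180 22 [8,5,3,2,1], .H 7 0 2 [8,4,4,3,2,2,1,1,1],
   .S 93 17 210 7,   .H 6 0 1 [6,4,4,2,2,1], .H 7 0 12 [8,5,3,3,2,2,1,1,1], .H 7 1 12 [9,4,3,3,2,2,1,1,1], .H 4 178 22 [6,3], .H 4 0 18 [4,4,2,2,1],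
   .H 6 0 0 [6,4,4,2,2,1],   .H 7 0 12 [8,5,4,2,2,2,1,1,1], .H 7 1 12 [9,4,4,2,2,2,1,1,1], .H 6 3 12 [7,3,2,2,2,1,1,1], .H 7 0 0 [8,6,3,2,2,2,1,1,1], .H 7 1 0 [9,5,3,2,2,2,1,1,1],
   .H 6 6 12 [8,2,2,2,2,1,1,1],   .H 7 0 0 [8,7,2,2,2,2,1,1,1], .H 7 1 0 [9,6,2,2,2,2,1,1,1], .B 0 [5,3,1], .H 4 0 18 [5,3,3,1,1], .H 6 0 22 [8,4,4,2,1],
   .H 7 0 2 [8,4,4,3,3,1,1,1,1],   .S 112 17 330 2, .H 6 0 1 [6,4,4,2,2,1], .H 7 0 12 [8,5,3,3,3,1,1,1,1], .H 7 1 12 [9,4,3,3,3,1,1,1,1], .H 6 96 22 [8,4,3,3,1],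
   .H 7 0 2 [8,4,4,4,2,1,1,1,1],   .H 4 199 22 [6,2,1], .H 4 0 18 [4,4,2,2,1], .H 6 0 0 [6,4,4,2,2,1], .H 7 0 12 [8,5,4,3,2,1,1,1,1], .H 7 1 12 [9,4,4,3,2,1,1,1,1],
   .H 6 3 12 [7,3,3,2,1,1,1,1],   .H 7 0 0 [8,6,3,3,2,1,1,1,1], .H 7 1 0 [9,5,3,3,2,1,1,1,1], .H 5 443 14 [5,2,2,1,1,1,1], .H 6 0 1 [6,5,2,2,1,1,1,1], .H 7 0 0 [8,5,5,2,2,1,1,1,1],
   .H 6 2 1 [7,4,2,2,1,1,1,1],   .H 7 0 0 [8,6,4,2,2,1,1,1,1], .H 6 4 1 [8,3,2,2,1,1,1,1], .H 7 0 0 [8,7,3,2,2,1,1,1,1], .H 7 1 0 [8,8,2,2,2,1,1,1,1], .S 453 3 465 13,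
   .S 0 17 291 10,   .H 6 0 1 [6,4,4,2,2,1], .H 7 0 12 [8,5,4,4,1,1,1,1,1], .H 7 1 12 [9,4,4,4,1,1,1,1,1], .H 5 464 15 [5,3,1,1,1,1,1], .H 6 0 1 [6,5,3,1,1,1,1,1],
   .H 7 0 0 [8,5,5,3,1,1,1,1,1],   .H 6 2 1 [7,4,3,1,1,1,1,1], .H 7 0 0 [8,6,4,3,1,1,1,1,1], .H 6 4 1 [8,3,3,1,1,1,1,1], .H 7 0 0 [8,7,3,3,1,1,1,1,1], .H 5 471 15 [6,2,1,1,1,1,1]]

def nodes_1200_4 : List Node :=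
  [.H 6 0 1 [7,5,2,1,1,1,1,1],   .H 7 0 0 [8,6,5,2,1,1,1,1,1], .H 6 2 1 [8,4,2,1,1,1,1,1], .H 7 0 0 [8,7,4,2,1,1,1,1,1], .H 7 1 0 [8,8,3,2,1,1,1,1,1], .H 5 477 15 [7,1,1,1,1,1,1],
   .H 6 0 1 [7,6,1,1,1,1,1,1],   .H 7 0 0 [8,6,6,1,1,1,1,1,1], .H 6 2 1 [8,5,1,1,1,1,1,1], .H 7 0 0 [8,7,5,1,1,1,1,1,1], .H 7 1 0 [8,8,4,1,1,1,1,1,1], .H 6 72 9 [7,7,4,1],
   .H 7 0 2 [8,3,3,3,3,2,2,2],   .H 6 166 22 [7,7,3,1,1], .H 7 0 2 [8,4,3,3,2,2,2,2], .H 6 251 22 [7,7,2,2,1], .H 7 0 2 [8,4,4,2,2,2,2,2], .T [3,2],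
   .S 484 2 500 0,   .S 1 13 0 3, .H 6 0 1 [6,4,4,2,2,1], .H 7 0 12 [8,5,3,2,2,2,2,2], .H 6 2 13 [7,2,2,2,2,2,2], .H 7 0 0 [8,6,2,2,2,2,2,2],
   .H 6 85 9 [7,6,5,1],   .H 7 0 2 [8,3,3,3,3,3,2,1], .H 6 179 22 [7,6,4,1,1], .H 7 0 2 [8,4,3,3,3,2,2,1], .H 6 264 22 [7,6,3,2,1], .H 7 0 2 [8,4,4,3,2,2,2,1],
   .S 177 17 206 3,   .H 6 0 1 [6,4,4,2,2,1], .H 7 0 12 [8,5,3,3,2,2,2,1], .H 4 261 22 [5,4], .H 4 0 18 [4,4,2,2,1], .H 6 0 0 [6,4,4,2,2,1],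
   .H 7 0 12 [8,5,4,2,2,2,2,1],   .H 6 2 12 [7,3,2,2,2,2,1], .H 7 0 0 [8,6,3,2,2,2,2,1], .H 6 4 12 [8,2,2,2,2,2,1], .H 7 0 0 [8,7,2,2,2,2,2,1], .B 0 [5,4],
   .H 4 0 18 [5,3,3,1,1],   .H 6 0 22 [7,5,5,1,1], .H 7 0 2 [8,4,3,3,3,3,1,1], .H 6 82 22 [7,5,4,2,1], .H 7 0 2 [8,4,4,3,3,2,1,1], .B 5 [5,2],
   .S 195 17 0 3,   .H 6 0 1 [6,4,4,2,2,1], .H 7 0 12 [8,5,3,3,3,2,1,1], .H 6 178 22 [7,5,3,3,1], .H 7 0 2 [8,4,4,4,2,2,1,1], .H 4 281 22 [5,3,1],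
   .H 4 0 18 [4,4,2,2,1],   .H 6 0 0 [6,4,4,2,2,1], .H 7 0 12 [8,5,4,3,2,2,1,1], .H 6 2 12 [7,3,3,2,2,1,1], .H 7 0 0 [8,6,3,3,2,2,1,1], .S 375 0 526 14,
   .S 72 1 0 13,   .H 6 0 1 [6,5,2,2,2,1,1], .H 7 0 0 [8,5,5,2,2,2,1,1], .B 3 [4,3,2], .H 4 0 19 [5,3,3,1,1], .H 6 0 22 [7,4,4,3,1],
   .H 7 0 2 [8,4,4,4,3,1,1,1],   .B 6 [3,1,1], .H 4 0 18 [5,2,2], .H 4 0 18 [4,4,2,2,1], .H 6 0 0 [6,4,4,2,2,1], .H 7 0 12 [8,5,4,3,3,1,1,1],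
   .S 321 0 539 14,   .S 85 17 0 13, .H 6 0 1 [6,4,4,2,2,1], .H 7 0 12 [8,5,4,4,2,1,1,1]]

def refs_1200 : List (ℕ × ℕ) :=
  [(550,0), (545,2), (544,2), (537,2), (535,2), (534,2), (533,2), (531,2), (529,2), (528,2), (524,2), (523,2),
  (522,2), (521,2), (519,2), (517,2), (516,2), (513,2), (511,2), (510,2), (509,2), (506,2), (505,2), (504,2),
  (503,2), (502,2), (500,2), (498,2), (497,2), (495,2), (493,2), (492,2), (491,2), (487,2), (486,2), (480,2),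
  (479,2), (478,2), (477,2), (475,2), (474,2), (473,2), (472,2), (471,2), (470,2), (468,2), (466,2), (465,2),
  (463,2), (461,2), (460,2), (459,2), (456,2), (454,2), (453,2), (449,2), (448,2), (447,2), (446,2), (442,2),
  (438,2), (437,2), (436,2), (434,2), (433,2), (432,2), (431,2), (430,2), (428,2), (427,2), (426,2), (425,2),
  (424,2), (423,0), (421,2), (419,2), (418,2), (416,2), (414,2), (413,2), (412,2), (410,2), (408,2), (407,2),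
  (403,2), (402,2), (401,2), (400,2), (396,2), (395,2), (393,2), (388,2), (387,2), (386,2), (384,2), (383,2),
  (382,2), (381,2), (380,2), (376,2), (375,2), (373,2), (372,2), (371,2), (370,2), (368,2), (367,2), (366,2),
  (365,2), (364,0), (363,2), (361,2), (360,2), (359,2), (356,2), (354,2), (353,2), (351,2), (349,2), (348,2),
  (347,2), (345,2), (343,2), (342,2), (337,2), (336,2), (335,2), (334,2), (331,2), (329,2), (328,2), (326,2),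
  (321,2), (320,2), (319,2), (317,2), (316,2), (315,2), (314,2), (310,2), (307,2), (306,2), (305,2), (300,2),
  (299,2), (297,2), (296,2), (295,2), (294,2), (292,2), (291,2), (290,2), (289,0), (285,2), (283,2), (282,2),
  (281,2), (279,2), (278,2), (277,2), (276,2), (274,2), (273,2), (272,2), (270,2), (267,2), (265,2), (264,2),
  (262,2), (260,2), (259,2), (258,2), (256,2), (254,2), (253,2), (249,2), (248,2), (247,2), (245,2), (243,2),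
  (242,2), (240,2), (237,2), (236,2), (235,2), (233,2), (232,2), (231,2), (227,2), (226,2), (224,2), (220,2),
  (219,2), (218,2), (214,2), (213,2), (211,2), (210,2), (209,2), (207,2), (206,2), (205,0), (201,2), (197,2),
  (196,2), (194,2), (193,2), (192,2), (189,2), (187,2), (186,2), (184,2), (183,2), (182,2), (180,2), (176,2),
  (175,2), (173,2), (172,2), (171,2), (169,2), (168,2), (167,2), (165,2), (163,2), (162,2), (160,2), (158,2),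
  (157,2), (153,2), (152,2), (150,2), (148,2), (147,2), (145,2), (142,2), (141,2), (139,2), (138,2), (135,2),
  (133,2), (132,2), (130,2), (127,2), (126,2), (122,2), (121,2), (119,2), (118,2), (116,2), (115,0), (111,2),
  (108,2), (107,2), (105,2), (101,2), (100,2), (98,2), (97,2), (94,2), (92,2), (90,2), (89,2), (85,2),
  (84,0), (81,2), (79,2), (77,2), (74,2), (72,2), (71,2), (68,2), (66,2), (65,2), (63,2), (61,2),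
  (59,2), (54,2), (52,2), (50,2), (48,2), (46,2), (43,2), (39,2), (37,2), (35,0), (31,2), (29,2),
  (25,2), (23,2), (19,2), (17,2), (13,2), (9,2), (4,2), (0,0)]

theorem cert_1200 : ∀ l ∈ out_1200, KT ([7,6,4,4,2,2,1], [7,6,4,4,2,2,1], l) :=
  certOK_sound (Bs := [([4,3,1,1],([],[4,1],[(1,3)])),([4,2],([],[4,2],[])),([2,1,1],([],[1],[(1,2)])),([4,2,2,1],([],[4,2],[(2,1)])),([5,4],([5],[],[])),([4,2,1],([2],[4],[])),([3,2],([3],[],[]))])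
    (Gt := [[2,1]]) (nodes := nodes_1200_0 ++ nodes_1200_1 ++ nodes_1200_2 ++ nodes_1200_3 ++ nodes_1200_4) (refs := refs_1200)
    (by
    simp only [List.forall_mem_cons]
    exact ⟨good_1, by simp⟩) specT_ok (by decide +kernel)

theorem good_1200 : GoodL [7,6,4,4,2,2,1] :=
  good_chk0 (gs := [([7],[4],[(4,2),(2,1)])]) (out := out_1200) cert_1200 (by decide +kernel)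

end Crest.Agent.R195
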