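import Crest.Agent.R195.Data1

/-! Row 195: generated certificate data. -/

set_option autoImplicit false
set_option maxRecDepth 100000

namespace Crest.Agent.R195

def out_1110 : List (List ℕ) :=
  []

theorem good_1110 : GoodL [7,6,5,4,3,2,1] :=
  good_chk1 (q := 7) (ν := [5,4,3,2,1]) (gs := [([7,5,3],[1],[])])
    (out := out_1110) good_110 (by simp [out_1110]) (by decide +kernel)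

def out_1101 : List (List ℕ) :=
  []

theorem good_1101 : GoodL [7,6,5,5,4,2,1] :=
  good_chk1 (q := 7) (ν := [5,4,4,3,1]) (gs := [([7,5],[2],[(5,1)])])
    (out := out_1101) good_101 (by simp [out_1101]) (by decide +kernel)

def out_1210 : List (List ℕ) :=
  []

theorem good_1210 : GoodL [8,7,5,4,3,2,2,1] :=
  good_chk2 (q := 8) (ν := [3,2,1]) (gs := [([8,5,3],[],[(2,1)])])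
    (out := out_1210) good_10 (by simp [out_1210]) (by decide +kernel)

def out_1120 : List (List ℕ) :=
  []

theorem good_1120 : GoodL [8,7,6,4,3,3,2,1] :=
  good_chk1 (q := 8) (ν := [6,5,3,2,2,1]) (gs := [([8,4],[6,2],[(3,1)])])
    (out := out_1120) good_120 (by simp [out_1120]) (by decide +kernel)

def out_1111 : List (List ℕ) :=
  []

theorem good_1111 : GoodL [8,7,6,5,4,3,2,1] :=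
  good_chk1 (q := 8) (ν := [6,5,4,3,2,1]) (gs := [([8,6,4,2],[],[])])
    (out := out_1111) good_111 (by simp [out_1111]) (by decide +kernel)

def out_1220 : List (List ℕ) :=
  []

theorem good_1220 : GoodL [9,8,6,4,3,3,2,2,1] :=
  good_chk2 (q := 9) (ν := [4,2,1,1]) (gs := [([9,4],[6],[(3,2),(2,1)])])
    (out := out_1220) good_20 (by simp [out_1220]) (by decide +kernel)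

def out_1211 : List (List ℕ) :=
  []

theorem good_1211 : GoodL [9,8,6,5,4,3,2,2,1] :=
  good_chk2 (q := 9) (ν := [4,3,2,1]) (gs := [([9,6,4],[2],[(2,1)])])
    (out := out_1211) good_11 (by simp [out_1211]) (by decide +kernel)

def out_1121 : List (List ℕ) :=
  []

theorem good_1121 : GoodL [9,8,7,5,4,3,3,2,1] :=
  good_chk1 (q := 9) (ν := [7,6,4,3,2,2,1]) (gs := [([9,5,3],[7],[(3,1)])])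
    (out := out_1121) good_121 (by simp [out_1121]) (by decide +kernel)

def out_1112 : List (List ℕ) :=
  []

theorem good_1112 : GoodL [9,8,7,6,4,4,3,2,1] :=
  good_chk1 (q := 9) (ν := [7,6,5,3,3,2,1]) (gs := [([9,7,4],[2],[(4,1)])])
    (out := out_1112) good_112 (by simp [out_1112]) (by decide +kernel)

def out_1221 : List (List ℕ) :=
  []

theorem good_1221 : GoodL [10,9,7,5,4,3,3,2,2,1] :=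
  good_chk2 (q := 10) (ν := [5,3,2,1,1]) (gs := [([10,5],[7,3],[(3,2),(2,1)]),([10,5,3],[],[(3,1),(2,7)])])
    (out := out_1221) good_21 (by simp [out_1221]) (by decide +kernel)

def out_1212 : List (List ℕ) :=
  []

theorem good_1212 : GoodL [10,9,7,6,4,4,3,2,2,1] :=
  good_chk2 (q := 10) (ν := [5,4,2,2,1]) (gs := [([10,7],[4,2],[(4,1),(2,3)]),([10,7,4],[],[(4,2),(2,1)])])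
    (out := out_1212) good_12 (by simp [out_1212]) (by decide +kernel)

def out_1122 : List (List ℕ) :=
  []

theorem good_1122 : GoodL [10,9,8,6,4,4,3,3,2,1] :=
  good_chk1 (q := 10) (ν := [8,7,5,3,3,2,2,1]) (gs := [([10,4],[8,6],[(4,1),(3,2)])])
    (out := out_1122) good_122 (by simp [out_1122]) (by decide +kernel)

def out_1113 : List (List ℕ) :=
  []

theorem good_1113 : GoodL [10,9,8,7,4,4,4,3,2,1] :=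
  good_chk1 (q := 10) (ν := [8,7,6,3,3,3,2,1]) (gs := [([10,8,4],[],[(4,1),(4,2)])])
    (out := out_1113) good_113 (by simp [out_1113]) (by decide +kernel)

def out_1222 : List (List ℕ) :=
  [[15,5,5,5,5,5,5,4,1,1,1,1,1], [15,5,5,5,4,4,4,4,4,4], [14,6,6,6,6,6,4,1,1,1,1,1,1], [14,6,6,6,6,6,3,2,1,1,1,1,1], [14,6,6,6,6,6,3,1,1,1,1,1,1,1], [14,6,6,6,6,5,5,1,1,1,1,1,1],
  [14,6,6,6,6,5,4,2,1,1,1,1,1], [14,6,6,6,6,5,4,1,1,1,1,1,1,1], [14,6,6,6,6,5,3,3,1,1,1,1,1], [14,6,6,6,6,4,4,3,1,1,1,1,1], [14,6,6,6,5,5,5,2,1,1,1,1,1], [14,6,6,6,5,5,5,1,1,1,1,1,1,1],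
  [14,6,6,6,5,5,4,3,1,1,1,1,1], [14,6,6,6,5,4,4,4,1,1,1,1,1], [14,6,6,5,5,5,5,3,1,1,1,1,1], [14,6,6,5,5,5,4,4,1,1,1,1,1], [14,6,6,4,4,4,4,4,4,4], [14,6,5,5,5,5,5,4,1,1,1,1,1],
  [14,6,5,5,4,4,4,4,4,4], [14,5,5,5,5,5,5,5,1,1,1,1,1], [14,5,5,5,5,4,4,4,4,4], [13,7,7,7,7,6,1,1,1,1,1,1,1], [13,7,7,7,7,5,2,1,1,1,1,1,1], [13,7,7,7,7,4,3,1,1,1,1,1,1],
  [13,7,7,7,7,4,2,2,1,1,1,1,1], [13,7,7,7,7,4,2,1,1,1,1,1,1,1], [13,7,7,7,7,4,1,1,1,1,1,1,1,1,1], [13,7,7,7,7,3,3,2,1,1,1,1,1], [13,7,7,7,7,3,3,1,1,1,1,1,1,1], [13,7,7,7,6,6,2,1,1,1,1,1,1],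
  [13,7,7,7,6,5,3,1,1,1,1,1,1], [13,7,7,7,6,5,2,2,1,1,1,1,1], [13,7,7,7,6,5,2,1,1,1,1,1,1,1], [13,7,7,7,6,5,1,1,1,1,1,1,1,1,1], [13,7,7,7,6,4,4,1,1,1,1,1,1], [13,7,7,7,6,4,3,2,1,1,1,1,1],
  [13,7,7,7,6,4,3,1,1,1,1,1,1,1], [13,7,7,7,6,3,3,3,1,1,1,1,1], [13,7,7,7,5,5,3,2,1,1,1,1,1], [13,7,7,7,5,5,3,1,1,1,1,1,1,1], [13,7,7,7,5,4,4,2,1,1,1,1,1], [13,7,7,7,5,4,4,1,1,1,1,1,1,1],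
  [13,7,7,7,5,4,3,3,1,1,1,1,1], [13,7,7,7,4,4,4,3,1,1,1,1,1], [13,7,7,6,6,6,3,1,1,1,1,1,1], [13,7,7,6,6,6,2,2,1,1,1,1,1], [13,7,7,6,6,6,2,1,1,1,1,1,1,1], [13,7,7,6,6,6,1,1,1,1,1,1,1,1,1],
  [13,7,7,6,6,5,3,2,1,1,1,1,1], [13,7,7,6,6,5,3,1,1,1,1,1,1,1], [13,7,7,6,6,4,4,2,1,1,1,1,1], [13,7,7,6,6,4,4,1,1,1,1,1,1,1], [13,7,7,6,6,4,3,3,1,1,1,1,1], [13,7,7,6,5,5,4,2,1,1,1,1,1],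
  [13,7,7,6,5,5,4,1,1,1,1,1,1,1], [13,7,7,6,5,5,3,3,1,1,1,1,1], [13,7,7,6,5,4,4,3,1,1,1,1,1], [13,7,7,6,4,4,4,4,1,1,1,1,1], [13,7,7,5,5,5,5,2,1,1,1,1,1], [13,7,7,5,5,5,5,1,1,1,1,1,1,1],
  [13,7,7,5,5,5,4,3,1,1,1,1,1], [13,7,7,5,5,4,4,4,1,1,1,1,1], [13,7,6,6,6,6,3,2,1,1,1,1,1], [13,7,6,6,6,6,3,1,1,1,1,1,1,1], [13,7,6,6,6,5,4,2,1,1,1,1,1], [13,7,6,6,6,5,4,1,1,1,1,1,1,1],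
  [13,7,6,6,6,5,3,3,1,1,1,1,1], [13,7,6,6,6,4,4,3,1,1,1,1,1], [13,7,6,6,5,5,5,2,1,1,1,1,1], [13,7,6,6,5,5,5,1,1,1,1,1,1,1], [13,7,6,6,5,5,4,3,1,1,1,1,1], [13,7,6,6,5,4,4,4,1,1,1,1,1],
  [13,7,6,5,5,5,5,3,1,1,1,1,1], [13,7,6,5,5,5,4,4,1,1,1,1,1], [13,7,6,4,4,4,4,4,4,4], [13,7,5,5,5,5,5,4,1,1,1,1,1], [13,7,5,5,4,4,4,4,4,4], [13,6,6,6,6,6,4,2,1,1,1,1,1],
  [13,6,6,6,6,6,4,1,1,1,1,1,1,1], [13,6,6,6,6,6,3,3,1,1,1,1,1], [13,6,6,6,6,6,3,2,2,1,1,1,1], [13,6,6,6,6,6,3,2,1,1,1,1,1,1], [13,6,6,6,6,6,3,1,1,1,1,1,1,1,1], [13,6,6,6,6,5,5,2,1,1,1,1,1],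
  [13,6,6,6,6,5,5,1,1,1,1,1,1,1], [13,6,6,6,6,5,4,3,1,1,1,1,1], [13,6,6,6,6,5,4,2,2,1,1,1,1], [13,6,6,6,6,5,4,2,1,1,1,1,1,1], [13,6,6,6,6,5,4,1,1,1,1,1,1,1,1], [13,6,6,6,6,5,3,3,2,1,1,1,1],
  [13,6,6,6,6,5,3,3,1,1,1,1,1,1], [13,6,6,6,6,4,4,4,1,1,1,1,1], [13,6,6,6,6,4,4,3,2,1,1,1,1], [13,6,6,6,6,4,4,3,1,1,1,1,1,1], [13,6,6,6,6,4,3,3,3,1,1,1,1], [13,6,6,6,6,3,3,3,3,3,2],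
  [13,6,6,6,6,3,3,3,3,3,1,1], [13,6,6,6,5,5,5,3,1,1,1,1,1], [13,6,6,6,5,5,5,2,2,1,1,1,1], [13,6,6,6,5,5,5,2,1,1,1,1,1,1], [13,6,6,6,5,5,5,1,1,1,1,1,1,1,1], [13,6,6,6,5,5,4,4,1,1,1,1,1],
  [13,6,6,6,5,5,4,3,2,1,1,1,1], [13,6,6,6,5,5,4,3,1,1,1,1,1,1], [13,6,6,6,5,5,3,3,3,1,1,1,1], [13,6,6,5,5,5,5,4,1,1,1,1,1], [13,6,6,5,5,5,5,3,2,1,1,1,1], [13,6,6,5,5,5,5,3,1,1,1,1,1,1],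
  [13,6,6,5,4,4,4,4,4,4], [13,6,5,5,5,5,5,5,1,1,1,1,1], [13,6,5,5,5,4,4,4,4,4], [13,5,5,5,5,5,4,4,4,4], [10,10,10,10,3,2,2,2,1,1,1,1,1], [10,10,10,10,3,2,2,1,1,1,1,1,1,1],
  [10,10,10,10,3,2,1,1,1,1,1,1,1,1,1], [10,10,10,10,3,1,1,1,1,1,1,1,1,1,1,1]]

def nodes_1222_0 : List Node :=
  [.B 0 [2,1,1,1], .H 3 0 2 [7,1], .T [4,4,2,1], .S 1 8 0 13, .H 6 0 1 [8,7,1,1,1,1,1,1,1,1,1,1],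
   .H 8 0 0 [8,8,7,1,1,1,1,1,1,1,1,1,1],   .H 10 0 0 [10,8,8,7,1,1,1,1,1,1,1,1,1,1], .H 11 0 0 [13,8,8,8,7,1,1,1,1,1,1,1,1,1,1], .T [3,3,3], .T [3,3], .T [1,1],
   .H 2 0 2 [2,2],   .S 1 2 0 6, .S 3 10 0 10, .S 5 13 0 3, .T [3,1], .H 2 0 1 [3,3],
   .H 5 0 22 [9,1,1],   .T [1,1,1], .T [3,1,1], .H 3 0 1 [5,1,1,1], .S 2 3 0 2, .S 4 6 0 10,
   .S 8 1 0 14,   .H 11 0 12 [15,5,5,5,4,4,4,4,4,4], .T [2,1], .H 3 0 0 [5,1], .H 3 1 1 [5,1], .S 1 10 0 10,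
   .B 1 [5,1],   .S 19 2 0 3, .H 5 0 3 [8,2,1,1,1], .S 3 21 0 2, .H 8 0 1 [9,7,5,3,3,2,2,1,1], .H 10 0 20 [13,5,5,5,5,5,3,1,1],
   .H 11 0 2 [13,7,7,7,6,6,1,1,1,1,1,1,1,1],   .T [1], .S 0 0 11 13, .S 26 6 0 0, .H 4 23 1 [7,1], .S 1 14 0 17,
   .T [2,2],   .S 0 13 0 13, .S 17 13 31 6, .S 33 2 0 14, .S 2 0 0 7, .S 5 1 0 21,
   .H 10 0 0 [10,8,6,4,4,3,3,2,2,1],   .H 11 0 12 [13,8,7,6,6,6,1,1,1,1,1,1,1,1], .S 7 13 7 0, .H 4 0 10 [6,4,2], .H 5 0 19 [7,5,3,1,1], .H 8 0 10 [8,5,3,3,2,2,1,1],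
   .H 8 0 1 [9,7,5,3,3,2,2,1,1],   .H 10 0 22 [13,6,6,5,5,5,1,1,1], .H 11 0 2 [14,6,6,6,6,6,3,1,1,1,1,1,1,1], .S 45 2 39 20, .H 5 0 3 [8,2,1,1,1], .S 29 21 0 2,
   .H 8 0 1 [9,7,5,3,3,2,2,1,1],   .H 10 0 20 [13,5,5,5,5,4,4,1,1], .H 11 0 2 [13,7,7,7,7,5,1,1,1,1,1,1,1,1], .S 51 2 65 0, .S 21 13 62 19, .S 1 7 0 8,
   .S 24 1 0 21,   .H 10 0 0 [10,8,6,4,4,3,3,2,2,1], .H 11 0 12 [13,8,7,7,6,5,1,1,1,1,1,1,1,1], .G 0 [2,2,1], .T [3,3,1], .S 1 4 0 14,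
   .H 5 0 2 [7,5,3,1,1],   .H 8 0 10 [8,5,3,3,2,2,1,1], .H 8 0 1 [9,7,5,3,3,2,2,1,1], .H 10 0 22 [13,6,6,6,5,4,1,1,1], .H 11 0 2 [14,6,6,6,6,5,4,1,1,1,1,1,1,1], .B 2 [5,4],
   .T [4,3,2,1],   .S 1 1 0 13, .H 6 0 1 [6,6,5,1,1,1,1,1,1,1,1], .H 8 0 0 [8,6,6,5,1,1,1,1,1,1,1,1], .H 10 0 0 [10,8,6,6,5,1,1,1,1,1,1,1,1], .H 11 0 0 [13,8,8,6,6,5,1,1,1,1,1,1,1,1],
   .H 6 4 1 [7,5,5,1,1,1,1,1,1,1,1],   .H 8 0 0 [8,7,5,5,1,1,1,1,1,1,1,1], .H 10 0 0 [10,8,7,5,5,1,1,1,1,1,1,1,1], .H 11 0 0 [13,8,8,7,5,5,1,1,1,1,1,1,1,1], .B 3 [4,1,1,1], .S 46 13 91 0,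
   .S 1 7 0 0,   .S 49 1 0 21, .H 10 0 0 [10,8,6,4,4,3,3,2,2,1], .H 11 0 12 [13,8,7,7,7,4,1,1,1,1,1,1,1,1], .B 0 [3,1,1], .S 0 3 24 13,
   .H 5 0 2 [7,5,3,1,1],   .H 8 0 10 [8,5,3,3,2,2,1,1], .H 8 0 1 [9,7,5,3,3,2,2,1,1], .H 10 0 22 [13,6,6,6,6,3,1,1,1], .H 11 0 2 [14,6,6,6,5,5,5,1,1,1,1,1,1,1], .B 2 [6,3],
   .S 0 1 23 13,   .H 6 0 1 [7,6,4,1,1,1,1,1,1,1,1], .H 8 0 0 [8,7,6,4,1,1,1,1,1,1,1,1], .H 10 0 0 [10,8,7,6,4,1,1,1,1,1,1,1,1], .H 11 0 0 [13,8,8,7,6,4,1,1,1,1,1,1,1,1], .H 6 4 1 [8,5,4,1,1,1,1,1,1,1,1],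
   .H 8 0 0 [8,8,5,4,1,1,1,1,1,1,1,1],   .H 10 0 0 [10,8,8,5,4,1,1,1,1,1,1,1,1], .H 11 0 0 [13,8,8,8,5,4,1,1,1,1,1,1,1,1], .H 6 8 1 [7,7,3,1,1,1,1,1,1,1,1], .H 8 0 0 [8,7,7,3,1,1,1,1,1,1,1,1], .H 10 0 0 [10,8,7,7,3,1,1,1,1,1,1,1,1],
   .H 11 0 0 [13,8,8,7,7,3,1,1,1,1,1,1,1,1],   .B 2 [7,2], .S 0 1 37 13, .H 6 0 1 [8,6,3,1,1,1,1,1,1,1,1], .H 8 0 0 [8,8,6,3,1,1,1,1,1,1,1,1], .H 10 0 0 [10,8,8,6,3,1,1,1,1,1,1,1,1]]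

def nodes_1222_1 : List Node :=
  [.H 11 0 0 [13,8,8,8,6,3,1,1,1,1,1,1,1,1],   .S 109 0 123 0, .S 110 1 0 14, .H 4 78 12 [9,2], .S 1 8 0 3, .H 5 107 22 [10,1],
   .T [1,1,1,1],   .H 2 0 2 [4,2], .H 5 0 5 [5,5,1], .S 3 2 0 4, .S 5 9 0 5, .H 11 0 12 [14,6,6,4,4,4,4,4,4,4],
   .H 6 15 1 [8,7,2,1,1,1,1,1,1,1,1],   .H 8 0 0 [8,8,7,2,1,1,1,1,1,1,1,1], .H 10 0 0 [10,8,8,7,2,1,1,1,1,1,1,1,1], .H 11 0 0 [13,8,8,8,7,2,1,1,1,1,1,1,1,1], .H 11 111 12 [14,6,5,5,4,4,4,4,4,4], .H 6 20 1 [8,8,1,1,1,1,1,1,1,1,1],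
   .H 8 0 0 [8,8,8,1,1,1,1,1,1,1,1,1],   .H 10 0 0 [10,8,8,8,1,1,1,1,1,1,1,1,1], .H 11 0 0 [13,8,8,8,8,1,1,1,1,1,1,1,1,1], .S 129 2 98 13, .S 130 1 0 7, .H 3 0 1 [3,3,3,2],
   .S 132 3 0 15,   .S 23 22 0 14, .H 2 119 1 [3,1,1], .S 0 6 136 3, .H 5 20 5 [7,4], .S 1 21 0 4,
   .S 4 9 0 5,   .H 11 0 12 [14,5,5,5,5,4,4,4,4,4], .S 140 3 125 13, .H 4 0 4 [5,4], .S 111 8 12 7, .S 1 6 0 17,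
   .H 6 0 2 [8,6,4,2,2,1,1,1],   .H 8 0 11 [9,7,5,3,3,2,2,1,1], .H 10 0 20 [12,6,6,6,6,5,1,1], .H 11 0 2 [13,6,6,6,6,6,5,1,1,1,1,1,1], .H 10 99 22 [12,6,6,6,6,4,1,1,1], .H 11 0 2 [13,7,6,6,6,5,5,1,1,1,1,1,1],
   .S 119 13 67 7,   .H 3 136 1 [4,1,1], .H 4 0 1 [7,1,1,1], .S 2 17 0 10, .H 6 0 1 [8,5,3,3,2,2,1,1], .H 8 0 0 [9,7,5,3,3,2,2,1,1],
   .H 10 0 19 [12,6,6,6,6,3,2,1,1],   .H 11 0 2 [13,7,7,6,5,5,5,1,1,1,1,1,1], .G 1 [2,2,2], .S 0 0 0 2, .H 7 0 7 [7,3,3,2,2,1,1], .H 6 0 1 [8,5,3,3,2,2,1,1],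
   .H 8 0 0 [9,7,5,3,3,2,2,1,1],   .H 10 0 19 [12,7,5,5,4,4,4,1,1], .H 11 0 2 [13,7,7,7,7,4,2,2,1,1,1,1,1], .H 10 2 19 [13,6,5,5,4,4,4,1,1], .H 11 0 2 [13,7,7,7,7,4,2,1,1,1,1,1,1,1], .H 10 4 19 [14,5,5,5,4,4,4,1,1],
   .H 11 0 2 [13,7,7,7,7,4,1,1,1,1,1,1,1,1,1],   .H 3 154 0 [4,2], .S 0 2 0 20, .H 7 0 7 [7,3,3,2,2,1,1], .H 6 0 1 [8,5,3,3,2,2,1,1], .H 8 0 0 [9,7,5,3,3,2,2,1,1],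
   .H 10 0 19 [12,7,6,4,4,4,4,1,1],   .H 11 0 2 [13,7,7,7,7,3,3,2,1,1,1,1,1], .H 10 2 19 [13,6,6,4,4,4,4,1,1], .H 11 0 2 [13,7,7,7,7,3,3,1,1,1,1,1,1,1], .H 10 155 22 [12,6,6,6,5,5,1,1,1], .H 11 0 2 [13,7,6,6,6,6,4,1,1,1,1,1,1],
   .H 3 165 1 [4,2],   .H 4 0 22 [7,1,1,1], .S 31 17 0 11, .H 6 0 1 [8,5,3,3,2,2,1,1], .H 8 0 0 [9,7,5,3,3,2,2,1,1], .H 10 0 19 [12,6,6,6,5,4,2,1,1],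
   .H 11 0 2 [13,7,7,6,6,5,4,1,1,1,1,1,1],   .G 2 [2,1], .S 173 13 0 0, .S 203 1 0 0, .H 7 0 7 [7,3,3,2,2,1,1], .H 6 0 1 [8,5,3,3,2,2,1,1],
   .H 8 0 0 [9,7,5,3,3,2,2,1,1],   .H 10 0 19 [12,7,5,5,5,4,3,1,1], .H 11 0 2 [13,7,7,7,6,5,2,2,1,1,1,1,1], .H 10 2 19 [13,6,5,5,5,4,3,1,1], .H 11 0 2 [13,7,7,7,6,5,2,1,1,1,1,1,1,1], .H 10 4 19 [14,5,5,5,5,4,3,1,1],
   .H 11 0 2 [13,7,7,7,6,5,1,1,1,1,1,1,1,1,1],   .S 168 13 64 6, .S 0 17 47 10, .H 6 0 1 [8,5,3,3,2,2,1,1], .H 8 0 0 [9,7,5,3,3,2,2,1,1], .H 10 0 19 [12,6,6,6,5,3,3,1,1],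
   .H 11 0 2 [13,7,7,7,5,5,4,1,1,1,1,1,1],   .G 1 [2,2,1,1], .S 36 2 0 18, .H 7 0 7 [7,3,3,2,2,1,1], .H 6 0 1 [8,5,3,3,2,2,1,1], .H 8 0 0 [9,7,5,3,3,2,2,1,1],
   .H 10 0 19 [12,7,6,5,4,4,3,1,1],   .H 11 0 2 [13,7,7,7,6,4,3,2,1,1,1,1,1], .H 10 2 19 [13,6,6,5,4,4,3,1,1], .H 11 0 2 [13,7,7,7,6,4,3,1,1,1,1,1,1,1], .S 198 2 44 20, .H 7 0 7 [7,3,3,2,2,1,1],
   .H 6 0 1 [8,5,3,3,2,2,1,1],   .H 8 0 0 [9,7,5,3,3,2,2,1,1], .H 10 0 19 [12,7,7,4,4,4,3,1,1], .H 11 0 2 [13,7,7,7,6,3,3,3,1,1,1,1,1], .S 220 3 189 13, .S 235 1 0 0,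
   .H 7 0 7 [7,3,3,2,2,1,1],   .H 6 0 1 [8,5,3,3,2,2,1,1], .H 8 0 0 [9,7,5,3,3,2,2,1,1], .H 10 0 19 [12,7,6,5,5,3,3,1,1], .H 11 0 2 [13,7,7,7,5,5,3,2,1,1,1,1,1], .H 10 2 19 [13,6,6,5,5,3,3,1,1]]

def nodes_1222_2 : List Node :=
  [.H 11 0 2 [13,7,7,7,5,5,3,1,1,1,1,1,1,1],   .S 59 2 48 20, .H 7 0 7 [7,3,3,2,2,1,1], .H 6 0 1 [8,5,3,3,2,2,1,1], .H 8 0 0 [9,7,5,3,3,2,2,1,1], .H 10 0 19 [12,7,6,6,4,3,3,1,1],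
   .H 11 0 2 [13,7,7,7,5,4,4,2,1,1,1,1,1],   .H 10 2 19 [13,6,6,6,4,3,3,1,1], .H 11 0 2 [13,7,7,7,5,4,4,1,1,1,1,1,1,1], .S 221 2 31 18, .H 7 0 7 [7,3,3,2,2,1,1], .H 6 0 1 [8,5,3,3,2,2,1,1],
   .H 8 0 0 [9,7,5,3,3,2,2,1,1],   .H 10 0 19 [12,7,7,5,4,3,3,1,1], .H 11 0 2 [13,7,7,7,5,4,3,3,1,1,1,1,1], .S 227 2 62 20, .H 7 0 7 [7,3,3,2,2,1,1], .H 6 0 1 [8,5,3,3,2,2,1,1],
   .H 8 0 0 [9,7,5,3,3,2,2,1,1],   .H 10 0 19 [12,7,7,6,3,3,3,1,1], .H 11 0 2 [13,7,7,7,4,4,4,3,1,1,1,1,1], .H 3 68 23 [4,2,1,1,1], .S 250 2 234 3, .S 251 1 0 7,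
   .S 2 12 0 17,   .H 6 0 1 [8,5,3,3,2,2,1,1], .H 8 0 0 [9,7,5,3,3,2,2,1,1], .H 10 0 16 [12,6,6,5,5,5,2,1,1], .H 11 0 2 [13,7,7,6,6,6,3,1,1,1,1,1,1], .S 242 13 242 13,
   .S 272 1 0 0,   .H 7 0 7 [7,3,3,2,2,1,1], .H 6 0 1 [8,5,3,3,2,2,1,1], .H 8 0 0 [9,7,5,3,3,2,2,1,1], .H 10 0 19 [12,7,5,5,5,5,2,1,1], .H 11 0 2 [13,7,7,6,6,6,2,2,1,1,1,1,1],
   .H 10 2 19 [13,6,5,5,5,5,2,1,1],   .H 11 0 2 [13,7,7,6,6,6,2,1,1,1,1,1,1,1], .H 10 4 19 [14,5,5,5,5,5,2,1,1], .H 11 0 2 [13,7,7,6,6,6,1,1,1,1,1,1,1,1,1], .S 98 2 98 21, .H 7 0 7 [7,3,3,2,2,1,1],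
   .H 6 0 1 [8,5,3,3,2,2,1,1],   .H 8 0 0 [9,7,5,3,3,2,2,1,1], .H 10 0 19 [12,7,6,5,5,4,2,1,1], .H 11 0 2 [13,7,7,6,6,5,3,2,1,1,1,1,1], .H 10 2 19 [13,6,6,5,5,4,2,1,1], .H 11 0 2 [13,7,7,6,6,5,3,1,1,1,1,1,1,1],
   .S 106 2 87 7,   .H 7 0 7 [7,3,3,2,2,1,1], .H 6 0 1 [8,5,3,3,2,2,1,1], .H 8 0 0 [9,7,5,3,3,2,2,1,1], .H 10 0 19 [12,7,6,6,4,4,2,1,1], .H 11 0 2 [13,7,7,6,6,4,4,2,1,1,1,1,1],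
   .H 10 2 19 [13,6,6,6,4,4,2,1,1],   .H 11 0 2 [13,7,7,6,6,4,4,1,1,1,1,1,1,1], .S 96 0 279 14, .S 298 1 0 14, .H 7 0 7 [7,3,3,2,2,1,1], .H 6 0 1 [8,5,3,3,2,2,1,1],
   .H 8 0 0 [9,7,5,3,3,2,2,1,1],   .H 10 0 19 [12,7,7,5,4,4,2,1,1], .H 11 0 2 [13,7,7,6,6,4,3,3,1,1,1,1,1], .B 0 [4,1], .S 292 1 0 3, .S 303 1 0 14,
   .H 7 0 7 [7,3,3,2,2,1,1],   .H 6 0 1 [8,5,3,3,2,2,1,1], .H 8 0 0 [9,7,5,3,3,2,2,1,1], .H 10 0 19 [12,7,6,6,5,3,2,1,1], .H 11 0 2 [13,7,7,6,5,5,4,2,1,1,1,1,1], .H 10 2 19 [13,6,6,6,5,3,2,1,1],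
   .H 11 0 2 [13,7,7,6,5,5,4,1,1,1,1,1,1,1],   .S 285 2 131 21, .H 7 0 7 [7,3,3,2,2,1,1], .H 6 0 1 [8,5,3,3,2,2,1,1], .H 8 0 0 [9,7,5,3,3,2,2,1,1], .H 10 0 19 [12,7,7,5,5,3,2,1,1],
   .H 11 0 2 [13,7,7,6,5,5,3,3,1,1,1,1,1],   .H 2 302 1 [3,2,1], .S 138 2 0 15, .H 7 0 7 [7,3,3,2,2,1,1], .H 6 0 1 [8,5,3,3,2,2,1,1], .H 8 0 0 [9,7,5,3,3,2,2,1,1],
   .H 10 0 19 [12,7,7,6,4,3,2,1,1],   .H 11 0 2 [13,7,7,6,5,4,4,3,1,1,1,1,1], .S 298 2 6 15, .H 7 0 7 [7,3,3,2,2,1,1], .H 6 0 1 [8,5,3,3,2,2,1,1], .H 8 0 0 [9,7,5,3,3,2,2,1,1],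
   .H 10 0 19 [12,7,7,7,3,3,2,1,1],   .H 11 0 2 [13,7,7,6,4,4,4,4,1,1,1,1,1], .S 320 0 332 0, .S 321 1 0 14, .S 291 13 0 14, .H 7 0 7 [7,3,3,2,2,1,1],
   .H 6 0 1 [8,5,3,3,2,2,1,1],   .H 8 0 0 [9,7,5,3,3,2,2,1,1], .H 10 0 19 [12,7,6,6,6,2,2,1,1], .H 11 0 2 [13,7,7,5,5,5,5,2,1,1,1,1,1], .H 10 2 19 [13,6,6,6,6,2,2,1,1], .H 11 0 2 [13,7,7,5,5,5,5,1,1,1,1,1,1,1],
   .T [3,2,1],   .S 0 9 161 14, .H 7 0 4 [7,3,3,2,2,1,1], .H 6 0 1 [8,5,3,3,2,2,1,1], .H 8 0 0 [9,7,5,3,3,2,2,1,1], .H 10 0 19 [12,7,7,6,5,2,2,1,1],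
   .H 11 0 2 [13,7,7,5,5,5,4,3,1,1,1,1,1],   .T [3,2], .H 3 337 7 [5,2], .S 1 13 0 2, .H 7 0 7 [7,3,3,2,2,1,1], .H 6 0 1 [8,5,3,3,2,2,1,1],
   .H 8 0 0 [9,7,5,3,3,2,2,1,1],   .H 10 0 19 [12,7,7,7,4,2,2,1,1], .H 11 0 2 [13,7,7,5,5,4,4,4,1,1,1,1,1], .H 10 302 22 [12,7,6,5,5,5,1,1,1], .H 11 0 2 [13,7,6,6,6,6,3,2,1,1,1,1,1], .H 11 303 2 [13,7,6,6,6,6,3,1,1,1,1,1,1,1]]

def nodes_1222_3 : List Node :=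
  [.H 10 285 22 [12,7,6,6,5,4,1,1,1],   .H 11 0 2 [13,7,6,6,6,5,4,2,1,1,1,1,1], .H 11 286 2 [13,7,6,6,6,5,4,1,1,1,1,1,1,1], .H 4 210 6 [7,1,1], .S 242 13 0 11, .H 8 0 0 [8,5,3,3,2,2,1,1],
   .H 8 0 1 [9,7,5,3,3,2,2,1,1],   .H 10 0 22 [12,7,7,5,5,4,1,1,1], .H 11 0 2 [13,7,6,6,6,5,3,3,1,1,1,1,1], .H 2 349 2 [3,2], .H 4 0 7 [7,1,1], .S 249 13 0 11,
   .H 8 0 0 [8,5,3,3,2,2,1,1],   .H 8 0 1 [9,7,5,3,3,2,2,1,1], .H 10 0 22 [12,7,7,6,4,4,1,1,1], .H 11 0 2 [13,7,6,6,6,4,4,3,1,1,1,1,1], .H 10 277 22 [12,7,6,6,6,3,1,1,1], .H 11 0 2 [13,7,6,6,5,5,5,2,1,1,1,1,1],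
   .H 11 278 2 [13,7,6,6,5,5,5,1,1,1,1,1,1,1],   .H 3 36 1 [5,2,1,1], .S 258 13 0 15, .H 8 0 0 [8,5,3,3,2,2,1,1], .H 8 0 1 [9,7,5,3,3,2,2,1,1], .H 10 0 22 [12,7,7,6,5,3,1,1,1],
   .H 11 0 2 [13,7,6,6,5,5,4,3,1,1,1,1,1],   .H 3 368 2 [4,1,1,1], .S 374 0 0 2, .S 265 13 0 14, .H 8 0 0 [8,5,3,3,2,2,1,1], .H 8 0 1 [9,7,5,3,3,2,2,1,1],
   .H 10 0 22 [12,7,7,7,4,3,1,1,1],   .H 11 0 2 [13,7,6,6,5,4,4,4,1,1,1,1,1], .S 365 9 364 10, .S 390 3 0 13, .H 8 0 0 [8,5,3,3,2,2,1,1], .H 8 0 1 [9,7,5,3,3,2,2,1,1],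
   .H 10 0 22 [12,7,7,6,6,2,1,1,1],   .H 11 0 2 [13,7,6,5,5,5,5,3,1,1,1,1,1], .S 371 13 399 0, .T [4,2], .H 3 0 1 [4,3,2], .S 2 17 0 23,
   .H 8 0 0 [8,5,3,3,2,2,1,1],   .H 8 0 1 [9,7,5,3,3,2,2,1,1], .H 10 0 22 [12,7,7,7,5,2,1,1,1], .H 11 0 2 [13,7,6,5,5,5,4,4,1,1,1,1,1], .H 11 275 12 [13,7,6,4,4,4,4,4,4,4], .B 4 [7,1],
   .S 0 2 15 13,   .H 8 0 0 [8,5,3,3,2,2,1,1], .H 8 0 1 [9,7,5,3,3,2,2,1,1], .H 10 0 22 [12,7,7,7,6,1,1,1,1], .H 11 0 2 [13,7,5,5,5,5,5,4,1,1,1,1,1], .H 11 388 12 [13,7,5,5,4,4,4,4,4,4],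
   .S 403 14 144 19,   .S 388 13 395 3, .S 0 19 0 7, .S 2 1 0 17, .H 9 0 1 [9,7,5,3,3,2,2,1,1], .H 10 0 23 [12,7,6,6,5,5,1,1],
   .H 11 0 2 [13,6,6,6,6,6,4,2,1,1,1,1,1],   .H 10 2 23 [13,6,6,6,5,5,1,1], .H 11 0 2 [13,6,6,6,6,6,4,1,1,1,1,1,1,1], .S 380 9 365 9, .H 5 0 2 [6,4,2,2,1,1,1], .H 7 0 3 [8,6,4,2,2,1,1],
   .H 9 0 10 [9,7,5,3,3,2,2,1,1],   .H 10 0 23 [12,7,7,5,5,5,1,1], .H 11 0 2 [13,6,6,6,6,6,3,3,1,1,1,1,1], .H 9 3 6 [10,6,5,5,5,1,1], .H 10 0 9 [12,8,6,5,5,5,1,1], .H 11 0 2 [13,6,6,6,6,6,3,2,2,1,1,1,1],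
   .H 10 2 9 [13,7,6,5,5,5,1,1],   .H 11 0 2 [13,6,6,6,6,6,3,2,1,1,1,1,1,1], .H 10 4 9 [14,6,6,5,5,5,1,1], .H 11 0 2 [13,6,6,6,6,6,3,1,1,1,1,1,1,1,1], .H 4 283 6 [8,1], .S 410 0 0 6,
   .S 23 1 0 18,   .H 9 0 1 [9,7,5,3,3,2,2,1,1], .H 10 0 23 [12,7,6,6,6,4,1,1], .H 11 0 2 [13,6,6,6,6,5,5,2,1,1,1,1,1], .H 10 2 23 [13,6,6,6,6,4,1,1], .H 11 0 2 [13,6,6,6,6,5,5,1,1,1,1,1,1,1],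
   .S 417 0 401 13,   .H 5 0 10 [6,4,2], .H 5 0 18 [6,4,2,2,1,1,1], .H 7 0 3 [8,6,4,2,2,1,1], .H 9 0 10 [9,7,5,3,3,2,2,1,1], .H 10 0 23 [12,7,7,6,5,4,1,1],
   .H 11 0 2 [13,6,6,6,6,5,4,3,1,1,1,1,1],   .H 9 3 6 [10,6,6,5,4,1,1], .H 10 0 9 [12,8,6,6,5,4,1,1], .H 11 0 2 [13,6,6,6,6,5,4,2,2,1,1,1,1], .H 10 2 9 [13,7,6,6,5,4,1,1], .H 11 0 2 [13,6,6,6,6,5,4,2,1,1,1,1,1,1],
   .H 10 4 9 [14,6,6,6,5,4,1,1],   .H 11 0 2 [13,6,6,6,6,5,4,1,1,1,1,1,1,1,1], .S 58 14 225 0, .S 447 3 442 14, .S 0 14 0 14, .S 2 1 0 17,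
   .H 9 0 13 [10,7,5,5,4,1,1],   .H 10 0 9 [12,8,7,5,5,4,1,1], .H 11 0 2 [13,6,6,6,6,5,3,3,2,1,1,1,1], .H 10 2 9 [13,7,7,5,5,4,1,1], .H 11 0 2 [13,6,6,6,6,5,3,3,1,1,1,1,1,1], .H 3 454 7 [6,1],
   .S 398 16 0 2,   .H 5 0 1 [6,4,2,2,1,1,1], .H 7 0 3 [8,6,4,2,2,1,1], .H 9 0 10 [9,7,5,3,3,2,2,1,1], .H 10 0 23 [12,7,7,7,4,4,1,1], .H 11 0 2 [13,6,6,6,6,4,4,4,1,1,1,1,1],
   .S 463 14 460 3,   .H 6 274 3 [8,2,2], .S 1 9 0 11, .H 9 0 12 [10,7,6,4,4,1,1], .H 10 0 9 [12,8,7,6,4,4,1,1], .H 11 0 2 [13,6,6,6,6,4,4,3,2,1,1,1,1]]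

def nodes_1222_4 : List Node :=
  [.H 10 2 9 [13,7,7,6,4,4,1,1],   .H 11 0 2 [13,6,6,6,6,4,4,3,1,1,1,1,1,1], .H 6 162 11 [8,2,2], .S 8 9 0 11, .H 9 0 12 [10,8,5,4,4,1,1], .H 10 0 9 [12,8,8,5,4,4,1,1],
   .H 11 0 2 [13,6,6,6,6,4,3,3,3,1,1,1,1],   .T [3,3,2], .S 471 12 0 13, .H 7 0 0 [7,5,1,1,1,1,1,1,1], .H 6 0 1 [8,5,5,1,1,1,1,1,1,1], .H 8 0 0 [11,5,5,5,1,1,1,1,1,1,1],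
   .H 10 0 0 [11,10,5,5,5,1,1,1,1,1,1,1],   .H 11 0 0 [11,11,10,5,5,5,1,1,1,1,1,1,1], .H 11 1 0 [12,10,10,5,5,5,1,1,1,1,1,1,1], .H 3 456 2 [6,1], .S 401 1 0 2, .H 5 0 1 [6,4,2,2,1,1,1],
   .H 7 0 3 [8,6,4,2,2,1,1],   .H 9 0 10 [9,7,5,3,3,2,2,1,1], .H 10 0 23 [12,7,7,6,6,3,1,1], .H 11 0 2 [13,6,6,6,5,5,5,3,1,1,1,1,1], .H 9 3 6 [10,6,6,6,3,1,1], .H 10 0 9 [12,8,6,6,6,3,1,1],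
   .H 11 0 2 [13,6,6,6,5,5,5,2,2,1,1,1,1],   .H 10 2 9 [13,7,6,6,6,3,1,1], .H 11 0 2 [13,6,6,6,5,5,5,2,1,1,1,1,1,1], .H 10 4 9 [14,6,6,6,6,3,1,1], .H 11 0 2 [13,6,6,6,5,5,5,1,1,1,1,1,1,1,1], .G 1 [3,1,1,1],
   .S 167 13 0 2,   .H 5 0 1 [6,4,2,2,1,1,1], .H 7 0 3 [8,6,4,2,2,1,1], .H 9 0 10 [9,7,5,3,3,2,2,1,1], .H 10 0 23 [12,7,7,7,5,3,1,1], .H 11 0 2 [13,6,6,6,5,5,4,4,1,1,1,1,1],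
   .S 505 14 246 0,   .H 4 490 9 [5,2], .S 214 5 0 3, .S 2 17 0 19, .H 9 0 12 [10,7,6,5,3,1,1], .H 10 0 9 [12,8,7,6,5,3,1,1],
   .H 11 0 2 [13,6,6,6,5,5,4,3,2,1,1,1,1],   .H 10 2 9 [13,7,7,6,5,3,1,1], .H 11 0 2 [13,6,6,6,5,5,4,3,1,1,1,1,1,1], .H 4 512 19 [6,2], .S 483 8 0 3, .S 10 17 0 19,
   .H 9 0 12 [10,8,5,5,3,1,1],   .H 10 0 9 [12,8,8,5,5,3,1,1], .H 11 0 2 [13,6,6,6,5,5,3,3,3,1,1,1,1], .S 520 14 338 13, .H 5 0 1 [6,4,2,2,1,1,1], .H 7 0 10 [8,6,4,2,2,1,1],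
   .H 9 0 10 [9,7,5,3,3,2,2,1,1],   .H 10 0 23 [12,7,7,7,6,2,1,1], .H 11 0 2 [13,6,6,5,5,5,5,4,1,1,1,1,1], .S 526 11 506 3, .S 21 17 0 19, .H 9 0 12 [10,7,6,6,2,1,1],
   .H 10 0 9 [12,8,7,6,6,2,1,1],   .H 11 0 2 [13,6,6,5,5,5,5,3,2,1,1,1,1], .H 10 2 9 [13,7,7,6,6,2,1,1], .H 11 0 2 [13,6,6,5,5,5,5,3,1,1,1,1,1,1], .S 532 0 545 0, .S 545 0 0 14,
   .H 5 130 4 [10,1],   .S 1 16 0 3, .S 532 1 0 5, .H 11 0 12 [13,6,6,5,4,4,4,4,4,4], .S 539 14 536 8, .H 5 0 1 [6,4,2,2,1,1,1],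
   .H 7 0 10 [8,6,4,2,2,1,1],   .H 9 0 10 [9,7,5,3,3,2,2,1,1], .H 10 0 23 [12,7,7,7,7,1,1,1], .H 11 0 2 [13,6,5,5,5,5,5,5,1,1,1,1,1], .H 11 405 12 [13,6,5,5,5,4,4,4,4,4], .S 514 13 224 14,
   .S 208 14 288 0,   .S 1 14 0 14, .S 547 5 562 0, .S 543 6 533 17, .S 1 9 0 13, .S 3 17 0 0,
   .H 11 0 13 [13,5,5,5,5,5,4,4,4,4],   .S 554 1 554 2, .S 554 1 0 2, .S 555 1 0 7, .H 5 108 3 [9,1,1], .S 427 7 0 3,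
   .S 2 1 0 1,   .H 10 0 0 [10,9,7,5,3,3,2,2,1,1], .H 11 0 15 [13,8,5,4,4,4,4,4,4,4], .H 11 1 15 [14,7,5,4,4,4,4,4,4,4], .H 11 2 15 [15,6,5,4,4,4,4,4,4,4], .H 11 3 15 [16,5,5,4,4,4,4,4,4,4]]

def refs_1222 : List (ℕ × ℕ) :=
  [(567,2), (550,0), (539,2), (526,2), (519,0), (513,2), (507,2), (499,0), (492,2), (488,2), (482,2), (475,0),
  (469,2), (465,2), (461,2), (455,2), (444,0), (440,2), (439,0), (435,2), (424,0), (416,2), (414,2), (406,2),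
  (399,0), (397,0), (395,0), (388,0), (386,0), (384,2), (377,2), (369,0), (367,0), (365,0), (359,2), (352,0),
  (350,0), (344,0), (337,0), (335,0), (329,0), (327,0), (321,0), (315,0), (307,0), (300,0), (298,0), (296,0),
  (290,0), (288,0), (282,0), (280,0), (273,0), (265,0), (263,0), (257,0), (250,0), (244,0), (236,0), (234,0),
  (227,0), (219,0), (217,0), (216,0), (214,0), (213,0), (207,0), (200,0), (198,0), (197,0), (191,0), (184,0),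
  (178,0), (170,0), (169,0), (163,0), (162,0), (155,0), (153,0), (147,0), (144,0), (142,0), (140,0), (134,0),
  (132,0), (125,0), (122,0), (120,0), (118,0), (111,0), (109,0), (102,0), (96,0), (94,0), (89,0), (82,2),
  (81,2), (74,0), (71,0), (69,0), (67,0), (60,0), (53,0), (51,0), (45,0), (39,0), (34,0), (32,0),
  (26,0), (20,0), (19,0), (11,0), (3,2), (2,2), (1,2), (0,2)]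

theorem cert_1222 : ∀ l ∈ out_1222, KT ([11,10,8,6,4,4,3,3,2,2,1], [11,10,8,6,4,4,3,3,2,2,1], l) :=
  certOK_sound (Bs := [([3,2],([3],[],[])),([4,2],([],[4,2],[])),([4,3,2],([4],[2],[])),([4,3],([4],[],[])),([3,3,2],([],[3],[(3,2)]))])
    (Gt := [[3,1,1],[3,2,1],[2,1]]) (nodes := nodes_1222_0 ++ nodes_1222_1 ++ nodes_1222_2 ++ nodes_1222_3 ++ nodes_1222_4) (refs := refs_1222)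
    (by
    simp only [List.forall_mem_cons]
    exact ⟨good_2, good_10, good_1, by simp⟩) specT_ok (by decide +kernel)

theorem good_1222 : GoodL [11,10,8,6,4,4,3,3,2,2,1] :=
  good_chk2 (q := 11) (ν := [6,4,2,2,1,1]) (gs := [([11],[8,6,4],[(4,3),(3,2),(2,1)]),([11,4],[8],[(4,1),(3,2),(2,6)])])
    (out := out_1222) good_22 cert_1222 (by decide +kernel)

def out_12122 : List (List ℕ) :=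
  []

theorem good_12122 : GoodL [13,12,10,9,7,5,5,4,4,3,2,2,1] :=
  good_chk2 (q := 13) (ν := [8,7,5,3,3,2,2,1]) (gs := [([13,10,5],[7],[(5,1),(4,2),(2,3)])])
    (out := out_12122) good_122 (by simp [out_12122]) (by decide +kernel)

def out_121122 : List (List ℕ) :=
  []

theorem good_121122 : GoodL [15,14,12,11,10,8,6,6,5,5,4,3,2,2,1] :=
  good_chk2 (q := 15) (ν := [10,9,8,6,4,4,3,3,2,1]) (gs := [([15,12,6],[10,8,4],[(6,1),(5,2),(2,3)]),([15,12,6,4],[10],[(6,1),(5,2),(2,8)])])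
    (out := out_121122) good_1122 (by simp [out_121122]) (by decide +kernel)

end Crest.Agent.R195
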