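import Mathlib

/-!
Row 195 (Saxl / tensor square conjecture): shared definitions.
Everything is phrased with integer/real valued functions on `Equiv.Perm Ω`.
-/

set_option autoImplicit false
open Finset Equiv

namespace Crest.Agent.R195

section Tab
variable {Ω : Type} [Fintype Ω] [DecidableEq Ω]

/-- Coefficient of the row word `a` in the polytabloid of the tableau with column function `c`
and row function `r`: it is `sign γ` if `c ∘ γ = c`, `a ∘ γ = r`, and `0` if there is no such `γ`. -/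
def eps (c r a : Ω → ℕ) : ℤ :=
  Matrix.det (Matrix.of fun x y : Ω => if c x = c y ∧ a x = r y then (1 : ℤ) else 0)

/-- `x ↦ (r x, c x)` is a bijection from `Ω` onto the cells `(i, j)`, `j < μ i`. -/
structure IsGrid {Ω : Type} (μ : ℕ → ℕ) (c r : Ω → ℕ) : Prop where
  inj : ∀ x y, r x = r y → c x = c y → x = y
  mem : ∀ x, c x < μ (r x)
  surj : ∀ i j, j < μ i → ∃ x, r x = i ∧ c x = j

/-- A tableau of partition shape `μ` (row lengths `μ 0 ≥ μ 1 ≥ …`). -/
structure IsTab {Ω : Type} (μ : ℕ → ℕ) (c r : Ω → ℕ) : Prop extends IsGrid μ c r where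
  anti : Antitone μ

/-- `F` is not orthogonal to the isotypic block of shape `μ`. -/
def Sees (μ : ℕ → ℕ) (F : Perm Ω → ℝ) : Prop :=
  ∃ c r a : Ω → ℕ, IsTab μ c r ∧ ∑ σ : Perm Ω, F σ * (eps c r (a ∘ σ) : ℝ) ≠ 0

/-- The Kronecker coefficient of the three shapes is nonzero (witnessed on `Ω`). -/
def KronOn (Ω : Type) [Fintype Ω] [DecidableEq Ω] (μ ν κ : ℕ → ℕ) : Prop :=
  ∃ c1 r1 a1 c2 r2 a2 c3 r3 a3 : Ω → ℕ, IsTab μ c1 r1 ∧ IsTab ν c2 r2 ∧ IsTab κ c3 r3 ∧
    ∑ σ : Perm Ω, eps c1 r1 (a1 ∘ σ) * eps c2 r2 (a2 ∘ σ) * eps c3 r3 (a3 ∘ σ) ≠ 0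

/-- The Kronecker coefficient of the three shapes is nonzero. -/
def Kron (μ ν κ : ℕ → ℕ) : Prop := ∃ n : ℕ, KronOn (Fin n) μ ν κ

/-- Permutations preserving a colouring. -/
def stab {K : Type} [DecidableEq K] (q : Ω → K) : Finset (Perm Ω) :=
  univ.filter fun π => ∀ x, q (π x) = q x

/-- Left invariance under the transpositions inside the colour classes of `p`. -/
def LInv {K : Type} (p : Ω → K) (z : Perm Ω → ℝ) : Prop :=
  ∀ x y, p x = p y → ∀ g, z (swap x y * g) = z g

/-- Left symmetrisation over the stabiliser of the colouring `q`. -/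
noncomputable def symz {K : Type} [DecidableEq K] (q : Ω → K) (z : Perm Ω → ℝ) : Perm Ω → ℝ :=
  fun g => ∑ π ∈ stab q, z (π * g)

/-- Symmetrising over `stab q` is injective on `p`-invariant functions. -/
def Reach {K K' : Type} [DecidableEq K] (q : Ω → K) (p : Ω → K') : Prop :=
  ∀ z : Perm Ω → ℝ, LInv p z → symz q z = 0 → z = 0

/-- The colouring `b` with the set `A` recoloured as one extra class. -/
def blob {K : Type} (A : Finset Ω) (b : Ω → K) : Ω → Option K :=
  fun x => if x ∈ A then none else some (b x)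

end Tab

/-- Partial sums of rows. -/
def psum (μ : ℕ → ℕ) (k : ℕ) : ℕ := ∑ i ∈ range k, μ i

/-- `μ` is a partition of `n`. -/
def IsPart (n : ℕ) (μ : ℕ → ℕ) : Prop := Antitone μ ∧ μ n = 0 ∧ psum μ n = n

/-- `ν` is the conjugate (transpose) of `μ`. -/
def IsConjP (μ ν : ℕ → ℕ) : Prop := ∀ i j, j < μ i ↔ i < ν j

/-- `μ` is a self-conjugate partition of `n` whose tensor square contains everything. -/
def Good (n : ℕ) (μ : ℕ → ℕ) : Prop :=
  IsPart n μ ∧ IsConjP μ μ ∧ ∀ κ, IsPart n κ → Kron μ μ κ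

/-- New first row. -/
def rcons (b : ℕ) (α : ℕ → ℕ) : ℕ → ℕ
  | 0 => b
  | i + 1 => α i

/-- One-row shape. -/
def one (n : ℕ) : ℕ → ℕ := fun i => if i = 0 then n else 0

/-- The shape `(L, L-1)`. -/
def two (L : ℕ) : ℕ → ℕ := fun i => if i = 0 then L else if i = 1 then L - 1 else 0

/-- Add a symmetric hook with first row `q` around `ν`. -/
def hookF (q : ℕ) (ν : ℕ → ℕ) : ℕ → ℕ :=
  fun i => if i = 0 then q else if i < q then ν (i - 1) + 1 else 0

/-- `κ` dominates the (unsorted) composition `w`. -/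
def Dom (κ : ℕ → ℕ) (w : List ℕ) : Prop :=
  ∀ u : Multiset ℕ, u ≤ (w : Multiset ℕ) → u.sum ≤ psum κ u.card

/-- Room for four horizontal strips of sizes `q, q-1, q-2, q-3`. -/
def H4 (q : ℕ) (κ : ℕ → ℕ) : Prop :=
  q ≤ psum κ 1 ∧ 2 * q ≤ psum κ 2 + 1 ∧ 3 * q ≤ psum κ 3 + 3 ∧ 4 * q ≤ psum κ 4 + 6

/-! ### List level -/

/-- A list of row lengths as a function. -/
def toF (l : List ℕ) : ℕ → ℕ := fun i => l.getD i 0

/-- Conjugate of a sorted list. -/
def conjL (l : List ℕ) : List ℕ := (List.range (l.headD 0)).map fun j => l.countP fun x => j < x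

/-- List version of `hookF`. -/
def hookL (q : ℕ) (l : List ℕ) : List ℕ :=
  q :: (l.map (· + 1) ++ List.replicate (q - 1 - l.length) 1)

/-- Good list. -/
def GoodL (l : List ℕ) : Prop := l.Pairwise (· ≥ ·) ∧ Good l.sum (toF l)

/-- Condition on clusters `(size of an extra copy, size of its donor row)`, in processing order;
`done` lists the sizes of the extra copies already processed. -/
def clOK : List ℕ → List (ℕ × ℕ) → Bool
  | _, [] => true
  | done, p :: C =>
      decide (done.count p.1 < p.2) && !((p.1 :: done).contains p.2) && clOK (p.1 :: done) C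

/-- A grouping of the rows of `μ` into pairs `(L, L-1)`, `L ∈ P`, singles `S` and clusters `C`. -/
structure Grp (μ P S : List ℕ) (C : List (ℕ × ℕ)) : Prop where
  perm : μ.Perm (P ++ P.map (· - 1) ++ S ++ C.map Prod.fst ++ C.map Prod.snd)
  pos : ∀ L ∈ P, 1 ≤ L
  nodup : (P ++ P.map (· - 1) ++ S ++ C.map Prod.snd).Nodup
  cl : clOK [] C = true

/-- The composition attached to a grouping. -/
def wts (P S : List ℕ) (C : List (ℕ × ℕ)) : List ℕ :=
  (P.flatMap fun L => [(L + 1) / 2, L / 2, L / 2, (L - 1) / 2]) ++ S ++ C.map fun p => p.1 + p.2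

/-! ### The band configuration (Theorem B) -/

/-- Rows `i < s` are tops and rows `s + i` bottoms of pairs; rows `≥ 2 s` are unpaired. -/
def grp (s i : ℕ) : ℕ := if s ≤ i ∧ i < 2 * s then i - s else i

/-- Two grids with the same (unsorted) rows, the second with every row reversed. -/
structure Band {Ω : Type} (sz : ℕ → ℕ) (s : ℕ) (c1 c2 ρ : Ω → ℕ) : Prop where
  g1 : IsGrid sz c1 ρ
  g2 : IsGrid sz c2 ρ
  anti : ∀ x, c1 x + c2 x + 1 = sz (ρ x)
  pair : ∀ i, i < s → sz (s + i) + 1 = sz i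

/-- A word compatible with the pairing of rows. -/
def Compat {Ω : Type} (s : ℕ) (ρ a : Ω → ℕ) : Prop := ∀ x, grp s (a x) = grp s (ρ x)

/-- The operator acting inside the first `k` pairs of rows (`k = s`: all pairs). -/
noncomputable def pairOp {Ω : Type} [Fintype Ω] [DecidableEq Ω] (s k : ℕ) (c1 c2 ρ a1 a2 : Ω → ℕ)
    (z : Perm Ω → ℝ) : Perm Ω → ℝ := fun g =>
  ∑ h ∈ (univ : Finset (Perm Ω)).filter
      (fun h => (∀ x, grp s (ρ (h x)) = grp s (ρ x)) ∧ ∀ x, k ≤ grp s (ρ x) → h x = x),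
    ((eps c1 ρ (a1 ∘ h) * eps c2 ρ (a2 ∘ h) : ℤ) : ℝ) * z (h * g)

end Crest.Agent.R195
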