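import Crest.Agent.R195.Defs

/-! Row 195: elementary properties of `eps`, fibre lemma, double coset sums. -/

set_option autoImplicit false
set_option linter.unusedSectionVars false
open Finset Equiv

namespace Crest.Agent.R195

variable {Ω : Type} [Fintype Ω] [DecidableEq Ω]

theorem eps_eq_sum (c r a : Ω → ℕ) : eps c r a =
    ∑ γ : Perm Ω, if (∀ y, c (γ y) = c y ∧ a (γ y) = r y) then ((Perm.sign γ : ℤˣ) : ℤ) else 0 := by
  unfold eps
  rw [Matrix.det_apply']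
  refine Finset.sum_congr rfl fun γ _ => ?_
  simp only [Matrix.of_apply, Int.cast_id]
  rw [Finset.prod_boole]
  simp

theorem exists_of_eps_ne {c r a : Ω → ℕ} (h : eps c r a ≠ 0) :
    ∃ γ : Perm Ω, (∀ y, c (γ y) = c y) ∧ ∀ y, a (γ y) = r y := by
  rw [eps_eq_sum] at h
  obtain ⟨γ, -, hγ⟩ := Finset.exists_ne_zero_of_sum_ne_zero h
  by_cases hc : ∀ y, c (γ y) = c y ∧ a (γ y) = r y
  · exact ⟨γ, fun y => (hc y).1, fun y => (hc y).2⟩
  · simp [hc] at hγ

theorem eps_of_perm {c r a : Ω → ℕ} (hinj : ∀ x y, r x = r y → c x = c y → x = y) (γ : Perm Ω)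
    (hc : ∀ y, c (γ y) = c y) (ha : ∀ y, a (γ y) = r y) :
    eps c r a = ((Perm.sign γ : ℤˣ) : ℤ) := by
  rw [eps_eq_sum, Finset.sum_eq_single γ]
  · rw [if_pos fun y => ⟨hc y, ha y⟩]
  · intro δ _ hδ
    rw [if_neg]
    intro h
    apply hδ
    ext y
    have h1 : r (γ.symm (δ y)) = r y := by rw [← ha, Equiv.apply_symm_apply, (h y).2]
    have h2 : c (γ.symm (δ y)) = c y := by rw [← hc, Equiv.apply_symm_apply, (h y).1]
    have := hinj _ _ h1 h2
    rw [← this, Equiv.apply_symm_apply, this]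
  · simp

theorem eps_self {c r : Ω → ℕ} (hinj : ∀ x y, r x = r y → c x = c y → x = y) : eps c r r = 1 := by
  rw [eps_of_perm hinj 1 (fun _ => rfl) (fun _ => rfl)]
  simp

theorem eps_comp_col (c r a : Ω → ℕ) (γ : Perm Ω) (hγ : ∀ y, c (γ y) = c y) :
    eps c r (a ∘ γ) = ((Perm.sign γ : ℤˣ) : ℤ) * eps c r a := by
  unfold eps
  have := Matrix.det_permute γ
    (Matrix.of fun x y : Ω => if c x = c y ∧ a x = r y then (1 : ℤ) else 0)
  rw [Int.cast_id] at this
  rw [← this]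
  congr 1
  ext x y
  simp [hγ]

theorem eps_row_comp_col (c r a : Ω → ℕ) (γ : Perm Ω) (hγ : ∀ y, c (γ y) = c y) :
    eps c (r ∘ γ) a = ((Perm.sign γ : ℤˣ) : ℤ) * eps c r a := by
  unfold eps
  have := Matrix.det_permute' γ
    (Matrix.of fun x y : Ω => if c x = c y ∧ a x = r y then (1 : ℤ) else 0)
  rw [Int.cast_id] at this
  rw [← this]
  congr 1
  ext x y
  simp [hγ]

theorem eps_comp_equiv {Ω' : Type} [Fintype Ω'] [DecidableEq Ω'] (c r a : Ω → ℕ) (e : Ω' ≃ Ω) :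
    eps (c ∘ e) (r ∘ e) (a ∘ e) = eps c r a := by
  unfold eps
  rw [← Matrix.det_submatrix_equiv_self e]
  congr 1

theorem eps_congr {c r a c' r' a' : Ω → ℕ}
    (h : ∀ x y, (c' x = c' y ∧ a' x = r' y) ↔ (c x = c y ∧ a x = r y)) :
    eps c' r' a' = eps c r a := by
  unfold eps
  congr 1
  ext x y
  simp only [Matrix.of_apply, h]

theorem eps_eq_zero_of_same {c r a : Ω → ℕ} {x y : Ω} (hxy : x ≠ y) (hc : c x = c y)
    (ha : a x = a y) : eps c r a = 0 := by
  unfold eps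
  refine Matrix.det_zero_of_row_eq hxy ?_
  ext z
  simp [hc, ha]

/-- Block triangular factorisation. -/
theorem eps_split (c r a : Ω → ℕ) (Z : Ω → Prop) [DecidablePred Z]
    (h : ∀ x y, c x = c y → a x = r y → Z y → Z x) :
    eps c r a =
      eps (fun x : {x // Z x} => c x) (fun x => r x) (fun x => a x) *
      eps (fun x : {x // ¬ Z x} => c x) (fun x => r x) (fun x => a x) := by
  unfold eps
  rw [Matrix.twoBlockTriangular_det _ Z]
  · rfl
  · intro i hi j hj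
    simp only [Matrix.of_apply]
    rw [if_neg]
    rintro ⟨h1, h2⟩
    exact hi (h i j h1 h2 hj)

/-- Two colourings with the same fibre sizes differ by a bijection. -/
theorem exists_equiv_of_card_fiber {Ω' K : Type} [Fintype Ω'] [DecidableEq Ω'] [DecidableEq K]
    (f : Ω → K) (g : Ω' → K)
    (h : ∀ k, (univ.filter fun x => f x = k).card = (univ.filter fun x => g x = k).card) :
    ∃ e : Ω ≃ Ω', ∀ x, g (e x) = f x := by
  have he : ∀ k, Nonempty ({x // f x = k} ≃ {x // g x = k}) := fun k =>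
    ⟨Fintype.equivOfCardEq (by rw [Fintype.card_subtype, Fintype.card_subtype, h k])⟩
  refine ⟨Equiv.ofFiberEquiv fun k => (he k).some, fun x => ?_⟩
  exact Equiv.ofFiberEquiv_map _ x

/-- Double coset summation for two subgroups given as finsets. -/
theorem sum_mul_subgroups {G : Type} [Group G] [Fintype G] [DecidableEq G] (A B : Finset G)
    (hA1 : 1 ∈ A) (hA : ∀ x ∈ A, ∀ y ∈ A, x * y⁻¹ ∈ A)
    (hB1 : 1 ∈ B) (hB : ∀ x ∈ B, ∀ y ∈ B, x * y⁻¹ ∈ B) :
    ∃ c : ℝ, 0 < c ∧ ∀ Φ : G → ℝ, (∀ σ, Φ σ ≠ 0 → ∃ a ∈ A, ∃ b ∈ B, σ = a * b) →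
      ∑ a ∈ A, ∑ b ∈ B, Φ (a * b) = c * ∑ σ, Φ σ := by
  have hAi : ∀ x ∈ A, x⁻¹ ∈ A := fun x hx => by simpa using hA 1 hA1 x hx
  have hBi : ∀ x ∈ B, x⁻¹ ∈ B := fun x hx => by simpa using hB 1 hB1 x hx
  have hAm : ∀ x ∈ A, ∀ y ∈ A, x * y ∈ A := fun x hx y hy => by simpa using hA x hx _ (hAi y hy)
  have hBm : ∀ x ∈ B, ∀ y ∈ B, x * y ∈ B := fun x hx y hy => by simpa using hB x hx _ (hBi y hy)
  refine ⟨((A ∩ B).card : ℝ), ?_, fun Φ hΦ => ?_⟩
  · exact_mod_cast Finset.card_pos.2 ⟨1, Finset.mem_inter.2 ⟨hA1, hB1⟩⟩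
  rw [← Finset.sum_product' (f := fun a b => Φ (a * b)),
    ← Finset.sum_fiberwise (s := A ×ˢ B) (g := fun p => p.1 * p.2), Finset.mul_sum]
  refine Finset.sum_congr rfl fun σ _ => ?_
  rw [Finset.sum_congr rfl (g := fun _ => Φ σ)
    (fun p hp => by rw [(Finset.mem_filter.1 hp).2]), Finset.sum_const, nsmul_eq_mul]
  by_cases h0 : Φ σ = 0
  · simp [h0]
  obtain ⟨a, ha, b, hb, rfl⟩ := hΦ σ h0
  congr 2
  symm
  refine Finset.card_bij (fun k _ => (a * k, k⁻¹ * b)) ?_ ?_ ?_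
  · intro k hk
    obtain ⟨h1, h2⟩ := Finset.mem_inter.1 hk
    simp only [Finset.mem_filter, Finset.mem_product]
    exact ⟨⟨hAm _ ha _ h1, hBm _ (hBi _ h2) _ hb⟩, by group⟩
  · intro k _ k' _ hk
    exact mul_left_cancel (Prod.ext_iff.1 hk).1
  · rintro ⟨a', b'⟩ hp
    simp only [Finset.mem_filter, Finset.mem_product] at hp
    obtain ⟨⟨h1, h2⟩, h3⟩ := hp
    have e : a⁻¹ * a' = b * b'⁻¹ := by
      rw [eq_mul_inv_iff_mul_eq, mul_assoc, h3]; group
    refine ⟨a⁻¹ * a', Finset.mem_inter.2 ⟨hAm _ (hAi _ ha) _ h1, e ▸ hB _ hb _ h2⟩, ?_⟩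
    refine Prod.ext (by simp) ?_
    simp only [e]; group

theorem mem_stab {K : Type} [DecidableEq K] {q : Ω → K} {π : Perm Ω} :
    π ∈ stab q ↔ ∀ x, q (π x) = q x := by
  simp [stab]

theorem one_mem_stab {K : Type} [DecidableEq K] (q : Ω → K) : (1 : Perm Ω) ∈ stab q := by
  simp [mem_stab]

theorem mul_inv_mem_stab {K : Type} [DecidableEq K] (q : Ω → K) :
    ∀ x ∈ stab q, ∀ y ∈ stab q, x * y⁻¹ ∈ stab q := by
  intro x hx y hy
  rw [mem_stab] at *
  intro z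
  rw [Perm.mul_apply, hx, ← hy]
  simp

/-- Invariance under transpositions gives invariance under the whole Young subgroup. -/
theorem LInv.perm {K : Type} {p : Ω → K} {z : Perm Ω → ℝ} (h : LInv p z) (τ : Perm Ω)
    (hτ : ∀ x, p (τ x) = p x) (g : Perm Ω) : z (τ * g) = z g := by
  induction hn : τ.support.card using Nat.strong_induction_on generalizing τ with
  | _ n ih =>
    by_cases h1 : τ = 1
    · simp [h1]
    obtain ⟨x, hx⟩ : ∃ x, τ x ≠ x := by
      by_contra hc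
      push Not at hc
      exact h1 (Equiv.ext hc)
    have hlt := Perm.card_support_swap_mul hx
    have := ih _ (hn ▸ hlt) (swap x (τ x) * τ) (fun y => by
      rw [Perm.mul_apply, swap_apply_def]
      split_ifs with h2 h3
      · rw [hτ, ← h2, hτ]
      · rw [← hτ y, h3, hτ]
      · exact hτ y) rfl
    rw [← this, mul_assoc, h x (τ x) (hτ x).symm]

end Crest.Agent.R195
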