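import Crest.Agent.R195.FamLine

/-! Row 195: the infinite families. -/

set_option autoImplicit false

namespace Crest.Agent.R195

variable {μ : List ℕ} {q : ℕ}

theorem Fam_exc_append (l m : List ℕ) (i : ℕ) : exc (l ++ m) i = exc l i + exc m i := by
  simp [exc]

theorem Fam_exc_four (P : List ℕ) (i : ℕ) :
    exc (P.flatMap fun L => [(L + 1) / 2, L / 2, L / 2, (L - 1) / 2]) i =
      (P.map fun L => 2 * L - 1 - 4 * i).sum := by
  induction P with
  | nil => simp [exc]
  | cons L P ih =>
    rw [List.flatMap_cons, Fam_exc_append, ih]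
    simp only [exc, List.map_cons, List.map_nil, List.sum_cons, List.sum_nil]
    omega

theorem Fam_min_four (P : List ℕ) (h : ∀ L ∈ P, 2 ≤ L) : 4 * P.length ≤
    ((P.flatMap fun L => [(L + 1) / 2, L / 2, L / 2, (L - 1) / 2]).map fun x => min x 1).sum +
      P.count 2 := by
  induction P with
  | nil => simp
  | cons L P ih =>
    have h1 := ih fun x hx => h x (List.mem_cons_of_mem _ hx)
    have h2 := h L List.mem_cons_self
    rw [List.flatMap_cons, List.map_append, List.sum_append, List.count_cons]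
    simp only [List.map_cons, List.map_nil, List.sum_cons, List.sum_nil, List.length_cons,
      beq_iff_eq]
    split_ifs <;> omega

theorem Fam_min_pos (l : List ℕ) (h : ∀ x ∈ l, 0 < x) :
    (l.map fun x => min x 1).sum = l.length := by
  induction l with
  | nil => simp
  | cons a l ih =>
    have h1 := ih fun x hx => h x (List.mem_cons_of_mem _ hx)
    have h2 := h a List.mem_cons_self
    simp only [List.map_cons, List.sum_cons, List.length_cons]
    omega

theorem Fam_tri {P : List ℕ} (hn : (P ++ P.map (· - 1)).Nodup) (hq : ∀ L ∈ P, L ≤ q) (i : ℕ) :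
    (P.map fun L => 2 * L - 1 - 4 * i).sum ≤ tri (2 * q - 1 - 4 * i) := by
  obtain ⟨h1, -, h2⟩ := List.nodup_append.1 hn
  have h3 : ∀ a ∈ P, ∀ b ∈ P, a ≠ b - 1 := fun a ha b hb => h2 a ha _ (List.mem_map_of_mem hb)
  rw [tri, ← List.sum_toFinset _ h1, ← List.sum_toFinset _ List.nodup_range, List.toFinset_range]
  calc _ ≤ ∑ L ∈ P.toFinset, (2 * q - 1 - 4 * i - 4 * ((q - L) / 2)) :=
        Finset.sum_le_sum fun L hL => by
          have := hq L (List.mem_toFinset.1 hL)
          omega
    _ = ∑ p ∈ P.toFinset.image fun L => (q - L) / 2, (2 * q - 1 - 4 * i - 4 * p) := by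
        rw [Finset.sum_image]
        intro a ha b hb hab
        have ha' : a ∈ P := by simpa using ha
        have hb' : b ∈ P := by simpa using hb
        have := hq a ha'
        have := hq b hb'
        have := h3 a ha' b hb'
        have := h3 b hb' a ha'
        dsimp only at hab
        omega
    _ ≤ _ := Finset.sum_le_sum_of_ne_zero fun p _ hp => Finset.mem_range.2 (by omega)

theorem Fam_pok {n n' : ℕ} {p : Par} (h : pokB q n p = true) (hn : n + 4 * q + 6 ≤ n') :
    pokB (q + 4) n' p.shift = true := by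
  simp only [pokB, decide_eq_true_eq, Par.shift] at h ⊢
  obtain ⟨h1, h2, h3, h4, h5, h6, h7⟩ := h
  obtain ⟨q, rfl⟩ : ∃ q', q = q' + 1 := ⟨q - 1, by omega⟩
  rw [Nat.add_sub_cancel] at h3
  rw [show q + 1 + 4 - 1 = q + 4 by omega]
  refine ⟨h1, ?_, ?_, ?_, by omega, by omega, by omega⟩ <;> nlinarith

theorem Fam_bd {g g' : GD} {p : Par} (h : bdB q g p = true) (h1 : g'.2.1.length = g.2.1.length)
    (h2 : g'.2.2.length = g.2.2.length)
    (h3 : List.Forall₂ (fun a b => a ≤ b + 2) (loose g') (loose g)) :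
    bdB (q + 4) g' p.shift = true := by
  simp only [bdB, decide_eq_true_eq, Par.shift] at h ⊢
  obtain ⟨a1, a2, a3, a4, a5⟩ := h
  have e : (∀ x ∈ loose g', x ≤ p.w1 + 2) ∧ ∀ i, exc (loose g') (i + 2) ≤ exc (loose g) i := by
    generalize loose g' = l', loose g = l at h3 a2
    induction h3 with
    | nil => simp [exc]
    | @cons a b l' l hab _ ih =>
      obtain ⟨b1, b2⟩ := ih fun x hx => a2 x (List.mem_cons_of_mem _ hx)
      have := a2 b List.mem_cons_self
      refine ⟨fun x hx => ?_, fun i => ?_⟩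
      · rcases List.mem_cons.1 hx with rfl | hx
        · omega
        · exact b1 x hx
      · have := b2 i
        simp only [exc, List.map_cons, List.sum_cons] at this ⊢
        omega
  have e1 := e.2 p.i1
  have e2 := e.2 (p.i1 + 1)
  rw [show 2 * (q + 4) - 1 - 4 * (p.i1 + 2) = 2 * q - 1 - 4 * p.i1 by omega,
    show 2 * (q + 4) - 5 - 4 * (p.i1 + 2) = 2 * q - 5 - 4 * p.i1 by omega,
    show p.i1 + 2 + 1 = p.i1 + 1 + 2 by omega]
  exact ⟨by omega, e.1, by omega, by omega, by omega⟩

theorem Fam_forall₂ {α : Type} (l : List α) {f f' : α → ℕ} (h : ∀ a, f' a ≤ f a + 2) :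
    List.Forall₂ (fun a b => a ≤ b + 2) (l.map f') (l.map f) := by
  rw [List.forall₂_map_left_iff, List.forall₂_map_right_iff, List.forall₂_same]
  exact fun a _ => h a

theorem Fam_bdN {g : GD} {p : Par} (h : bdB q g p = true) :
    bdB (q + 4) (gN q g) p.shift = true := by
  refine Fam_bd h (by simp [gN]) (by simp [gN]) ?_
  simp only [loose, gN, List.map_map]
  refine List.rel_append ?_ (Fam_forall₂ _ fun a => ?_)
  · simp
  · simp only [Function.comp_apply]
    omega

theorem Fam_bdX {g : GD} {p : Par} (h : bdB (q + 5) (gX q g) p = true) :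
    bdB (q + 4 + 5) (gX (q + 4) (gN q g)) p.shift = true := by
  rw [show q + 4 + 5 = q + 5 + 4 by omega]
  refine Fam_bd h (by simp [gN, gX]) (by simp [gN, gX]) ?_
  simp only [loose, gN, gX, List.map_map, List.map_append, List.length_map, List.cons_append]
  refine List.Forall₂.cons (by omega) (List.rel_append (Fam_forall₂ _ fun a => ?_)
    (List.rel_append (Fam_forall₂ _ fun a => ?_) (Fam_forall₂ _ fun a => by omega)))
  · exact le_rfl
  · simp only [Function.comp_apply]
    omega

/-- The numerical invariants imply the covering property. -/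
theorem Line.cover {g : GD} {p : Par} (h : Line μ q g) (hb : bdB q g p = true)
    (hp : pokB q μ.sum p = true) {c c' : ℕ → ℕ} (hc : IsPart μ.sum c) (hc' : IsConjP c c')
    (h2 : psum c 2 + 2 ≤ 2 * q) :
    Dom c (wts g.1 g.2.1 g.2.2) ∨ Dom c' (wts g.1 g.2.1 g.2.2) ∨ H4 q c' := by
  obtain ⟨P, S, C⟩ := g
  simp only [bdB, pokB, decide_eq_true_eq] at hb hp
  obtain ⟨a1, a2, a3, a4, a5⟩ := hb
  obtain ⟨b1, b2, b3, b4, -, b6, -⟩ := hp
  have hG : Grp μ P S C := h.grp
  have hmem : ∀ x, x ∈ P ++ P.map (· - 1) ++ S ++ C.map Prod.fst ++ C.map Prod.snd →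
      0 < x ∧ x ≤ q := fun x hx => by
    have hx' := hG.perm.mem_iff.2 hx
    exact ⟨h.pos x hx', h.head ▸ part_le_headD h.sorted hx'⟩
  have hP : ∀ L ∈ P, L ≤ q := fun L hL => (hmem L (by simp [hL])).2
  have hP2 : ∀ L ∈ P, 2 ≤ L := fun L hL => by
    have := (hmem (L - 1) (by
      simp only [List.mem_append]
      exact Or.inl (Or.inl (Or.inl (Or.inr (List.mem_map_of_mem hL)))))).1
    omega
  have hn : (P ++ P.map (· - 1)).Nodup := hG.nodup.of_append_left.of_append_left
  have hw : wts P S C = (P.flatMap fun L => [(L + 1) / 2, L / 2, L / 2, (L - 1) / 2]) ++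
      loose (P, S, C) := List.append_assoc _ _ _
  have hl : ∀ x ∈ loose (P, S, C), 0 < x := fun x hx => by
    rcases List.mem_append.1 hx with hx | hx
    · exact (hmem x (by simp [show x ∈ S from hx])).1
    · obtain ⟨y, hy, rfl⟩ := List.mem_map.1 hx
      have := (hmem y.2 (List.mem_append_right _ (List.mem_map_of_mem hy))).1
      omega
  refine nl_crude hG.sum_wts (by omega) (fun x hx => ?_) b1 ?_ b2 ?_ ?_ b3 b4 hc hc' h2
  · rcases List.mem_append.1 (hw ▸ hx) with hx | hx
    · obtain ⟨L, hL, hx⟩ := List.mem_flatMap.1 hx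
      have := hP L hL
      simp only [List.mem_cons, List.not_mem_nil, or_false] at hx
      omega
    · exact a2 x hx
  · have h1 := hG.perm.length_eq
    have h3 := Fam_min_four P hP2
    have h4 := List.nodup_iff_count_le_one.1 hn.of_append_left 2
    rw [hw, List.map_append, List.sum_append, Fam_min_pos _ hl]
    simp only [List.length_append, List.length_map, h.len, loose] at h1 a1 ⊢
    omega
  · have := Fam_tri hn hP p.i1
    rw [hw, Fam_exc_append, Fam_exc_four]
    omega
  · have := Fam_tri hn hP (p.i1 + 1)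
    rw [show 2 * q - 1 - 4 * (p.i1 + 1) = 2 * q - 5 - 4 * p.i1 by omega] at this
    rw [hw, Fam_exc_append, Fam_exc_four]
    omega

theorem T1.step (h : T1 μ q) : T1 (hook2L (q + 4) μ) (q + 4) := by
  obtain ⟨h0, g, p, h1, h2, h3⟩ := h
  have h4 := Fam_bdN h2
  have h5 := Fam_pok h3 (n' := (hook2L (q + 4) μ).sum) (by rw [sum_hook2L_N h1.len]; omega)
  exact ⟨good_of_cover h0 h1.hook2B_N h1.stepN.grp fun c c' => h1.stepN.cover h4 h5,
    _, _, h1.stepN, h4, h5⟩

theorem T0.step (h : T0 μ q) : T0 (hook2L (q + 4) μ) (q + 4) := by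
  obtain ⟨h0, g, p, p', h1, h2, h3, h6, h7⟩ := h
  have h4 := Fam_bdN h2
  have h5 := Fam_pok h3 (n' := (hook2L (q + 4) μ).sum) (by rw [sum_hook2L_N h1.len]; omega)
  refine ⟨good_of_cover h0 h1.hook2B_N h1.stepN.grp fun c c' => h1.stepN.cover h4 h5,
    _, _, _, h1.stepN, h4, h5, Fam_bdX h6, ?_⟩
  rw [show q + 4 + 5 = q + 5 + 4 by omega]
  exact Fam_pok h7 (by rw [sum_hook2L_N h1.len]; omega)

theorem T0.stepX (h : T0 μ q) : T1 (hook2L (q + 5) μ) (q + 5) := by
  obtain ⟨h0, g, p, p', h1, -, -, h6, h7⟩ := h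
  rw [← sum_hook2L_X h1.len] at h7
  exact ⟨good_of_cover h0 h1.hook2B_X h1.stepX.grp fun c c' => h1.stepX.cover h6 h7,
    _, _, h1.stepX, h6, h7⟩

theorem T0.t1 (h : T0 μ q) : T1 μ q := by
  obtain ⟨h0, g, p, _, h1, h2, h3, _⟩ := h
  exact ⟨h0, g, p, h1, h2, h3⟩

theorem T1.len (h : T1 μ q) : μ.length = q := by
  obtain ⟨_, _, _, h1, _⟩ := h
  exact h1.len

theorem t1B_sound {g : GD} {p : Par} (hg : GoodL μ) (h : t1B μ q g p = true) : T1 μ q := by
  simp only [t1B, Bool.and_eq_true] at h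
  exact ⟨hg, g, p, lineB_sound h.1.1, h.1.2, h.2⟩

theorem t0B_sound {g : GD} {p p' : Par} (hg : GoodL μ) (h : t0B μ q g p p' = true) : T0 μ q := by
  simp only [t0B, t1B, Bool.and_eq_true] at h
  exact ⟨hg, g, p, p', lineB_sound h.1.1.1.1, h.1.1.1.2, h.1.1.2, h.1.2, h.2⟩

end Crest.Agent.R195
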