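import Crest.Agent.R195.Check

/-! Row 195: invariants of the infinite families (definitions). -/

set_option autoImplicit false

namespace Crest.Agent.R195

/-- `x + (x-4) + (x-8) + …`. -/
def tri (x : ℕ) : ℕ := ((List.range x).map fun p => x - 4 * p).sum

/-- Strong form of `clOK`, stable under the hook steps. -/
def clLT : List ℕ → List (ℕ × ℕ) → Bool
  | _, [] => true
  | done, p :: C =>
      decide (done.count p.1 < p.2) && (p.1 :: done).all (fun y => Nat.blt p.2 y) &&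
        clLT (p.1 :: done) C

/-- Structural invariant. -/
structure Line (μ : List ℕ) (q : ℕ) (g : GD) : Prop where
  len : μ.length = q
  head : μ.headD 0 = q
  pos : ∀ x ∈ μ, 0 < x
  sorted : μ.Pairwise (· ≥ ·)
  hc : hcB (q + 2) 0 μ = true
  grp : Grp μ g.1 g.2.1 g.2.2
  don : (g.2.2.map Prod.snd).Perm (List.range' 1 g.2.2.length)
  cl : clLT [] g.2.2 = true

/-- Grouping after a normal step. -/
def gN (q : ℕ) (g : GD) : GD :=
  ((q + 4) :: (g.2.2.length + 2) :: g.1.map (· + 2), g.2.1.map (· + 2),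
    g.2.2.map fun p => (p.1 + 2, p.2))

/-- Grouping after an extra step. -/
def gX (q : ℕ) (g : GD) : GD :=
  ((q + 5) :: g.1.map (· + 2), (g.2.2.length + 2) :: g.2.1.map (· + 2),
    (g.2.2.map fun p => (p.1 + 2, p.2 + 1)) ++ [(2, 1)])

/-- Parts not coming from pairs. -/
def loose (g : GD) : List ℕ := g.2.1 ++ g.2.2.map fun p => p.1 + p.2

/-- Numerical parameters `R, i1, w1, E1, E2`. -/
structure Par where
  R : ℕ
  i1 : ℕ
  w1 : ℕ
  E1 : ℕ
  E2 : ℕ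

def Par.shift (p : Par) : Par := ⟨p.R, p.i1 + 2, p.w1 + 2, p.E1, p.E2⟩

def pokB (q n : ℕ) (p : Par) : Bool :=
  decide (4 ≤ p.R ∧ (p.R + 2) * q ≤ n + 2 ∧ p.i1 * (q - 1) + p.E1 ≤ n ∧
    (p.w1 + p.E2) * p.w1 + p.E2 ≤ n ∧ 2 * p.i1 ≤ q ∧ p.R + 1 ≤ q ∧ 4 * p.w1 + 2 * p.E2 ≤ 4 * q + 2)

def bdB (q : ℕ) (g : GD) (p : Par) : Bool :=
  decide (g.2.1.length + 3 * g.2.2.length ≤ p.R + 2 ∧ (∀ x ∈ loose g, x ≤ p.w1) ∧
    (q + 1) / 2 ≤ p.w1 ∧ tri (2 * q - 1 - 4 * p.i1) + exc (loose g) p.i1 ≤ p.E1 ∧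
    tri (2 * q - 5 - 4 * p.i1) + exc (loose g) (p.i1 + 1) ≤ p.E2)

/-- Lines on which only normal steps are allowed. -/
def T1 (μ : List ℕ) (q : ℕ) : Prop :=
  GoodL μ ∧ ∃ g p, Line μ q g ∧ bdB q g p = true ∧ pokB q μ.sum p = true

/-- Lines on which one extra step is still allowed. -/
def T0 (μ : List ℕ) (q : ℕ) : Prop :=
  GoodL μ ∧ ∃ g p p', Line μ q g ∧ bdB q g p = true ∧ pokB q μ.sum p = true ∧
    bdB (q + 5) (gX q g) p' = true ∧ pokB (q + 5) (μ.sum + 4 * q + 14) p' = true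

def lineB (μ : List ℕ) (q : ℕ) (g : GD) : Bool :=
  Nat.beq μ.length q && Nat.beq (μ.headD 0) q && μ.all (fun x => Nat.blt 0 x) && sortedB μ &&
    hcB (q + 2) 0 μ && grpB μ g && (g.2.2.map Prod.snd).isPerm (List.range' 1 g.2.2.length) &&
    clLT [] g.2.2

def t1B (μ : List ℕ) (q : ℕ) (g : GD) (p : Par) : Bool :=
  lineB μ q g && bdB q g p && pokB q μ.sum p

def t0B (μ : List ℕ) (q : ℕ) (g : GD) (p p' : Par) : Bool :=
  t1B μ q g p && bdB (q + 5) (gX q g) p' && pokB (q + 5) (μ.sum + 4 * q + 14) p'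

end Crest.Agent.R195
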