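import Crest.Agent.R195.FamDefs

/-! Row 195: the structural invariant is preserved by the two kinds of steps. -/

set_option autoImplicit false

namespace Crest.Agent.R195

variable {μ : List ℕ} {q : ℕ} {g : GD}

theorem famLine_clLT_cons (done : List ℕ) (p : ℕ × ℕ) (C : List (ℕ × ℕ)) :
    clLT done (p :: C) = true ↔
      done.count p.1 < p.2 ∧ (∀ y ∈ p.1 :: done, p.2 < y) ∧ clLT (p.1 :: done) C = true := by
  simp only [clLT, Bool.and_eq_true, decide_eq_true_eq, List.all_eq_true, Nat.blt_eq, and_assoc]

theorem clOK_of_clLT {done : List ℕ} {C : List (ℕ × ℕ)} (h : clLT done C = true) :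
    clOK done C = true := by
  induction C generalizing done with
  | nil => rfl
  | cons p C ih =>
    obtain ⟨h1, h2, h3⟩ := (famLine_clLT_cons _ _ _).1 h
    simp only [clOK, Bool.and_eq_true, decide_eq_true_eq, Bool.not_eq_true', and_assoc]
    refine ⟨h1, ?_, ih h3⟩
    rw [← Bool.not_eq_true, List.contains_iff_mem]
    exact fun hm => lt_irrefl _ (h2 _ hm)

theorem famLine_count (l : List ℕ) (x : ℕ) : (l.map (· + 2)).count (x + 2) = l.count x :=
  List.count_map_of_injective l (· + 2) (add_left_injective 2) x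

theorem famLine_clLT_N {done : List ℕ} {C : List (ℕ × ℕ)} (h : clLT done C = true) :
    clLT (done.map (· + 2)) (C.map fun p => (p.1 + 2, p.2)) = true := by
  induction C generalizing done with
  | nil => rfl
  | cons p C ih =>
    obtain ⟨h1, h2, h3⟩ := (famLine_clLT_cons _ _ _).1 h
    rw [List.map_cons, famLine_clLT_cons]
    refine ⟨by rw [famLine_count]; exact h1, fun y hy => ?_, ih h3⟩
    obtain ⟨z, hz, rfl⟩ := List.mem_map.1 (show y ∈ (p.1 :: done).map (· + 2) from hy)
    exact (h2 z hz).trans_le (Nat.le_add_right _ _)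

theorem famLine_clLT_X {done : List ℕ} {C : List (ℕ × ℕ)} (h : clLT done C = true)
    (h0 : ∀ y ∈ done, 0 < y) :
    clLT (done.map (· + 2)) ((C.map fun p => (p.1 + 2, p.2 + 1)) ++ [(2, 1)]) = true := by
  induction C generalizing done with
  | nil =>
    rw [List.map_nil, List.nil_append, famLine_clLT_cons]
    refine ⟨?_, fun y hy => ?_, rfl⟩
    · have h1 := famLine_count done 0
      rw [List.count_eq_zero_of_not_mem fun hm => lt_irrefl _ (h0 _ hm)] at h1
      exact h1.trans_lt Nat.one_pos
    · obtain ⟨z, -, rfl⟩ := List.mem_map.1 (show y ∈ (0 :: done).map (· + 2) from hy)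
      exact Nat.lt_add_left z (by norm_num)
  | cons p C ih =>
    obtain ⟨h1, h2, h3⟩ := (famLine_clLT_cons _ _ _).1 h
    rw [List.map_cons, List.cons_append, famLine_clLT_cons]
    refine ⟨by rw [famLine_count]; exact h1.trans (Nat.lt_succ_self _), fun y hy => ?_,
      ih h3 fun y hy => (Nat.zero_le _).trans_lt (h2 y hy)⟩
    obtain ⟨z, hz, rfl⟩ := List.mem_map.1 (show y ∈ (p.1 :: done).map (· + 2) from hy)
    have := h2 z hz
    show p.2 + 1 < z + 2
    omega

theorem hook2L_N (h : μ.length = q) :
    hook2L (q + 4) μ = (q + 4) :: (q + 3) :: (μ.map (· + 2) ++ [2, 1]) := by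
  have h1 : q + 4 - 2 - 1 - q = 1 := by omega
  have h2 : q + 4 - 1 - (q + 1 + 1) = 1 := by omega
  simp only [hook2L, hookL, h, h1, List.length_cons, List.length_append, List.length_map,
    List.replicate_one, List.length_nil, zero_add, h2, List.map_cons, List.map_append,
    List.map_map, List.map_nil, List.cons_append, List.append_assoc, List.nil_append]
  rfl

theorem hook2L_X (h : μ.length = q) :
    hook2L (q + 5) μ = (q + 5) :: (q + 4) :: (μ.map (· + 2) ++ [2, 2, 1]) := by
  have h1 : q + 5 - 2 - 1 - q = 2 := by omega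
  have h2 : q + 5 - 1 - (q + 2 + 1) = 1 := by omega
  simp only [hook2L, hookL, h, h1, List.length_cons, List.length_append, List.length_map,
    List.length_replicate, List.replicate_one, h2, List.map_cons, List.map_append,
    List.map_map, List.cons_append, List.append_assoc]
  rfl

theorem famLine_sum_map (l : List ℕ) : (l.map (· + 2)).sum = l.sum + 2 * l.length := by
  induction l with
  | nil => rfl
  | cons x l ih => simp only [List.map_cons, List.sum_cons, List.length_cons, ih]; omega

theorem sum_hook2L_N (h : μ.length = q) : (hook2L (q + 4) μ).sum = μ.sum + 4 * q + 10 := by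
  rw [hook2L_N h]
  simp only [List.sum_cons, List.sum_append, famLine_sum_map, h, List.sum_nil]
  omega

theorem sum_hook2L_X (h : μ.length = q) : (hook2L (q + 5) μ).sum = μ.sum + 4 * q + 14 := by
  rw [hook2L_X h]
  simp only [List.sum_cons, List.sum_append, famLine_sum_map, h, List.sum_nil]
  omega

theorem famLine_hcB_cons (q t x : ℕ) (l : List ℕ) :
    hcB q t (x :: l) = true ↔ 2 * x + t + 3 ≤ 2 * q ∧ hcB q (t + 1) l = true := by
  simp only [hcB, Bool.and_eq_true, Nat.ble_eq]

theorem famLine_hcB_mono {q q' t : ℕ} {l : List ℕ} (hq : q ≤ q') (h : hcB q t l = true) :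
    hcB q' t l = true := by
  induction l generalizing t with
  | nil => rfl
  | cons x l ih =>
    rw [famLine_hcB_cons] at h ⊢
    exact ⟨by omega, ih h.2⟩

theorem famLine_hcB_map {q q' t : ℕ} {l m : List ℕ} (hq : q + 3 ≤ q') (h : hcB q t l = true)
    (hm : hcB q' (t + 2 + l.length) m = true) : hcB q' (t + 2) (l.map (· + 2) ++ m) = true := by
  induction l generalizing t with
  | nil => exact hm
  | cons x l ih =>
    rw [famLine_hcB_cons] at h
    rw [List.map_cons, List.cons_append, famLine_hcB_cons]
    refine ⟨by omega, ih (t := t + 1) h.2 ?_⟩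
    rwa [show t + 1 + 2 + l.length = t + 2 + (x :: l).length by rw [List.length_cons]; omega]

theorem Line.hook2B_N (h : Line μ q g) : hook2B (q + 4) μ = true := by
  simp only [hook2B, Bool.and_eq_true, Nat.ble_eq, h.len, h.head]
  exact ⟨⟨by omega, by omega⟩, h.hc⟩

theorem Line.hook2B_X (h : Line μ q g) : hook2B (q + 5) μ = true := by
  simp only [hook2B, Bool.and_eq_true, Nat.ble_eq, h.len, h.head]
  exact ⟨⟨by omega, by omega⟩, famLine_hcB_mono (by omega) h.hc⟩

theorem famLine_range_map (k t : ℕ) : (List.range' 1 t).map (· + k) = List.range' (1 + k) t := by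
  rw [add_comm 1 k, ← List.map_add_range']
  exact List.map_congr_left fun x _ => add_comm _ _

theorem famLine_rangeN (t : ℕ) :
    ((List.range' 1 t).map (· + 2) ++ [2, 1]).Perm ((t + 2) :: (t + 1) :: List.range' 1 t) := by
  rw [famLine_range_map]
  have h1 : (List.range' (1 + 2) t ++ [2, 1]).Perm (List.range' 1 (t + 2)) :=
    List.perm_append_comm.trans (List.Perm.swap 1 2 _)
  refine h1.trans ?_
  rw [List.range'_concat, List.range'_concat, List.append_assoc]
  refine List.perm_append_comm.trans ?_
  rw [show 1 + 1 * t = t + 1 by omega, show 1 + 1 * (t + 1) = t + 2 by omega]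
  exact List.Perm.swap _ _ _

theorem famLine_rangeX (t : ℕ) :
    ((List.range' 1 t).map (· + 2) ++ [2]).Perm ((t + 2) :: (List.range' 1 t).map (· + 1)) := by
  rw [famLine_range_map, famLine_range_map]
  have h1 : (List.range' (1 + 2) t ++ [2]).Perm (List.range' 2 (t + 1)) := List.perm_append_comm
  refine h1.trans ?_
  rw [List.range'_concat, show 2 + 1 * t = t + 2 by omega]
  exact List.perm_append_comm

theorem famLine_pred {P : List ℕ} (h : ∀ L ∈ P, 1 ≤ L) :
    (P.map (· + 2)).map (· - 1) = (P.map (· - 1)).map (· + 2) := by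
  rw [List.map_map, List.map_map]
  refine List.map_congr_left fun L hL => ?_
  have := h L hL
  simp only [Function.comp]
  omega

theorem famLine_nodup {F : List ℕ} {a q : ℕ} (hF : F.Nodup) (h1 : ∀ x ∈ F, 0 < x ∧ x ≤ q)
    (ha : q + 3 ≤ a) : ((a + 1) :: a :: (F.map (· + 2) ++ [2, 1])).Nodup := by
  have h2 : ∀ y ∈ F.map (· + 2), 3 ≤ y ∧ y ≤ q + 2 := fun y hy => by
    obtain ⟨x, hx, rfl⟩ := List.mem_map.1 hy
    have := h1 x hx
    constructor <;> omega
  have h3 : ∀ y ∈ F.map (· + 2) ++ [2, 1], y ≤ q + 2 := fun y hy => by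
    rcases List.mem_append.1 hy with hy | hy
    · exact (h2 y hy).2
    · simp only [List.mem_cons, List.not_mem_nil, or_false] at hy
      omega
  refine List.nodup_cons.2 ⟨fun hm => ?_, List.nodup_cons.2 ⟨fun hm => ?_, ?_⟩⟩
  · rcases List.mem_cons.1 hm with hm | hm
    · omega
    · have := h3 _ hm
      omega
  · have := h3 _ hm
    omega
  · refine List.nodup_append.2 ⟨hF.map (add_left_injective 2), by decide, fun x hx y hy => ?_⟩
    have := (h2 x hx).1
    simp only [List.mem_cons, List.not_mem_nil, or_false] at hy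
    omega

theorem famLine_sorted {m : List ℕ} {a : ℕ} (h : Line μ q g) (ha : q + 3 ≤ a)
    (hm : m.Pairwise (· ≥ ·)) (hm2 : ∀ y ∈ m, y ≤ 2) :
    ((a + 1) :: a :: (μ.map (· + 2) ++ m)).Pairwise (· ≥ ·) := by
  have h1 : ∀ y ∈ μ.map (· + 2) ++ m, y ≤ q + 2 := fun y hy => by
    rcases List.mem_append.1 hy with hy | hy
    · obtain ⟨x, hx, rfl⟩ := List.mem_map.1 hy
      have := part_le_headD h.sorted hx
      rw [h.head] at this
      omega
    · have := hm2 y hy
      omega
  refine List.pairwise_cons.2 ⟨fun y hy => ?_, List.pairwise_cons.2 ⟨fun y hy => ?_, ?_⟩⟩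
  · rcases List.mem_cons.1 hy with rfl | hy
    · exact Nat.le_succ _
    · have := h1 y hy
      omega
  · have := h1 y hy
    omega
  · refine List.pairwise_append.2 ⟨List.pairwise_map.2 (h.sorted.imp fun hab => by omega), hm,
      fun x hx y hy => ?_⟩
    obtain ⟨z, -, rfl⟩ := List.mem_map.1 hx
    have := hm2 y hy
    omega

theorem famLine_pos {m : List ℕ} {a : ℕ} (hm : ∀ y ∈ m, 0 < y) :
    ∀ x ∈ (a + 2) :: (a + 1) :: (μ.map (· + 2) ++ m), 0 < x := by
  intro x hx
  simp only [List.mem_cons, List.mem_append, List.mem_map] at hx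
  rcases hx with rfl | rfl | ⟨z, -, rfl⟩ | hx
  · omega
  · omega
  · omega
  · exact hm x hx

theorem famLine_free (h : Line μ q g) :
    ∀ x ∈ g.1 ++ g.1.map (· - 1) ++ g.2.1 ++ g.2.2.map Prod.snd, 0 < x ∧ x ≤ q := by
  intro x hx
  have h1 : x ∈ μ := by
    refine h.grp.perm.mem_iff.2 ?_
    simp only [List.mem_append] at hx ⊢
    tauto
  exact ⟨h.pos x h1, h.head ▸ part_le_headD h.sorted h1⟩

theorem Line.stepN (h : Line μ q g) : Line (hook2L (q + 4) μ) (q + 4) (gN q g) := by
  obtain ⟨P, S, C⟩ := g
  have hD : ((C.map Prod.snd).map (· + 2) ++ [2, 1]).Perm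
      ((C.length + 2) :: (C.length + 1) :: C.map Prod.snd) :=
    ((h.don.map _).append_right _).trans
      ((famLine_rangeN _).trans ((h.don.symm.cons _).cons _))
  have e1 : (C.map fun p => (p.1 + 2, p.2)).map Prod.fst = (C.map Prod.fst).map (· + 2) := by
    rw [List.map_map, List.map_map]; rfl
  have e2 : (C.map fun p => (p.1 + 2, p.2)).map Prod.snd = C.map Prod.snd := by
    rw [List.map_map]; rfl
  have e3 : ((q + 4) :: (C.length + 2) :: P.map (· + 2)).map (· - 1) =
      (q + 3) :: (C.length + 1) :: (P.map (· - 1)).map (· + 2) := by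
    rw [List.map_cons, List.map_cons, famLine_pred h.grp.pos]; rfl
  have hc := List.perm_iff_count.1 hD
  rw [hook2L_N h.len]
  refine ⟨by simp [h.len], rfl, famLine_pos (by decide),
    famLine_sorted h le_rfl (by decide) (by decide), ?_, ⟨?_, ?_, ?_, ?_⟩, ?_, ?_⟩
  · rw [famLine_hcB_cons, famLine_hcB_cons]
    refine ⟨by omega, by omega, famLine_hcB_map (by omega) h.hc ?_⟩
    rw [famLine_hcB_cons, famLine_hcB_cons, h.len]
    exact ⟨by omega, by omega, rfl⟩
  · simp only [gN, e1, e2, e3]
    refine ((((h.grp.perm.map _).append_right _).cons _).cons _).trans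
      (List.perm_iff_count.2 fun a => ?_)
    have := hc a
    simp only [List.map_append, List.count_append, List.count_cons, List.count_nil, add_assoc,
      Nat.reduceAdd] at this ⊢
    omega
  · intro L hL
    simp only [gN, List.mem_cons, List.mem_map] at hL
    rcases hL with rfl | rfl | ⟨z, -, rfl⟩ <;> omega
  · simp only [gN, e2, e3]
    refine (List.Perm.nodup_iff (List.perm_iff_count.2 fun a => ?_)).1
      (famLine_nodup (a := q + 3) h.grp.nodup (famLine_free h) le_rfl)
    have := hc a
    simp only [List.map_append, List.count_append, List.count_cons, List.count_nil, add_assoc,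
      Nat.reduceAdd] at this ⊢
    omega
  · exact clOK_of_clLT (famLine_clLT_N h.cl)
  · simp only [gN, e2, List.length_map]
    exact h.don
  · exact famLine_clLT_N h.cl

theorem Line.stepX (h : Line μ q g) : Line (hook2L (q + 5) μ) (q + 5) (gX q g) := by
  obtain ⟨P, S, C⟩ := g
  have hD : ((C.map Prod.snd).map (· + 2) ++ [2]).Perm
      ((C.length + 2) :: (C.map Prod.snd).map (· + 1)) :=
    ((h.don.map _).append_right _).trans ((famLine_rangeX _).trans ((h.don.symm.map _).cons _))
  have e1 : ((C.map fun p : ℕ × ℕ => (p.1 + 2, p.2 + 1)) ++ [(2, 1)]).map Prod.fst =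
      (C.map Prod.fst).map (· + 2) ++ [2] := by
    rw [List.map_append, List.map_map, List.map_map]; rfl
  have e2 : ((C.map fun p : ℕ × ℕ => (p.1 + 2, p.2 + 1)) ++ [(2, 1)]).map Prod.snd =
      (C.map Prod.snd).map (· + 1) ++ [1] := by
    rw [List.map_append, List.map_map, List.map_map]; rfl
  have e3 : ((q + 5) :: P.map (· + 2)).map (· - 1) = (q + 4) :: (P.map (· - 1)).map (· + 2) := by
    rw [List.map_cons, famLine_pred h.grp.pos]; rfl
  have hc := List.perm_iff_count.1 hD
  have hcl := famLine_clLT_X h.cl (by simp)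
  rw [hook2L_X h.len]
  refine ⟨by simp [h.len], rfl, famLine_pos (by decide),
    famLine_sorted h (Nat.le_succ _) (by decide) (by decide), ?_, ⟨?_, ?_, ?_, ?_⟩, ?_, ?_⟩
  · rw [famLine_hcB_cons, famLine_hcB_cons]
    refine ⟨by omega, by omega, famLine_hcB_map (by omega) h.hc ?_⟩
    rw [famLine_hcB_cons, famLine_hcB_cons, famLine_hcB_cons, h.len]
    exact ⟨by omega, by omega, by omega, rfl⟩
  · simp only [gX, e1, e2, e3]
    refine ((((h.grp.perm.map _).append_right _).cons _).cons _).trans
      (List.perm_iff_count.2 fun a => ?_)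
    have := hc a
    simp only [List.map_append, List.count_append, List.count_cons, List.count_nil, add_assoc,
      Nat.reduceAdd] at this ⊢
    omega
  · intro L hL
    simp only [gX, List.mem_cons, List.mem_map] at hL
    rcases hL with rfl | ⟨z, -, rfl⟩ <;> omega
  · simp only [gX, e2, e3]
    refine (List.Perm.nodup_iff (List.perm_iff_count.2 fun a => ?_)).1
      (famLine_nodup (a := q + 4) h.grp.nodup (famLine_free h) (Nat.le_succ _))
    have := hc a
    simp only [List.map_append, List.count_append, List.count_cons, List.count_nil, add_assoc,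
      Nat.reduceAdd] at this ⊢
    omega
  · exact clOK_of_clLT hcl
  · simp only [gX, e2, List.length_append, List.length_map, List.length_singleton]
    refine ((h.don.map _).append_right _).trans ?_
    rw [famLine_range_map]
    exact List.perm_append_comm
  · exact hcl

theorem lineB_sound (h : lineB μ q g = true) : Line μ q g := by
  simp only [lineB, Bool.and_eq_true, Nat.beq_eq, List.all_eq_true, Nat.blt_eq,
    List.isPerm_iff] at h
  obtain ⟨⟨⟨⟨⟨⟨⟨h1, h2⟩, h3⟩, h4⟩, h5⟩, h6⟩, h7⟩, h8⟩ := h
  exact ⟨h1, h2, h3, sortedB_iff.1 h4, h5, grpB_sound h6, h7, h8⟩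

end Crest.Agent.R195
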