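import Crest.Agent.R195.Eps

/-! Row 195: grids and tableaux. -/

set_option autoImplicit false
open Finset Equiv

namespace Crest.Agent.R195

variable {Ω : Type} [Fintype Ω] [DecidableEq Ω] {μ : ℕ → ℕ} {c r : Ω → ℕ}

omit [Fintype Ω] [DecidableEq Ω] in
theorem IsGrid.exists_equiv {Ω' : Type} {c' r' : Ω' → ℕ} (h : IsGrid μ c r) (h' : IsGrid μ c' r') :
    ∃ e : Ω ≃ Ω', (∀ x, c' (e x) = c x) ∧ ∀ x, r' (e x) = r x := by
  choose f hf1 hf2 using fun x => h'.surj (r x) (c x) (h.mem x)
  refine ⟨Equiv.ofBijective f ⟨fun x y hxy => h.inj x y ?_ ?_, fun y => ?_⟩, hf2, hf1⟩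
  · rw [← hf1, hxy, hf1]
  · rw [← hf2, hxy, hf2]
  · obtain ⟨x, h1, h2⟩ := h.surj (r' y) (c' y) (h'.mem y)
    exact ⟨x, h'.inj _ _ (by rw [hf1, h1]) (by rw [hf2, h2])⟩

omit [Fintype Ω] [DecidableEq Ω] in
theorem IsGrid.comp_equiv {Ω' : Type} (h : IsGrid μ c r) (e : Ω' ≃ Ω) :
    IsGrid μ (c ∘ e) (r ∘ e) := by
  refine ⟨fun x y h1 h2 => e.injective (h.inj _ _ h1 h2), fun x => h.mem _, fun i j hij => ?_⟩
  obtain ⟨x, h1, h2⟩ := h.surj i j hij
  exact ⟨e.symm x, by simpa using h1, by simpa using h2⟩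

omit [Fintype Ω] [DecidableEq Ω] in
theorem IsTab.comp_equiv {Ω' : Type} (h : IsTab μ c r) (e : Ω' ≃ Ω) :
    IsTab μ (c ∘ e) (r ∘ e) :=
  ⟨h.toIsGrid.comp_equiv e, h.anti⟩

omit [DecidableEq Ω] in
theorem Tab_card_row (h : IsGrid μ c r) (i : ℕ) :
    (univ.filter fun x => r x = i).card = μ i := by
  rw [← Finset.card_range (μ i)]
  refine Finset.card_bij (fun x _ => c x) (fun x hx => ?_) (fun x hx y hy hxy => ?_) fun j hj => ?_
  · rw [Finset.mem_range, ← (Finset.mem_filter.1 hx).2]
    exact h.mem x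
  · exact h.inj x y ((Finset.mem_filter.1 hx).2.trans (Finset.mem_filter.1 hy).2.symm) hxy
  · obtain ⟨x, h1, h2⟩ := h.surj i j (Finset.mem_range.1 hj)
    exact ⟨x, by simp [h1], h2⟩

theorem IsGrid.card_row (h : IsGrid μ c r) (i : ℕ) :
    (univ.filter fun x => r x = i).card = μ i := Tab_card_row h i

omit [DecidableEq Ω] in
theorem Tab_card_succ (p : Ω → Prop) [DecidablePred p] (a : Ω → ℕ) (k : ℕ) :
    (univ.filter fun x => p x ∧ a x < k + 1).card =
      (univ.filter fun x => p x ∧ a x < k).card + (univ.filter fun x => p x ∧ a x = k).card := by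
  simp only [Finset.card_filter, ← Finset.sum_add_distrib]
  refine Finset.sum_congr rfl fun x _ => ?_
  by_cases hp : p x
  · simp only [hp, true_and]
    split_ifs <;> omega
  · simp [hp]

omit [DecidableEq Ω] in
theorem Tab_card_lt (a : Ω → ℕ) (ha : ∀ i, (univ.filter fun x => a x = i).card = μ i) (k : ℕ) :
    (univ.filter fun x => a x < k).card = psum μ k := by
  induction k with
  | zero => simp [psum]
  | succ k ih =>
    have := Tab_card_succ (fun _ => True) a k
    simp only [true_and] at this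
    rw [this, ih, ha, psum, psum, Finset.sum_range_succ]

theorem IsGrid.card_row_lt (h : IsGrid μ c r) (k : ℕ) :
    (univ.filter fun x => r x < k).card = psum μ k := Tab_card_lt r h.card_row k

theorem IsTab.isPart (h : IsTab μ c r) : IsPart (Fintype.card Ω) μ := by
  have h0 : μ (Fintype.card Ω) = 0 := by
    by_contra h0
    have h1 := h.toIsGrid.card_row_lt (Fintype.card Ω + 1)
    have h2 := Finset.card_le_univ (univ.filter fun x => r x < Fintype.card Ω + 1)
    have h3 : ∑ i ∈ range (Fintype.card Ω + 1), 1 ≤ psum μ (Fintype.card Ω + 1) :=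
      Finset.sum_le_sum fun i hi => by
        have := h.anti (show i ≤ Fintype.card Ω from Nat.lt_succ_iff.1 (Finset.mem_range.1 hi))
        omega
    simp only [Finset.sum_const, Finset.card_range, smul_eq_mul, mul_one] at h3
    omega
  refine ⟨h.anti, h0, ?_⟩
  rw [← h.toIsGrid.card_row_lt, Finset.filter_true_of_mem, Finset.card_univ]
  intro x _
  by_contra hx
  have := h.anti (not_lt.1 hx)
  have := h.mem x
  omega

theorem exists_tab (h : IsPart (Fintype.card Ω) μ) : ∃ c r : Ω → ℕ, IsTab μ c r := by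
  obtain ⟨h1, h2, h3⟩ := h
  have hc : Fintype.card Ω = Fintype.card (Σ i : Fin (Fintype.card Ω), Fin (μ i)) := by
    rw [Fintype.card_sigma]
    simp only [Fintype.card_fin]
    rw [Fin.sum_univ_eq_sum_range (fun i => μ i)]
    exact h3.symm
  let e := Fintype.equivOfCardEq hc
  have : IsTab μ (fun p : (Σ i : Fin (Fintype.card Ω), Fin (μ i)) => (p.2 : ℕ))
      (fun p => (p.1 : ℕ)) := by
    refine ⟨⟨?_, fun p => p.2.2, fun i j hij => ?_⟩, h1⟩
    · rintro ⟨i, j⟩ ⟨i', j'⟩ hi hj
      obtain rfl : i = i' := Fin.ext hi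
      obtain rfl : j = j' := Fin.ext hj
      rfl
    · have hi : i < Fintype.card Ω := by
        by_contra hi
        have := h1 (not_lt.1 hi)
        omega
      exact ⟨⟨⟨i, hi⟩, ⟨j, hij⟩⟩, rfl, rfl⟩
  exact ⟨_, _, this.comp_equiv e⟩

omit [Fintype Ω] [DecidableEq Ω] in
theorem IsTab.transpose {μ' : ℕ → ℕ} (h : IsTab μ c r) (hc : IsConjP μ μ') : IsTab μ' r c := by
  refine ⟨⟨fun x y h1 h2 => h.inj x y h2 h1, fun x => (hc _ _).1 (h.mem x), fun i j hij => ?_⟩,
    fun i j hij => le_of_forall_lt fun k hk => (hc _ _).1 (hij.trans_lt ((hc _ _).2 hk))⟩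
  obtain ⟨x, h1, h2⟩ := h.surj j i ((hc _ _).2 hij)
  exact ⟨x, h2, h1⟩

theorem Tab_rank {K : Type} [LinearOrder K] (S : Finset K) :
    (∀ x ∈ S, ∀ y ∈ S, (S.filter (· < x)).card = (S.filter (· < y)).card → x = y) ∧
      ∀ t < S.card, ∃ x ∈ S, (S.filter (· < x)).card = t := by
  have hlt : ∀ x ∈ S, ∀ y, x < y → (S.filter (· < x)).card < (S.filter (· < y)).card := by
    intro x hx y hxy
    refine Finset.card_lt_card ⟨fun z hz => ?_, fun hz => ?_⟩
    · rw [Finset.mem_filter] at hz ⊢
      exact ⟨hz.1, hz.2.trans hxy⟩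
    · have := hz (Finset.mem_filter.2 ⟨hx, hxy⟩)
      simp at this
  have hinj : ∀ x ∈ S, ∀ y ∈ S, (S.filter (· < x)).card = (S.filter (· < y)).card → x = y := by
    intro x hx y hy h
    rcases lt_trichotomy x y with h1 | h1 | h1
    · exact absurd h (hlt x hx y h1).ne
    · exact h1
    · exact absurd h (hlt y hy x h1).ne'
  refine ⟨hinj, fun t ht => ?_⟩
  have := Finset.surj_on_of_inj_on_of_card_le (s := S) (t := range S.card)
    (fun x _ => (S.filter (· < x)).card) (fun x hx => Finset.mem_range.2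
      (Finset.card_lt_card ⟨Finset.filter_subset _ _, fun hz => by simpa using hz hx⟩))
    (fun x y hx hy => hinj x hx y hy) (by simp) t (Finset.mem_range.2 ht)
  obtain ⟨x, hx, e⟩ := this
  exact ⟨x, hx, e.symm⟩

/-- Columns with arbitrary labels can be relabelled into a genuine tableau. -/
theorem exists_tab_of_weak (hμ : Antitone μ) (hinj : ∀ x y, r x = r y → c x = c y → x = y)
    (hdown : ∀ x i, i < r x → ∃ y, c y = c x ∧ r y = i)
    (hcnt : ∀ i, (univ.filter fun x => r x = i).card = μ i) :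
    ∃ c' : Ω → ℕ, IsTab μ c' r ∧ ∀ x y, c' x = c' y ↔ c x = c y := by
  obtain ⟨len, hlen⟩ : ∃ len : ℕ → ℕ, ∀ j, len j = (univ.filter fun y => c y = j).card :=
    ⟨_, fun _ => rfl⟩
  have h1 : ∀ x, r x < len (c x) := by
    intro x
    rw [hlen, ← Nat.succ_le_iff, ← Finset.card_range (r x).succ]
    refine Finset.card_le_card_of_surjOn r fun i hi => ?_
    rcases (Nat.lt_succ_iff.1 (Finset.mem_range.1 hi)).lt_or_eq with h | h
    · obtain ⟨y, h2, h3⟩ := hdown x i h
      exact ⟨y, by simp [h2], h3⟩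
    · exact ⟨x, by simp, h.symm⟩
  have h2 : ∀ j i, i < len j → ∃ y, c y = j ∧ r y = i := by
    intro j i hi
    by_contra hne
    have : len j ≤ (range i).card := by
      rw [hlen]
      refine Finset.card_le_card_of_injOn r (fun y hy => ?_) fun x hx y hy hxy => ?_
      · have hy' : c y = j := by simpa using hy
        simp only [Finset.coe_range, Set.mem_Iio]
        by_contra hlt
        rcases (not_lt.1 hlt).lt_or_eq with h | h
        · obtain ⟨z, h3, h4⟩ := hdown y i h
          exact hne ⟨z, h3.trans hy', h4⟩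
        · exact hne ⟨y, hy', h.symm⟩
      · have hx' : c x = j := by simpa using hx
        have hy' : c y = j := by simpa using hy
        exact hinj x y hxy (hx'.trans hy'.symm)
    rw [Finset.card_range] at this
    omega
  let key : ℕ → ℕᵒᵈ ×ₗ ℕ := fun j => toLex (OrderDual.toDual (len j), j)
  have hkey : Function.Injective key := fun i j h => congrArg (fun p => (ofLex p).2) h
  obtain ⟨S, hS⟩ : ∃ S : Finset (ℕᵒᵈ ×ₗ ℕ), S = univ.image fun x => key (c x) := ⟨_, rfl⟩
  have hmem : ∀ x, key (c x) ∈ S := fun x => by rw [hS]; exact Finset.mem_image_of_mem _ (mem_univ x)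
  obtain ⟨hr1, hr2⟩ := Tab_rank S
  have h3 : ∀ i, μ i = (S.filter fun p => i < OrderDual.ofDual (ofLex p).1).card := by
    intro i
    rw [← hcnt]
    refine Finset.card_bij (fun x _ => key (c x)) (fun x hx => ?_) (fun x hx y hy hxy => ?_)
      fun p hp => ?_
    · refine Finset.mem_filter.2 ⟨hmem x, ?_⟩
      rw [← (Finset.mem_filter.1 hx).2]
      exact h1 x
    · exact hinj x y ((Finset.mem_filter.1 hx).2.trans (Finset.mem_filter.1 hy).2.symm) (hkey hxy)
    · obtain ⟨hp1, hp2⟩ := Finset.mem_filter.1 hp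
      rw [hS] at hp1
      obtain ⟨x, -, rfl⟩ := Finset.mem_image.1 hp1
      obtain ⟨y, h4, h5⟩ := h2 (c x) i hp2
      exact ⟨y, by simp [h5], by rw [h4]⟩
  have h4 : ∀ x i, (S.filter (· < key (c x))).card < μ i ↔ i < len (c x) := by
    intro x i
    rw [h3]
    constructor
    · intro h
      by_contra hle
      refine absurd h (not_lt.2 (Finset.card_le_card fun p hp => ?_))
      rw [Finset.mem_filter] at hp ⊢
      exact ⟨hp.1, Prod.Lex.lt_iff.2 (Or.inl ((not_lt.1 hle).trans_lt hp.2))⟩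
    · intro h
      refine Finset.card_lt_card ⟨fun p hp => ?_, fun hz => ?_⟩
      · rw [Finset.mem_filter] at hp ⊢
        refine ⟨hp.1, h.trans_le ?_⟩
        rcases Prod.Lex.lt_iff.1 hp.2 with h' | h'
        · exact le_of_lt h'
        · exact le_of_eq (congrArg OrderDual.ofDual h'.1).symm
      · have := hz (Finset.mem_filter.2 ⟨hmem x, h⟩)
        simp at this
  have h5 : ∀ x y, (S.filter (· < key (c x))).card = (S.filter (· < key (c y))).card ↔ c x = c y :=
    fun x y => ⟨fun h => hkey (hr1 _ (hmem x) _ (hmem y) h), fun h => by rw [h]⟩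
  refine ⟨fun x => (S.filter (· < key (c x))).card, ⟨⟨fun x y hxy h => hinj x y hxy ((h5 x y).1 h),
    fun x => (h4 x _).2 (h1 x), fun i j hij => ?_⟩, hμ⟩, h5⟩
  obtain ⟨p, hp, e⟩ := hr2 j (hij.trans_le (by rw [h3]; exact Finset.card_filter_le _ _))
  rw [hS] at hp
  obtain ⟨x, -, rfl⟩ := Finset.mem_image.1 hp
  obtain ⟨y, h6, h7⟩ := h2 (c x) i ((h4 x i).1 (e ▸ hij))
  exact ⟨y, h7, by simp only [h6]; exact e⟩

omit [DecidableEq Ω] in
theorem Tab_col_le (h : IsTab μ c r) (a : Ω → ℕ)
    (ha : ∀ x y, c x = c y → a x = a y → x = y) (k j : ℕ) :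
    (univ.filter fun x => c x = j ∧ a x < k).card ≤
      (univ.filter fun x => c x = j ∧ r x < k).card := by
  by_cases hj : ∀ x, c x = j → r x < k
  · refine Finset.card_le_card fun x hx => ?_
    rw [Finset.mem_filter] at hx ⊢
    exact ⟨hx.1, hx.2.1, hj x hx.2.1⟩
  · push Not at hj
    obtain ⟨z, hz1, hz2⟩ := hj
    calc _ ≤ (range k).card := by
          refine Finset.card_le_card_of_injOn a (fun x hx => ?_) fun x hx y hy hxy => ?_
          · simp only [coe_filter, mem_univ, true_and, Set.mem_setOf_eq] at hx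
            simpa using hx.2
          · simp only [coe_filter, mem_univ, true_and, Set.mem_setOf_eq] at hx hy
            exact ha x y (hx.1.trans hy.1.symm) hxy
      _ ≤ _ := by
          refine Finset.card_le_card_of_surjOn r fun i hi => ?_
          have hi' : i < k := by simpa using hi
          obtain ⟨y, h1, h2⟩ := h.surj i j ((hz1 ▸ h.mem z).trans_le (h.anti (hi'.le.trans hz2)))
          exact ⟨y, by simp [h1, h2, hi'], h1⟩

omit [DecidableEq Ω] in
theorem Tab_card_cols (c a : Ω → ℕ) (k : ℕ) : (univ.filter fun x => a x < k).card =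
    ∑ j ∈ univ.image c, (univ.filter fun x => c x = j ∧ a x < k).card := by
  rw [Finset.card_eq_sum_card_fiberwise (f := c) (t := univ.image c)
    fun x _ => by simp]
  refine Finset.sum_congr rfl fun j _ => ?_
  rw [Finset.filter_filter]
  simp only [and_comm]

/-- Dominance lemma: a word which is injective on the columns. -/
theorem IsTab.card_lt_le (h : IsTab μ c r) (a : Ω → ℕ)
    (ha : ∀ x y, c x = c y → a x = a y → x = y) (k : ℕ) :
    (univ.filter fun x => a x < k).card ≤ psum μ k := by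
  rw [← h.toIsGrid.card_row_lt, Tab_card_cols c, Tab_card_cols c]
  exact Finset.sum_le_sum fun j _ => Tab_col_le h a ha k j

/-- Von Neumann's lemma: a word of content `μ` injective on the columns is a column
permutation of the row word. -/
theorem IsTab.exists_col_perm (h : IsTab μ c r) (a : Ω → ℕ)
    (ha : ∀ x y, c x = c y → a x = a y → x = y)
    (hcnt : ∀ i, (univ.filter fun x => a x = i).card = μ i) :
    ∃ γ : Perm Ω, (∀ y, c (γ y) = c y) ∧ ∀ y, a (γ y) = r y := by
  have h1 : ∀ k j, (univ.filter fun x => c x = j ∧ a x < k).card =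
      (univ.filter fun x => c x = j ∧ r x < k).card := by
    intro k j
    have e := (Tab_card_lt a hcnt k).trans (h.toIsGrid.card_row_lt k).symm
    rw [Tab_card_cols c, Tab_card_cols c,
      Finset.sum_eq_sum_iff_of_le fun j _ => Tab_col_le h a ha k j] at e
    by_cases hj : j ∈ univ.image c
    · exact e j hj
    · have : ∀ x, c x ≠ j := fun x hx => hj (Finset.mem_image.2 ⟨x, mem_univ x, hx⟩)
      simp [this]
  obtain ⟨e, he⟩ := exists_equiv_of_card_fiber (fun x => (c x, r x)) (fun x => (c x, a x)) (by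
    rintro ⟨j, i⟩
    have e1 := Tab_card_succ (fun x => c x = j) a i
    have e2 := Tab_card_succ (fun x => c x = j) r i
    rw [h1, h1] at e1
    simp only [Prod.mk.injEq]
    omega)
  exact ⟨e, fun y => congrArg Prod.fst (he y), fun y => congrArg Prod.snd (he y)⟩

/-- Two tableaux of the same shape with the same column partition have the same polytabloid up
to a global sign. -/
theorem IsTab.eps_same_cols {c' r' : Ω → ℕ} (h : IsTab μ c r) (h' : IsTab μ c' r')
    (hc : ∀ x y, c' x = c' y ↔ c x = c y) :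
    ∃ s : ℤ, (s = 1 ∨ s = -1) ∧ ∀ a, eps c' r' a = s * eps c r a := by
  obtain ⟨γ, h1, h2⟩ := h.exists_col_perm r' (fun x y hx hr => h'.inj x y hr ((hc x y).2 hx))
    h'.toIsGrid.card_row
  refine ⟨((Perm.sign γ : ℤˣ) : ℤ), ?_, fun a => ?_⟩
  · rcases Int.units_eq_one_or (Perm.sign γ) with h | h <;> simp [h]
  · have e1 : eps c' r' a = eps c r' a := eps_congr fun x y => by rw [hc]
    have e2 := eps_row_comp_col c r' a γ h1
    rw [show r' ∘ γ = r from funext h2] at e2
    rw [e1, e2, ← mul_assoc, ← Units.val_mul, Int.units_mul_self, Units.val_one, one_mul]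

end Crest.Agent.R195
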