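import Crest.Prelude.Def_SpechtModule
import Crest.Agent.R195.Tab
import Crest.Agent.R195.Part

/-! Row 195: dictionary between the Specht module of the statements and `eps`. -/

set_option autoImplicit false
open Finset Equiv
open Crest.AlgebraR.Specht

namespace Crest.Agent.R195

namespace Fin_

variable {D : Finset (ℕ × ℕ)}

/-- column function of a tableau -/
def colOf (t : D ≃ Fin D.card) : Fin D.card → ℕ := fun i => (t.symm i).1.2

/-- row function of a tableau -/
def rowOf (t : D ≃ Fin D.card) : Fin D.card → ℕ := fun i => (t.symm i).1.1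

/-- A function as a row word. -/
def toW {n : ℕ} (a : Fin n → ℕ) : RowWord n := a

/-- A row word as a function. -/
def ofW {n : ℕ} (a : RowWord n) : Fin n → ℕ := a

theorem smul_eq_iff {n : ℕ} (σ : Perm (Fin n)) (r a : RowWord n) :
    σ • r = a ↔ ∀ y, ofW a (σ y) = ofW r y := by
  constructor
  · rintro rfl y
    show r (σ.symm (σ y)) = r y
    rw [Equiv.symm_apply_apply]
  · intro h
    funext i
    show r (σ.symm i) = a i
    have := h (σ.symm i)
    rw [Equiv.apply_symm_apply] at this
    exact this.symm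

theorem poly_apply (t : D ≃ Fin D.card) (a : RowWord D.card) :
    polytabloid t a = (eps (colOf t) (rowOf t) (ofW a) : ℂ) := by
  classical
  rw [eps_eq_sum, polytabloid, Finsupp.finsetSum_apply, columnGroup, Finset.sum_filter]
  push_cast
  refine Finset.sum_congr rfl fun σ _ => ?_
  rw [Pi.smul_apply, Finsupp.single_apply]
  by_cases h1 : ∀ i, (t.symm (σ i)).1.2 = (t.symm i).1.2
  · by_cases h2 : σ • rowWord t = a
    · rw [if_pos h1, if_pos h2, if_pos]
      · simp
      · intro y
        exact ⟨h1 y, (smul_eq_iff σ _ a).1 h2 y⟩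
    · rw [if_pos h1, if_neg h2, if_neg]
      · simp
      · intro h
        exact h2 ((smul_eq_iff σ _ a).2 fun y => (h y).2)
  · rw [if_neg h1, if_neg]
    intro h
    exact h1 fun y => (h y).1

theorem rep_apply {n : ℕ} (h : Perm (Fin n)) (e : RowWord n →₀ ℂ) (a : RowWord n) :
    rowWordRep n h e a = e (toW (ofW a ∘ h)) := by
  have h1 : a = h • toW (ofW a ∘ h) := ((smul_eq_iff h _ a).2 fun y => rfl).symm
  show Finsupp.mapDomain (h • ·) e a = _
  conv_lhs => rw [h1]
  exact Finsupp.mapDomain_apply (MulAction.injective h) e _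

theorem rep_poly (h : Perm (Fin D.card)) (t : D ≃ Fin D.card) :
    rowWordRep D.card h (polytabloid t) = polytabloid (t.trans h) := by
  ext a
  rw [rep_apply, poly_apply, poly_apply, ← eps_comp_equiv _ _ (ofW a) h]
  congr 2
  · funext i
    simp [colOf]
  · funext i
    simp [rowOf]

theorem specht_eq_span (D : Finset (ℕ × ℕ)) : (spechtSubrep D).toSubmodule =
    Submodule.span ℂ (Set.range fun t : D ≃ Fin D.card => polytabloid t) := by
  apply le_antisymm
  · apply sInf_le
    refine ⟨Submodule.subset_span, fun g v hv => ?_⟩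
    have : Submodule.span ℂ (Set.range fun t : D ≃ Fin D.card => polytabloid t) ≤
        (Submodule.span ℂ (Set.range fun t : D ≃ Fin D.card => polytabloid t)).comap
          (rowWordRep D.card g) := by
      rw [Submodule.span_le]
      rintro _ ⟨t, rfl⟩
      show rowWordRep D.card g (polytabloid t) ∈ Submodule.span ℂ _
      rw [rep_poly]
      exact Submodule.subset_span ⟨_, rfl⟩
    exact this hv
  · rw [Submodule.span_le]
    intro x hx
    exact Submodule.mem_sInf.2 fun p hp => hp.1 hx

theorem poly_mem (t : D ≃ Fin D.card) : polytabloid t ∈ (spechtSubrep D).toSubmodule := by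
  rw [specht_eq_span]
  exact Submodule.subset_span ⟨t, rfl⟩

theorem isTab_of {μ : ℕ → ℕ} (h : Antitone μ) (hD : ∀ i j, (i, j) ∈ D ↔ j < μ i)
    (t : D ≃ Fin D.card) : IsTab μ (colOf t) (rowOf t) where
  inj x y hr hc := t.symm.injective (Subtype.ext (Prod.ext hr hc))
  mem x := (hD _ _).1 (t.symm x).2
  surj i j hij := ⟨t ⟨(i, j), (hD i j).2 hij⟩, by simp [rowOf], by simp [colOf]⟩
  anti := h

theorem exists_t {μ : ℕ → ℕ} (hD : ∀ i j, (i, j) ∈ D ↔ j < μ i)
    {c r : Fin D.card → ℕ} (h : IsTab μ c r) :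
    ∃ t : D ≃ Fin D.card, colOf t = c ∧ rowOf t = r := by
  let f : Fin D.card → D := fun x => ⟨(r x, c x), (hD _ _).2 (h.mem x)⟩
  have hf : Function.Bijective f := by
    constructor
    · intro x y hxy
      have := congrArg Subtype.val hxy
      simp only [f, Prod.mk.injEq] at this
      exact h.inj x y this.1 this.2
    · rintro ⟨⟨i, j⟩, hij⟩
      obtain ⟨x, h1, h2⟩ := h.surj i j ((hD i j).1 hij)
      exact ⟨x, Subtype.ext (Prod.ext h1 h2)⟩
  exact ⟨(Equiv.ofBijective f hf).symm, rfl, rfl⟩

theorem card_eq {n : ℕ} {μ : ℕ → ℕ} (h : IsPart n μ) (hD : ∀ i j, (i, j) ∈ D ↔ j < μ i) :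
    n = D.card := by
  have := (isTab_of h.1 hD D.equivFin).isPart
  rw [Fintype.card_fin] at this
  exact h.unique this

/-- The key identity behind James' submodule theorem. -/
theorem eps_key {Ω : Type} [Fintype Ω] [DecidableEq Ω] {μ : ℕ → ℕ} {c r : Ω → ℕ}
    (h : IsTab μ c r) (a b : Ω → ℕ)
    (hcnt : ∀ i, (univ.filter fun x => a x = i).card = μ i) :
    eps c a b = eps c r a * eps c r b := by
  by_cases ha : ∀ x y, c x = c y → a x = a y → x = y
  · obtain ⟨γ, hγ, hγa⟩ := h.exists_col_perm a ha hcnt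
    have h1 : eps c r a = ((Perm.sign γ : ℤˣ) : ℤ) := eps_of_perm h.inj γ hγ hγa
    have h2 : r = a ∘ γ := funext fun y => (hγa y).symm
    have h3 : eps c r b = ((Perm.sign γ : ℤˣ) : ℤ) * eps c a b := by
      conv_lhs => rw [h2]
      exact eps_row_comp_col c a b γ hγ
    rw [h1, h3, ← mul_assoc, ← Units.val_mul, Int.units_mul_self, Units.val_one, one_mul]
  · push Not at ha
    obtain ⟨x, y, hc, hxy, hne⟩ := ha
    rw [eps_eq_zero_of_same hne hc hxy, zero_mul]
    have h1 : a ∘ (swap x y) = a := by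
      funext z
      simp only [Function.comp_apply, Equiv.swap_apply_def]
      split_ifs with h1 h2
      · rw [h1, hxy]
      · rw [h2, hxy]
      · rfl
    have h2 := eps_row_comp_col c a b (swap x y) (by
      intro z
      simp only [Equiv.swap_apply_def]
      split_ifs with h1 h2
      · rw [h1, hc]
      · rw [h2, hc]
      · rfl)
    rw [h1, Perm.sign_swap hne] at h2
    simp only [Units.val_neg, Units.val_one, neg_mul, one_mul] at h2
    omega

/-- The finite set of all row words of tableaux of shape `D`. -/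
noncomputable def words (D : Finset (ℕ × ℕ)) : Finset (RowWord D.card) := by
  classical
  exact (univ : Finset (D ≃ Fin D.card)).image fun t => toW (rowOf t)

theorem mem_words {a : RowWord D.card} : a ∈ words D ↔ ∃ t : D ≃ Fin D.card, rowOf t = ofW a := by
  classical
  unfold words
  simp only [Finset.mem_image, Finset.mem_univ, true_and]
  rfl

theorem apply_eq_zero {x : RowWord D.card →₀ ℂ} (hx : x ∈ (spechtSubrep D).toSubmodule)
    {a : RowWord D.card} (ha : a ∉ words D) : x a = 0 := by
  rw [specht_eq_span] at hx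
  have : Submodule.span ℂ (Set.range fun t : D ≃ Fin D.card => polytabloid t) ≤
      LinearMap.ker (Finsupp.lapply a : (RowWord D.card →₀ ℂ) →ₗ[ℂ] ℂ) := by
    rw [Submodule.span_le]
    rintro _ ⟨t, rfl⟩
    show polytabloid t a = 0
    rw [poly_apply]
    by_contra hne
    have hne' : eps (colOf t) (rowOf t) (ofW a) ≠ 0 := fun h => hne (by rw [h]; simp)
    obtain ⟨γ, -, hγ⟩ := exists_of_eps_ne hne'
    apply ha
    rw [mem_words]
    refine ⟨t.trans γ, funext fun i => ?_⟩
    have := hγ (γ.symm i)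
    rw [Equiv.apply_symm_apply] at this
    rw [this]
    rfl
  exact this hx

theorem exists_pair_ne {u : RowWord D.card →₀ ℂ} (hu : u ∈ (spechtSubrep D).toSubmodule)
    (h0 : u ≠ 0) : ∃ t : D ≃ Fin D.card, ∑ a ∈ words D, u a * polytabloid t a ≠ 0 := by
  by_contra hcon
  push Not at hcon
  let ψ : (RowWord D.card →₀ ℂ) →ₗ[ℂ] ℂ :=
    ∑ a ∈ words D, (starRingEnd ℂ (u a)) • (Finsupp.lapply a : (RowWord D.card →₀ ℂ) →ₗ[ℂ] ℂ)
  have hψ : ∀ x, ψ x = ∑ a ∈ words D, starRingEnd ℂ (u a) * x a := by
    intro x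
    simp [ψ, LinearMap.sum_apply]
  have h1 : Submodule.span ℂ (Set.range fun t : D ≃ Fin D.card => polytabloid t) ≤
      LinearMap.ker ψ := by
    rw [Submodule.span_le]
    rintro _ ⟨t, rfl⟩
    show ψ (polytabloid t) = 0
    rw [hψ]
    have := congrArg (starRingEnd ℂ) (hcon t)
    rw [map_sum, map_zero] at this
    rw [← this]
    refine Finset.sum_congr rfl fun a _ => ?_
    rw [map_mul, poly_apply, map_intCast]
  have h2 : ψ u = 0 := h1 (by rw [← specht_eq_span]; exact hu)
  rw [hψ] at h2
  have h3 : ∑ a ∈ words D, Complex.normSq (u a) = 0 := by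
    have : ((∑ a ∈ words D, Complex.normSq (u a) : ℝ) : ℂ) = 0 := by
      rw [← h2]
      push_cast
      refine Finset.sum_congr rfl fun a _ => ?_
      rw [Complex.normSq_eq_conj_mul_self]
    exact_mod_cast this
  rw [Finset.sum_eq_zero_iff_of_nonneg fun a _ => Complex.normSq_nonneg _] at h3
  apply h0
  ext a
  by_cases ha : a ∈ words D
  · simpa using h3 a ha
  · simpa using apply_eq_zero hu ha

theorem kappa_eq {μ : ℕ → ℕ} (h : Antitone μ) (hD : ∀ i j, (i, j) ∈ D ↔ j < μ i)
    (t : D ≃ Fin D.card) {x : RowWord D.card →₀ ℂ} (hx : x ∈ (spechtSubrep D).toSubmodule) :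
    ∑ γ ∈ columnGroup t, (((Perm.sign γ : ℤˣ) : ℤ) : ℂ) • rowWordRep D.card γ x =
      (∑ a ∈ words D, x a * polytabloid t a) • polytabloid t := by
  classical
  ext b
  rw [Finsupp.finsetSum_apply, Finsupp.smul_apply, smul_eq_mul, Finset.sum_mul]
  have h1 : ∀ a ∈ words D, x a * polytabloid t a * polytabloid t b =
      ∑ γ ∈ columnGroup t, if toW (ofW b ∘ γ) = a then (((Perm.sign γ : ℤˣ) : ℤ) : ℂ) * x a
        else 0 := by
    intro a ha
    obtain ⟨t', ht'⟩ := mem_words.1 ha
    have hcnt : ∀ i, (univ.filter fun y => ofW a y = i).card = μ i := by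
      intro i
      rw [← ht']
      exact (isTab_of h hD t').toIsGrid.card_row i
    rw [poly_apply, poly_apply, mul_assoc, ← Int.cast_mul,
      ← eps_key (isTab_of h hD t) (ofW a) (ofW b) hcnt, eps_eq_sum, columnGroup,
      Finset.sum_filter]
    push_cast
    rw [Finset.mul_sum]
    refine Finset.sum_congr rfl fun γ _ => ?_
    by_cases h1 : ∀ i, (t.symm (γ i)).1.2 = (t.symm i).1.2
    · by_cases h2 : toW (ofW b ∘ γ) = a
      · rw [if_pos h1, if_pos h2, if_pos, mul_comm]
        intro y
        exact ⟨h1 y, by rw [← h2]; rfl⟩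
      · rw [if_pos h1, if_neg h2, if_neg, mul_zero]
        intro hh
        exact h2 (funext fun y => (hh y).2)
    · rw [if_neg h1, if_neg, mul_zero]
      intro hh
      exact h1 fun y => (hh y).1
  rw [Finset.sum_congr rfl h1, Finset.sum_comm]
  refine Finset.sum_congr rfl fun γ _ => ?_
  rw [Finsupp.smul_apply, rep_apply, Finset.sum_ite_eq, smul_eq_mul]
  split_ifs with hm
  · rfl
  · rw [apply_eq_zero hx hm, mul_zero]

/-- Averaging a rank one map gives an intertwining map. -/
theorem exists_avg {G V W : Type} [Group G] [Fintype G] [AddCommMonoid V] [Module ℂ V]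
    [AddCommMonoid W] [Module ℂ W] (σ : Representation ℂ G W) (τ : Representation ℂ G V)
    (ξ : W →ₗ[ℂ] ℂ) (v : V) :
    ∃ Θ : Representation.IntertwiningMap σ τ, ∀ w, Θ w = ∑ h : G, ξ (σ h⁻¹ w) • τ h v := by
  let f : W →ₗ[ℂ] V := ∑ h : G, (ξ ∘ₗ σ h⁻¹).smulRight (τ h v)
  have hf : ∀ w, f w = ∑ h : G, ξ (σ h⁻¹ w) • τ h v := by
    intro w
    simp [f, LinearMap.sum_apply]
  refine ⟨f.intertwiningMap_of_isIntertwiningMap σ τ fun g w => ?_, hf⟩
  rw [hf, hf, map_sum]
  symm
  refine Fintype.sum_equiv (Equiv.mulLeft g) _ _ fun h => ?_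
  rw [map_smul]
  simp only [Equiv.coe_mulLeft, mul_inv_rev, map_mul, Module.End.mul_apply]
  congr 3
  rw [← Module.End.mul_apply, ← map_mul, inv_mul_cancel, map_one, Module.End.one_apply]

end Fin_

end Crest.Agent.R195
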