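import Crest.Agent.R195.Kron

/-! Row 195: Young symmetrizer facts (key lemma), inversion, linking, conjugation. -/

set_option autoImplicit false
open Finset Equiv

namespace Crest.Agent.R195

section conv
variable {G : Type} [Group G] [Fintype G]

/-- Convolution of functions on a finite group. -/
noncomputable def keyConv (f k : G → ℝ) : G → ℝ := fun σ => ∑ τ, f τ * k (τ⁻¹ * σ)

/-- The involution. -/
def keySt (f : G → ℝ) : G → ℝ := fun σ => f σ⁻¹

theorem keyConv_eq (f k : G → ℝ) (σ : G) : keyConv f k σ = ∑ τ, f (σ * τ⁻¹) * k τ := by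
  unfold keyConv
  refine Fintype.sum_equiv ((Equiv.inv G).trans (Equiv.mulRight σ)) _ _ fun τ => ?_
  simp

theorem keyConv_assoc (f k l : G → ℝ) : keyConv (keyConv f k) l = keyConv f (keyConv k l) := by
  funext σ
  simp only [keyConv, sum_mul, mul_sum]
  rw [sum_comm]
  refine sum_congr rfl fun τ _ => ?_
  refine Fintype.sum_equiv (Equiv.mulLeft τ⁻¹) _ _ fun ρ => ?_
  simp [mul_assoc]

theorem keySt_conv (f k : G → ℝ) : keySt (keyConv f k) = keyConv (keySt k) (keySt f) := by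
  funext σ
  rw [keySt, keyConv_eq]
  unfold keyConv keySt
  refine Fintype.sum_equiv (Equiv.inv G) _ _ fun τ => ?_
  simp [mul_comm]

omit [Fintype G] in
theorem keySt_st (f : G → ℝ) : keySt (keySt f) = f := by
  funext σ; simp [keySt]

theorem keyConv_zero (f : G → ℝ) : keyConv f 0 = 0 := by
  funext σ; simp [keyConv]

theorem keySmul_conv (t : ℝ) (f k : G → ℝ) : keyConv (t • f) k = t • keyConv f k := by
  funext σ; simp [keyConv, mul_sum, mul_assoc]

theorem key_eq_zero {u : G → ℝ} (h : keyConv (keySt u) u = 0) : u = 0 := by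
  have h1 := congrFun h 1
  simp only [keyConv, keySt, mul_one, Pi.zero_apply] at h1
  rw [sum_eq_zero_iff_of_nonneg fun τ _ => mul_self_nonneg _] at h1
  funext σ
  have := h1 σ⁻¹ (mem_univ _)
  simpa using this

/-- `F A x = 0`. -/
def keyOrth (F x : G → ℝ) : Prop := ∀ B, keyConv F (keyConv B x) = 0

theorem keyOrth.st_left {F x : G → ℝ} (h : keyOrth F x) : keyOrth (keySt F) x := fun B => by
  apply key_eq_zero
  have h1 := h (keyConv (keySt F) B)
  rw [keyConv_assoc] at h1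
  rw [keySt_conv, keySt_st, keyConv_assoc, h1, keyConv_zero]

theorem keyOrth.st {F x : G → ℝ} (h : keyOrth F x) : keyOrth (keySt x) (keySt F) := fun B => by
  have h1 := congrArg keySt (h (keySt B))
  rw [keySt_conv, keySt_conv, keySt_st, keyConv_assoc] at h1
  rw [h1]; rfl

theorem keyOrth.symm {F x : G → ℝ} (h : keyOrth F x) : keyOrth x F := by
  have h1 := h.st_left.st.st_left
  rwa [keySt_st, keySt_st] at h1

theorem keyOrth_iff [DecidableEq G] {F x : G → ℝ} :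
    keyOrth (keySt F) x ↔ ∀ g h : G, ∑ σ, F σ * x (g * σ * h) = 0 := by
  have e : ∀ B ρ, keyConv (keySt F) (keyConv B x) ρ =
      ∑ β, B β * ∑ σ, F σ * x (β⁻¹ * σ * ρ) := fun B ρ => by
    simp only [keyConv, keySt, mul_sum]
    rw [sum_comm]
    refine sum_congr rfl fun β _ => ?_
    refine Fintype.sum_equiv (Equiv.inv G) _ _ fun τ => ?_
    simp only [Equiv.inv_apply, mul_assoc]
    ring
  constructor
  · intro H g h
    have h1 := congrFun (H (Pi.single g⁻¹ 1)) h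
    rw [e, sum_eq_single g⁻¹] at h1
    · simpa using h1
    · intro b _ hb; simp [Pi.single_eq_of_ne hb]
    · simp
  · intro H B
    funext ρ
    rw [e]
    simp [H]

/-- If `y A y ⊆ ℝ y` then the ideal generated by `y` is prime. -/
theorem key_prime {F f y : G → ℝ} (hy : ∀ B, ∃ t : ℝ, keyConv y (keyConv B y) = t • y)
    (hF : ¬ keyOrth F y) (hf : ¬ keyOrth y f) : ¬ keyOrth F f := by
  intro H
  simp only [keyOrth, not_forall] at hF hf
  obtain ⟨B1, h1⟩ := hF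
  obtain ⟨B2, h2⟩ := hf
  have h3 : ¬ keyOrth y (keyConv F (keyConv B1 y)) := fun h => by
    refine h1 (key_eq_zero ?_)
    have := h.st_left (keyConv (keySt B1) (keySt F))
    rw [keySt_conv, keySt_conv, keyConv_assoc, keyConv_assoc]
    rwa [keyConv_assoc] at this
  simp only [keyOrth, not_forall] at h3
  obtain ⟨B, h3⟩ := h3
  obtain ⟨t, ht⟩ := hy (keyConv B (keyConv F B1))
  rw [keyConv_assoc, keyConv_assoc] at ht
  have ht0 : t ≠ 0 := by
    rintro rfl
    exact h3 (by rw [ht, zero_smul])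
  have h4 := congrArg (fun z => keyConv z (keyConv B2 f)) ht
  have h5 := H (keyConv B1 (keyConv y B2))
  simp only [keyConv_assoc] at h4 h5
  rw [h5, keyConv_zero, keyConv_zero, keySmul_conv] at h4
  exact h2 ((smul_eq_zero.1 h4.symm).resolve_left ht0)

end conv

variable {Ω : Type} [Fintype Ω] [DecidableEq Ω] {μ ν κ : ℕ → ℕ}

/-- Coefficient function of the Young symmetriser. -/
noncomputable def keyPsi (c r : Ω → ℕ) : Perm Ω → ℝ := fun σ => (eps c r (r ∘ σ) : ℝ)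

theorem key_sees_iff {c r : Ω → ℕ} (hT : IsTab μ c r) {F : Perm Ω → ℝ} :
    Sees μ F ↔ ∃ g h : Perm Ω, ∑ σ, F σ * keyPsi c r (g * σ * h) ≠ 0 := by
  constructor
  · rintro ⟨c', r', a', hT', hs⟩
    obtain ⟨e, hc, hr⟩ := hT.toIsGrid.exists_equiv hT'.toIsGrid
    have he : ∀ σ : Perm Ω, eps c' r' (a' ∘ σ) = eps c r (a' ∘ σ ∘ e) := fun σ => by
      rw [← eps_comp_equiv c' r' (a' ∘ σ) e]
      congr 1
      · exact funext hc
      · exact funext hr
    obtain ⟨σ0, -, h0⟩ := exists_ne_zero_of_sum_ne_zero hs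
    have h0' : eps c r (a' ∘ σ0 ∘ e) ≠ 0 := by
      rw [← he]
      intro h
      exact h0 (by rw [h]; simp)
    obtain ⟨γ, -, hγ⟩ := exists_of_eps_ne h0'
    refine ⟨(σ0 * e * γ)⁻¹, e, ?_⟩
    convert hs using 3 with σ
    rw [he, keyPsi]
    congr 2
    funext x
    simp only [Function.comp_apply]
    rw [← hγ]
    simp
  · rintro ⟨g, h, hs⟩
    refine ⟨c ∘ ⇑h⁻¹, r ∘ ⇑h⁻¹, r ∘ g, hT.comp_equiv h⁻¹, ?_⟩
    convert hs using 3 with σ
    rw [keyPsi, ← eps_comp_equiv _ _ _ h]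
    congr 2
    · funext x; simp
    · funext x; simp

theorem key_sees_iff' {c r : Ω → ℕ} (hT : IsTab μ c r) {F : Perm Ω → ℝ} :
    Sees μ F ↔ ¬ keyOrth (keySt F) (keyPsi c r) := by
  rw [key_sees_iff hT, keyOrth_iff]
  push Not
  rfl

/-- The key lemma: a function which is `R`-invariant on the left and `C`-alternating on the right
is a multiple of the Young symmetriser. -/
theorem key_lemma {c r : Ω → ℕ} (hT : IsTab μ c r) {w : Perm Ω → ℝ}
    (hR : ∀ ρ : Perm Ω, (∀ x, r (ρ x) = r x) → ∀ σ, w (ρ * σ) = w σ)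
    (hC : ∀ γ : Perm Ω, (∀ x, c (γ x) = c x) → ∀ σ,
      w (σ * γ) = (((Perm.sign γ : ℤˣ) : ℤ) : ℝ) * w σ) :
    w = w 1 • keyPsi c r := by
  funext σ
  simp only [Pi.smul_apply, smul_eq_mul, keyPsi]
  by_cases hinj : ∀ x y, c x = c y → (r ∘ σ) x = (r ∘ σ) y → x = y
  · obtain ⟨γ, hc, hr⟩ := hT.exists_col_perm (r ∘ σ) hinj fun i => by
      rw [← hT.toIsGrid.card_row i]
      exact card_equiv σ (by simp)
    rw [eps_of_perm hT.inj γ hc hr]
    have h1 := hR (σ * γ) hr 1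
    rw [mul_one, hC γ hc] at h1
    rw [← h1]
    rcases Int.units_eq_one_or (Perm.sign γ) with h | h <;> simp [h]
  · push Not at hinj
    obtain ⟨x, y, hc, hr, hxy⟩ := hinj
    rw [eps_eq_zero_of_same hxy hc hr]
    have h1 := hC (swap x y) (fun z => by
      rw [swap_apply_def]; split_ifs with h h' <;> simp [*]) σ
    have h2 := hR (swap (σ x) (σ y)) (fun z => by
      have hr' : r (σ x) = r (σ y) := hr
      rw [swap_apply_def]; split_ifs with h h' <;> simp [*]) σ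
    rw [← mul_swap_eq_swap_mul, h1, Perm.sign_swap hxy] at h2
    simp only [Units.val_neg, Units.val_one, Int.cast_neg, Int.cast_one] at h2
    simp only [Int.cast_zero, mul_zero]
    linarith

theorem key_psi_conv {c r : Ω → ℕ} (hT : IsTab μ c r) (B : Perm Ω → ℝ) :
    ∃ t : ℝ, keyConv (keyPsi c r) (keyConv B (keyPsi c r)) = t • keyPsi c r := by
  refine ⟨_, key_lemma hT (fun ρ hρ σ => ?_) fun γ hγ σ => ?_⟩
  · rw [keyConv_eq, keyConv_eq]
    refine sum_congr rfl fun τ _ => ?_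
    congr 1
    simp only [keyPsi]
    congr 2
    funext x
    simp [hρ]
  · rw [← keyConv_assoc]
    simp only [keyConv, mul_sum]
    refine sum_congr rfl fun τ _ => ?_
    have : keyPsi c r (τ⁻¹ * (σ * γ)) =
        (((Perm.sign γ : ℤˣ) : ℤ) : ℝ) * keyPsi c r (τ⁻¹ * σ) := by
      simp only [keyPsi]
      rw [← Int.cast_mul, ← eps_comp_col c r _ γ hγ]
      rfl
    rw [this]
    ring

theorem Sees.inv {F : Perm Ω → ℝ} (h : Sees μ F) : Sees μ fun σ => F σ⁻¹ := by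
  obtain ⟨c, r, -, hT, -⟩ := id h
  rw [key_sees_iff' hT] at h ⊢
  intro H
  have H' : keyOrth (keySt (keySt F)) (keyPsi c r) := H
  rw [keySt_st] at H'
  exact h H'.st_left

/-- Two functions seeing the same block have non-orthogonal translates. -/
theorem link {F f : Perm Ω → ℝ} (hF : Sees μ F) (hf : Sees μ f) :
    ∃ g h : Perm Ω, ∑ σ : Perm Ω, F (g * σ) * f (σ * h) ≠ 0 := by
  obtain ⟨c, r, -, hT, -⟩ := id hF
  rw [key_sees_iff' hT] at hF hf
  have h := key_prime (key_psi_conv hT) hF (f := f) fun H => hf H.symm.st_left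
  rw [keyOrth_iff] at h
  push Not at h
  obtain ⟨g, h, hs⟩ := h
  refine ⟨g⁻¹, h, ?_⟩
  convert hs using 1
  refine Fintype.sum_equiv (Equiv.mulLeft g⁻¹) _ _ fun σ => ?_
  simp

theorem key_eps_transpose (c r : Ω → ℕ) (τ : Perm Ω) :
    eps r c (c ∘ τ) = ((Perm.sign τ : ℤˣ) : ℤ) * eps c r (r ∘ ⇑τ⁻¹) := by
  unfold eps
  rw [← Int.cast_id (n := ((Perm.sign τ : ℤˣ) : ℤ)), ← Matrix.det_permute]
  congr 1
  ext x y
  simp [and_comm]

theorem key_sees_conj {μ' : ℕ → ℕ} (hμ : IsConjP μ μ') {F : Perm Ω → ℝ} (h : Sees μ F) :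
    Sees μ' fun σ => (((Perm.sign σ : ℤˣ) : ℤ) : ℝ) * F σ := by
  obtain ⟨c, r, -, hT, -⟩ := id h
  obtain ⟨g, k, hs⟩ := (key_sees_iff hT).1 h.inv
  refine (key_sees_iff (hT.transpose hμ)).2 ⟨k⁻¹, g⁻¹, fun h0 => hs ?_⟩
  have e : ∑ σ : Perm Ω, (((Perm.sign σ : ℤˣ) : ℤ) : ℝ) * F σ * keyPsi r c (k⁻¹ * σ * g⁻¹) =
      (((Perm.sign k * Perm.sign g : ℤˣ) : ℤ) : ℝ) *
        ∑ σ : Perm Ω, F σ⁻¹ * keyPsi c r (g * σ * k) := by
    rw [mul_sum]
    refine Fintype.sum_equiv (Equiv.inv _) _ _ fun σ => ?_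
    simp only [keyPsi, key_eps_transpose c r, Equiv.inv_apply, inv_inv, mul_inv_rev, map_mul,
      Perm.sign_inv, mul_assoc]
    rcases Int.units_eq_one_or (Perm.sign σ) with h | h <;> simp [h] <;> ring
  rw [e] at h0
  exact (mul_eq_zero.1 h0).resolve_left (by simp)

theorem Kron.conj12 {μ' ν' : ℕ → ℕ} (hμ : IsConjP μ μ') (hν : IsConjP ν ν') (h : Kron μ ν κ) :
    Kron μ' ν' κ := by
  obtain ⟨n, c1, r1, a1, c2, r2, a2, c3, r3, a3, h1, h2, h3, hs⟩ := h
  have s1 : Sees μ fun σ : Perm (Fin n) =>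
      (eps c2 r2 (a2 ∘ σ) : ℝ) * (eps c3 r3 (a3 ∘ σ) : ℝ) := by
    refine ⟨c1, r1, a1, h1, fun h0 => hs ?_⟩
    have : ((∑ σ : Perm (Fin n), eps c1 r1 (a1 ∘ σ) * eps c2 r2 (a2 ∘ σ) * eps c3 r3 (a3 ∘ σ) : ℤ) :
        ℝ) = 0 := by
      rw [← h0]; push_cast
      exact sum_congr rfl fun σ _ => by ring
    exact_mod_cast this
  obtain ⟨c1', r1', a1', h1', hs1⟩ := key_sees_conj hμ s1
  have s2 : Sees ν fun σ : Perm (Fin n) => (((Perm.sign σ : ℤˣ) : ℤ) : ℝ) *
      ((eps c1' r1' (a1' ∘ σ) : ℝ) * (eps c3 r3 (a3 ∘ σ) : ℝ)) := by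
    refine ⟨c2, r2, a2, h2, ?_⟩
    convert hs1 using 2 with σ
    ring
  obtain ⟨c2', r2', a2', h2', hs2⟩ := key_sees_conj hν s2
  refine ⟨n, c1', r1', a1', c2', r2', a2', c3, r3, a3, h1', h2', h3, fun h0 => hs2 ?_⟩
  have : ((∑ σ : Perm (Fin n), eps c1' r1' (a1' ∘ σ) * eps c2' r2' (a2' ∘ σ) *
      eps c3 r3 (a3 ∘ σ) : ℤ) : ℝ) = 0 := by rw [h0]; simp
  rw [← this]
  push_cast
  refine sum_congr rfl fun σ _ => ?_
  rcases Int.units_eq_one_or (Perm.sign σ) with h | h <;> simp [h] <;> ring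

theorem Kron.conj13 {μ' κ' : ℕ → ℕ} (hμ : IsConjP μ μ') (hκ : IsConjP κ κ') (h : Kron μ ν κ) :
    Kron μ' ν κ' :=
  (h.swap23.conj12 hμ hκ).swap23

theorem Kron.conj23 {ν' κ' : ℕ → ℕ} (hν : IsConjP ν ν') (hκ : IsConjP κ κ') (h : Kron μ ν κ) :
    Kron μ ν' κ' :=
  (h.swap12.conj13 hν hκ).swap12

end Crest.Agent.R195
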