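import Crest.Prelude.Def_SpechtModule
import Crest.Agent.R195.Key
import Crest.Agent.R195.Complete
import Crest.Agent.R195.FinalAux

/-! Row 195: from `Good` to the representation theoretic statements. -/

set_option autoImplicit false
open Finset Equiv
open Crest.AlgebraR.Specht

namespace Crest.Agent.R195

open Fin_ in
theorem final_of_good {n : ℕ} {μ : ℕ → ℕ} (h : Good n μ) (D : Finset (ℕ × ℕ))
    (hD : ∀ i j, (i, j) ∈ D ↔ j < μ i)
    (W : Type) [AddCommGroup W] [Module ℂ W]
    (σ : Representation ℂ (Perm (Fin D.card)) W) (hσ : Representation.IsIrreducible σ) :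
    Nontrivial (Representation.IntertwiningMap σ
      (Representation.tprod (spechtRep D) (spechtRep D))) := by
  have hn : n = D.card := card_eq h.1 hD
  -- a nonzero vector
  obtain ⟨w0, hw0⟩ : ∃ w0 : W, w0 ≠ 0 := by
    by_contra hcon
    push Not at hcon
    have : (⊥ : Subrepresentation σ) = ⊤ := by
      apply Subrepresentation.toSubmodule_injective
      ext w
      rw [hcon w]
      simp
    exact bot_ne_top this
  obtain ⟨ξ, hξ⟩ : ∃ ξ : W →ₗ[ℂ] ℂ, ξ w0 = 1 := by
    obtain ⟨φ, hφ⟩ : ∃ φ : Module.Dual ℂ W, φ w0 ≠ 0 := by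
      by_contra hcon
      push Not at hcon
      exact hw0 ((Module.forall_dual_apply_eq_zero_iff ℂ w0).1 hcon)
    exact ⟨(φ w0)⁻¹ • φ, by simp [hφ]⟩
  let f0 : Perm (Fin D.card) → ℝ := fun g => (ξ (σ g⁻¹ w0)).re
  have hf0 : f0 ≠ 0 := by
    intro h0
    have := congrFun h0 1
    simp [f0, hξ] at this
  obtain ⟨κ, hκ⟩ := complete f0 hf0
  have hκp : IsPart n κ := by
    obtain ⟨c, r, a, hcr, -⟩ := hκ
    have := hcr.isPart
    rwa [Fintype.card_fin, ← hn] at this
  have hK : KronOn (Fin D.card) μ μ κ :=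
    (h.2.2 κ hκp).on (by rw [Fintype.card_fin, ← hn]; exact h.1)
  obtain ⟨c1, r1, a1, c2, r2, a2, h1, h2, hF⟩ := kronOn_iff_sees.1 hK
  obtain ⟨g, h0, hgh⟩ := link hF hκ
  obtain ⟨t1, rfl, rfl⟩ := exists_t hD h1
  obtain ⟨t2, rfl, rfl⟩ := exists_t hD h2
  let e1 : (spechtSubrep D).toSubmodule := ⟨polytabloid t1, poly_mem t1⟩
  let e2 : (spechtSubrep D).toSubmodule := ⟨polytabloid t2, poly_mem t2⟩
  obtain ⟨Θ, hΘ⟩ := exists_avg σ (Representation.tprod (spechtRep D) (spechtRep D))
    (ξ ∘ₗ σ h0⁻¹) (e1 ⊗ₜ[ℂ] e2)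
  let ev : RowWord D.card → (spechtSubrep D).toSubmodule →ₗ[ℂ] ℂ := fun a =>
    (Finsupp.lapply a : (RowWord D.card →₀ ℂ) →ₗ[ℂ] ℂ) ∘ₗ (spechtSubrep D).toSubmodule.subtype
  have hev : ∀ (a : RowWord D.card) (k : Perm (Fin D.card)) (t : D ≃ Fin D.card),
      ev a (spechtRep D k ⟨polytabloid t, poly_mem t⟩) =
        (eps (colOf t) (rowOf t) (ofW a ∘ k) : ℂ) := by
    intro a k t
    show rowWordRep D.card k (polytabloid t) a = _
    rw [rep_apply, poly_apply]
    rfl
  let E := (TensorProduct.lid ℂ ℂ).toLinearMap ∘ₗ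
    TensorProduct.map (ev (toW (a1 ∘ g))) (ev (toW (a2 ∘ g)))
  have hE : E (Θ w0) = ∑ k : Perm (Fin D.card),
      ((eps (colOf t1) (rowOf t1) (a1 ∘ (g * k : Perm (Fin D.card))) *
        eps (colOf t2) (rowOf t2) (a2 ∘ (g * k : Perm (Fin D.card))) : ℤ) : ℂ) *
        ξ (σ (k * h0)⁻¹ w0) := by
    rw [hΘ, map_sum]
    refine Finset.sum_congr rfl fun k _ => ?_
    rw [map_smul, Representation.tprod_apply, TensorProduct.map_tmul]
    simp only [E, LinearMap.comp_apply, TensorProduct.map_tmul, LinearEquiv.coe_coe,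
      TensorProduct.lid_tmul, smul_eq_mul]
    rw [hev, hev, mul_inv_rev, map_mul, Module.End.mul_apply, mul_comm]
    push_cast
    rfl
  refine ⟨Θ, 0, fun hz => hgh ?_⟩
  rw [hz] at hE
  have h3 := congrArg Complex.re hE
  rw [Complex.re_sum] at h3
  simp only [Representation.IntertwiningMap.coe_zero, Pi.zero_apply, map_zero,
    Complex.zero_re] at h3
  rw [h3]
  refine Finset.sum_congr rfl fun k _ => ?_
  rw [← Complex.ofReal_intCast, Complex.re_ofReal_mul]

theorem specht_finite (D : Finset (ℕ × ℕ)) : FiniteDimensional ℂ (spechtSubrep D).toSubmodule := by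
  rw [Fin_.specht_eq_span]
  exact FiniteDimensional.span_of_finite ℂ (Set.finite_range _)

open Fin_ in
theorem specht_irreducible {μ : ℕ → ℕ} (h : Antitone μ) (D : Finset (ℕ × ℕ))
    (hD : ∀ i j, (i, j) ∈ D ↔ j < μ i) : 
    Representation.IsIrreducible (k := ℂ) (V := (spechtSubrep D).toSubmodule) (spechtRep D) := by
  have hne : (⊥ : Subrepresentation (spechtRep D)) ≠ ⊤ := by
    intro hbt
    have h1 : (⟨polytabloid D.equivFin, poly_mem _⟩ : (spechtSubrep D).toSubmodule) ∈
        (⊤ : Subrepresentation (spechtRep D)).toSubmodule := Submodule.mem_top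
    rw [← hbt] at h1
    have h2 : polytabloid D.equivFin = 0 := congrArg Subtype.val ((Submodule.mem_bot ℂ).1 h1)
    have h3 := poly_apply D.equivFin (toW (rowOf D.equivFin))
    rw [h2] at h3
    have h4 : eps (colOf D.equivFin) (rowOf D.equivFin) (ofW (toW (rowOf D.equivFin))) = 1 :=
      eps_self (isTab_of h hD D.equivFin).inj
    rw [h4] at h3
    simp at h3
  have : Nontrivial (Subrepresentation (spechtRep D)) := ⟨⊥, ⊤, hne⟩
  refine ⟨fun U => ?_⟩
  by_cases hU : U.toSubmodule = ⊥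
  · left
    exact Subrepresentation.toSubmodule_injective hU
  right
  obtain ⟨u, huU, hu0⟩ := Submodule.exists_mem_ne_zero_of_ne_bot hU
  obtain ⟨t, ht⟩ := exists_pair_ne u.2 (fun h0 => hu0 (Subtype.ext h0))
  have h1 : (∑ γ ∈ columnGroup t, (((Perm.sign γ : ℤˣ) : ℤ) : ℂ) • spechtRep D γ u) ∈
      U.toSubmodule :=
    Submodule.sum_mem _ fun γ _ => Submodule.smul_mem _ _ (U.apply_mem_toSubmodule γ huU)
  have h2 : (∑ γ ∈ columnGroup t, (((Perm.sign γ : ℤˣ) : ℤ) : ℂ) • spechtRep D γ u) =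
      (∑ a ∈ words D, u.1 a * polytabloid t a) •
        (⟨polytabloid t, poly_mem t⟩ : (spechtSubrep D).toSubmodule) := by
    apply Subtype.ext
    rw [Submodule.coe_sum, Submodule.coe_smul, ← kappa_eq h hD t u.2]
    rfl
  rw [h2, Submodule.smul_mem_iff _ ht] at h1
  have h3 : ∀ t' : D ≃ Fin D.card,
      (⟨polytabloid t', poly_mem t'⟩ : (spechtSubrep D).toSubmodule) ∈ U.toSubmodule := by
    intro t'
    have h4 := U.apply_mem_toSubmodule (t.symm.trans t') h1
    have h5 : spechtRep D (t.symm.trans t') ⟨polytabloid t, poly_mem t⟩ =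
        ⟨polytabloid t', poly_mem t'⟩ := by
      apply Subtype.ext
      show rowWordRep D.card _ (polytabloid t) = polytabloid t'
      rw [rep_poly]
      congr 1
      ext x
      simp
    rwa [h5] at h4
  apply Subrepresentation.toSubmodule_injective
  show U.toSubmodule = ⊤
  rw [eq_top_iff]
  rintro ⟨x, hx⟩ -
  have h6 : Submodule.span ℂ (Set.range fun t : D ≃ Fin D.card => polytabloid t) ≤
      U.toSubmodule.map (spechtSubrep D).toSubmodule.subtype := by
    rw [Submodule.span_le]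
    rintro _ ⟨t', rfl⟩
    exact ⟨_, h3 t', rfl⟩
  obtain ⟨y, hy, rfl⟩ := h6 (by rw [← specht_eq_span]; exact hx)
  exact hy

theorem s0297_of (hg : ∀ m, 1 ≤ m → ∃ n, Good n fun i => m - i) (m : ℕ) (hm : 1 ≤ m)
    (W : Type) [AddCommGroup W] [Module ℂ W] [FiniteDimensional ℂ W]
    (σ : Representation ℂ (Equiv.Perm (Fin (staircaseShape m).card)) W)
    (hσ : Representation.IsIrreducible σ) :
    Nontrivial (Representation.IntertwiningMap σ
      (Representation.tprod (spechtRep (staircaseShape m)) (spechtRep (staircaseShape m)))) := by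
  obtain ⟨n, hn⟩ := hg m hm
  refine final_of_good hn _ (fun i j => ?_) W σ hσ
  simp only [staircaseShape, Finset.mem_filter, Finset.mem_product, Finset.mem_range]
  omega

theorem s0298_of (n : ℕ) (hg : ∃ μ, Good n μ) :
    ∃ (V : Type) (_ : AddCommGroup V) (_ : Module ℂ V) (_ : FiniteDimensional ℂ V)
      (ρ : Representation ℂ (Equiv.Perm (Fin n)) V), Representation.IsIrreducible ρ ∧
      ∀ (W : Type) [AddCommGroup W] [Module ℂ W] [FiniteDimensional ℂ W]
        (σ : Representation ℂ (Equiv.Perm (Fin n)) W), Representation.IsIrreducible σ →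
        Nontrivial (Representation.IntertwiningMap σ (Representation.tprod ρ ρ)) := by
  obtain ⟨μ, hμ⟩ := hg
  obtain ⟨D, hD⟩ : ∃ D : Finset (ℕ × ℕ), ∀ i j, (i, j) ∈ D ↔ j < μ i := by
    refine ⟨(range n ×ˢ range n).filter fun c => c.2 < μ c.1, fun i j => ?_⟩
    simp only [Finset.mem_filter, Finset.mem_product, Finset.mem_range]
    refine ⟨fun h => h.2, fun h => ⟨⟨?_, ?_⟩, h⟩⟩
    · by_contra hi
      have := hμ.1.eq_zero (not_lt.1 hi)
      omega
    · have h1 := hμ.1.psum_le (i + 1)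
      rw [psum_succ] at h1
      omega
  have hn : n = D.card := Fin_.card_eq hμ.1 hD
  subst hn
  exact ⟨(spechtSubrep D).toSubmodule, inferInstance, inferInstance, specht_finite D, spechtRep D,
    specht_irreducible hμ.1.1 D hD, fun W _ _ _ σ hσ => final_of_good hμ D hD W σ hσ⟩

end Crest.Agent.R195
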