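import Crest.Agent.R195.Tab
import Crest.Agent.R195.Part

/-! Row 195: transport, symmetry, trivial triples, semigroup property. -/

set_option autoImplicit false
open Finset Equiv

namespace Crest.Agent.R195

variable {Ω : Type} [Fintype Ω] [DecidableEq Ω] {μ ν κ : ℕ → ℕ}

theorem KronOn.transport {Ω' : Type} [Fintype Ω'] [DecidableEq Ω'] (e : Ω ≃ Ω')
    (h : KronOn Ω μ ν κ) : KronOn Ω' μ ν κ := by
  obtain ⟨c1, r1, a1, c2, r2, a2, c3, r3, a3, h1, h2, h3, hs⟩ := h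
  refine ⟨c1 ∘ e.symm, r1 ∘ e.symm, a1 ∘ e.symm, c2 ∘ e.symm, r2 ∘ e.symm, a2 ∘ e.symm,
    c3 ∘ e.symm, r3 ∘ e.symm, a3 ∘ e.symm, h1.comp_equiv _, h2.comp_equiv _, h3.comp_equiv _, ?_⟩
  have key : ∀ (c r a : Ω → ℕ) (σ : Perm Ω),
      eps (c ∘ e.symm) (r ∘ e.symm) ((a ∘ e.symm) ∘ (e.permCongr σ)) = eps c r (a ∘ σ) := by
    intro c r a σ
    rw [← eps_comp_equiv c r (a ∘ σ) e.symm]
    congr 1
    funext x
    simp
  rw [← (Equiv.permCongr e).sum_comp]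
  simpa only [key] using hs

theorem KronOn.kron (h : KronOn Ω μ ν κ) : Kron μ ν κ :=
  ⟨Fintype.card Ω, h.transport (Fintype.equivFin Ω)⟩

theorem Kron.on (h : Kron μ ν κ) (hΩ : IsPart (Fintype.card Ω) μ) : KronOn Ω μ ν κ := by
  obtain ⟨n, h⟩ := h
  have hn : Fintype.card (Fin n) = Fintype.card Ω := by
    obtain ⟨c1, r1, -, -, -, -, -, -, -, h1, -⟩ := h
    exact h1.isPart.unique hΩ
  exact h.transport (Fintype.equivOfCardEq hn)

theorem Kron.parts (h : Kron μ ν κ) : ∃ n, IsPart n μ ∧ IsPart n ν ∧ IsPart n κ := by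
  obtain ⟨n, c1, r1, a1, c2, r2, a2, c3, r3, a3, h1, h2, h3, -⟩ := h
  exact ⟨_, h1.isPart, h2.isPart, h3.isPart⟩

theorem Kron.swap12 (h : Kron μ ν κ) : Kron ν μ κ := by
  obtain ⟨n, c1, r1, a1, c2, r2, a2, c3, r3, a3, h1, h2, h3, hs⟩ := h
  refine ⟨n, c2, r2, a2, c1, r1, a1, c3, r3, a3, h2, h1, h3, fun h0 => hs ?_⟩
  rw [← h0]
  exact sum_congr rfl fun σ _ => by ring

theorem Kron.swap23 (h : Kron μ ν κ) : Kron μ κ ν := by
  obtain ⟨n, c1, r1, a1, c2, r2, a2, c3, r3, a3, h1, h2, h3, hs⟩ := h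
  refine ⟨n, c1, r1, a1, c3, r3, a3, c2, r2, a2, h1, h3, h2, fun h0 => hs ?_⟩
  rw [← h0]
  exact sum_congr rfl fun σ _ => by ring

theorem kronOn_iff_sees : KronOn Ω μ ν κ ↔ ∃ c1 r1 a1 c2 r2 a2 : Ω → ℕ, IsTab μ c1 r1 ∧
    IsTab ν c2 r2 ∧
    Sees κ fun σ => ((eps c1 r1 (a1 ∘ σ) * eps c2 r2 (a2 ∘ σ) : ℤ) : ℝ) := by
  constructor
  · rintro ⟨c1, r1, a1, c2, r2, a2, c3, r3, a3, h1, h2, h3, hs⟩
    exact ⟨c1, r1, a1, c2, r2, a2, h1, h2, c3, r3, a3, h3, by dsimp only; exact_mod_cast hs⟩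
  · rintro ⟨c1, r1, a1, c2, r2, a2, h1, h2, c3, r3, a3, h3, hs⟩
    dsimp only at hs
    exact ⟨c1, r1, a1, c2, r2, a2, c3, r3, a3, h1, h2, h3, by exact_mod_cast hs⟩

theorem kron_triv {n : ℕ} (h : IsPart n κ) : Kron (one n) κ κ := by
  obtain ⟨c, r, hT⟩ := exists_tab (Ω := Fin n) (μ := κ) (by simpa using h)
  have hinj : ∀ x y : Fin n, (fun _ : Fin n => (0 : ℕ)) x = (fun _ : Fin n => (0 : ℕ)) y →
      x.val = y.val → x = y := fun x y _ hxy => Fin.ext hxy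
  have h1 : IsTab (one n) (fun x : Fin n => x.val) (fun _ => 0) :=
    { inj := hinj
      mem := fun x => by simp [one]
      surj := fun i j hj => by
        by_cases hi : i = 0
        · subst hi
          exact ⟨⟨j, by simpa [one] using hj⟩, rfl, rfl⟩
        · simp [one, hi] at hj
      anti := fun i j hij => by
        unfold one
        split_ifs <;> omega }
  refine ⟨n, fun x => x.val, fun _ => 0, fun _ => 0, c, r, r, c, r, r, h1, hT, hT, ?_⟩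
  have e1 : ∀ σ : Perm (Fin n), eps (fun x : Fin n => x.val) (fun _ => 0)
      ((fun _ => 0) ∘ σ) = 1 := fun σ => eps_self hinj
  simp only [e1, one_mul]
  refine ne_of_gt (sum_pos' (fun σ _ => mul_self_nonneg _) ⟨1, mem_univ _, ?_⟩)
  have : r ∘ (1 : Perm (Fin n)) = r := rfl
  rw [this, eps_self hT.inj]
  norm_num

/-- The generating polynomial of three tableaux. -/
noncomputable def kpoly (c1 r1 c2 r2 c3 r3 : Ω → ℕ) : MvPolynomial (ℕ × ℕ × ℕ) ℤ :=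
  ∑ γ1 ∈ stab c1, ∑ γ2 ∈ stab c2, ∑ γ3 ∈ stab c3,
    (((Perm.sign γ1 * Perm.sign γ2 * Perm.sign γ3 : ℤˣ) : ℤ)) •
      ∏ x, MvPolynomial.X (r1 (γ1 x), r2 (γ2 x), r3 (γ3 x))

/-- the exponent vector of a word -/
noncomputable def kronMon {K : Type} (A : Ω → K) : K →₀ ℕ := ∑ x, Finsupp.single (A x) 1

omit [DecidableEq Ω] in
theorem kron_prod_X {K : Type} (A : Ω → K) :
    ∏ x, (MvPolynomial.X (A x) : MvPolynomial K ℤ) = MvPolynomial.monomial (kronMon A) 1 := by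
  rw [kronMon, MvPolynomial.monomial_sum_one]
  rfl

omit [DecidableEq Ω] in
theorem kronMon_apply {K : Type} [DecidableEq K] (A : Ω → K) (k : K) :
    kronMon A k = (univ.filter fun x => A x = k).card := by
  rw [kronMon, Finsupp.finsetSum_apply, card_filter]
  exact sum_congr rfl fun x _ => by rw [Finsupp.single_apply]

theorem kron_card_eq {K : Type} [DecidableEq K] (A B : Ω → K) :
    ((univ.filter fun σ : Perm Ω => ∀ x, A (σ x) = B x).card : ℤ) =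
      if kronMon B = kronMon A then ((stab A).card : ℤ) else 0 := by
  split_ifs with h
  · obtain ⟨e, he⟩ := exists_equiv_of_card_fiber B A fun k => by
      rw [← kronMon_apply, ← kronMon_apply, h]
    congr 1
    refine card_nbij' (fun σ => σ * (e : Perm Ω)⁻¹) (fun τ => τ * (e : Perm Ω)) ?_ ?_ ?_ ?_
    · intro σ hσ
      have hσ' := (mem_filter.1 (mem_coe.1 hσ)).2
      refine mem_coe.2 (mem_stab.2 fun x => ?_)
      rw [Perm.mul_apply, hσ', ← he]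
      simp
    · intro τ hτ
      have hτ' := mem_stab.1 (mem_coe.1 hτ)
      refine mem_coe.2 (mem_filter.2 ⟨mem_univ _, fun x => ?_⟩)
      rw [Perm.mul_apply, hτ', he]
    · intro σ _; simp
    · intro σ _; simp
  · rw [Nat.cast_eq_zero, card_eq_zero, filter_eq_empty_iff]
    intro σ _ hσ
    refine h ?_
    unfold kronMon
    rw [← Equiv.sum_comp σ (fun x => Finsupp.single (A x) 1)]
    exact sum_congr rfl fun x _ => by rw [hσ]

theorem kron_eps_eq (c r b : Ω → ℕ) : eps c r b =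
    ∑ γ ∈ stab c, if (∀ x, b x = r (γ x)) then ((Perm.sign γ : ℤˣ) : ℤ) else 0 := by
  rw [eps_eq_sum, stab, sum_filter, ← Equiv.sum_comp (Equiv.inv (Perm Ω))]
  refine sum_congr rfl fun γ _ => ?_
  have h : (∀ y, c (γ⁻¹ y) = c y ∧ b (γ⁻¹ y) = r y) ↔
      (∀ x, c (γ x) = c x) ∧ ∀ x, b x = r (γ x) := by
    constructor
    · intro h
      exact ⟨fun x => by simpa using (h (γ x)).1.symm, fun x => by simpa using (h (γ x)).2⟩
    · rintro ⟨h1, h2⟩ y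
      exact ⟨by simpa using (h1 (γ⁻¹ y)).symm, by simpa using h2 (γ⁻¹ y)⟩
  simp only [Equiv.inv_apply, h, Perm.sign_inv, ite_and]

theorem kron_sum_eq (c1 r1 c2 r2 c3 r3 a1 a2 a3 : Ω → ℕ) :
    ∑ σ : Perm Ω, eps c1 r1 (a1 ∘ σ) * eps c2 r2 (a2 ∘ σ) * eps c3 r3 (a3 ∘ σ) =
      ((stab fun x => (a1 x, a2 x, a3 x)).card : ℤ) *
        MvPolynomial.coeff (kronMon fun x => (a1 x, a2 x, a3 x)) (kpoly c1 r1 c2 r2 c3 r3) := by
  have e1 : ∀ σ : Perm Ω, eps c1 r1 (a1 ∘ σ) * eps c2 r2 (a2 ∘ σ) * eps c3 r3 (a3 ∘ σ) =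
      ∑ γ1 ∈ stab c1, ∑ γ2 ∈ stab c2, ∑ γ3 ∈ stab c3,
        ((Perm.sign γ1 * Perm.sign γ2 * Perm.sign γ3 : ℤˣ) : ℤ) *
          if (∀ x, (a1 (σ x), a2 (σ x), a3 (σ x)) = (r1 (γ1 x), r2 (γ2 x), r3 (γ3 x)))
            then 1 else 0 := by
    intro σ
    rw [kron_eps_eq, kron_eps_eq, kron_eps_eq, sum_mul_sum, sum_mul]
    refine sum_congr rfl fun γ1 _ => ?_
    rw [sum_mul_sum]
    refine sum_congr rfl fun γ2 _ => sum_congr rfl fun γ3 _ => ?_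
    simp only [Prod.mk.injEq, forall_and, Function.comp_apply, ite_and, Units.val_mul]
    split_ifs <;> simp
  simp only [e1]
  rw [kpoly, sum_comm, MvPolynomial.coeff_sum, mul_sum]
  refine sum_congr rfl fun γ1 _ => ?_
  rw [sum_comm, MvPolynomial.coeff_sum, mul_sum]
  refine sum_congr rfl fun γ2 _ => ?_
  rw [sum_comm, MvPolynomial.coeff_sum, mul_sum]
  refine sum_congr rfl fun γ3 _ => ?_
  rw [← mul_sum, sum_boole, kron_card_eq (fun x => (a1 x, a2 x, a3 x)), kron_prod_X,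
    MvPolynomial.coeff_smul, MvPolynomial.coeff_monomial, smul_eq_mul]
  split_ifs <;> ring

theorem kpoly_ne_zero_iff' (c1 r1 c2 r2 c3 r3 : Ω → ℕ) :
    kpoly c1 r1 c2 r2 c3 r3 ≠ 0 ↔ ∃ a1 a2 a3 : Ω → ℕ,
      ∑ σ : Perm Ω, eps c1 r1 (a1 ∘ σ) * eps c2 r2 (a2 ∘ σ) * eps c3 r3 (a3 ∘ σ) ≠ 0 := by
  constructor
  · intro h
    obtain ⟨m, hm⟩ := MvPolynomial.ne_zero_iff.1 h
    have hm' := hm
    rw [kpoly, MvPolynomial.coeff_sum] at hm'
    obtain ⟨γ1, -, hm'⟩ := exists_ne_zero_of_sum_ne_zero hm'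
    rw [MvPolynomial.coeff_sum] at hm'
    obtain ⟨γ2, -, hm'⟩ := exists_ne_zero_of_sum_ne_zero hm'
    rw [MvPolynomial.coeff_sum] at hm'
    obtain ⟨γ3, -, hm'⟩ := exists_ne_zero_of_sum_ne_zero hm'
    rw [kron_prod_X, MvPolynomial.coeff_smul, MvPolynomial.coeff_monomial] at hm'
    have e : kronMon (fun x => (r1 (γ1 x), r2 (γ2 x), r3 (γ3 x))) = m := by
      by_contra hne
      rw [if_neg hne, smul_zero] at hm'
      exact hm' rfl
    refine ⟨fun x => r1 (γ1 x), fun x => r2 (γ2 x), fun x => r3 (γ3 x), ?_⟩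
    rw [kron_sum_eq, e]
    refine mul_ne_zero ?_ hm
    exact_mod_cast (card_pos.2 ⟨1, mem_stab.2 fun _ => rfl⟩).ne'
  · rintro ⟨a1, a2, a3, h⟩ h0
    rw [kron_sum_eq, h0] at h
    simp at h

set_option linter.unusedVariables false in
theorem kpoly_ne_zero_iff {c1 r1 c2 r2 c3 r3 : Ω → ℕ}
    (h1 : IsGrid μ c1 r1) (h2 : IsGrid ν c2 r2) (h3 : IsGrid κ c3 r3) :
    kpoly c1 r1 c2 r2 c3 r3 ≠ 0 ↔ ∃ a1 a2 a3 : Ω → ℕ,
      ∑ σ : Perm Ω, eps c1 r1 (a1 ∘ σ) * eps c2 r2 (a2 ∘ σ) * eps c3 r3 (a3 ∘ σ) ≠ 0 :=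
  kpoly_ne_zero_iff' c1 r1 c2 r2 c3 r3

section Add

variable {Ω' : Type} [Fintype Ω'] [DecidableEq Ω']

/-- the columns of two tableaux side by side -/
def kronCol (c : Ω → ℕ) (c' : Ω' → ℕ) : Ω ⊕ Ω' → ℕ :=
  Sum.elim (fun x => 2 * c x) (fun x => 2 * c' x + 1)

theorem kron_sum_stab {M : Type} [AddCommMonoid M] (c : Ω → ℕ) (c' : Ω' → ℕ)
    (F : Perm (Ω ⊕ Ω') → M) :
    ∑ γ ∈ stab (kronCol c c'), F γ = ∑ γ ∈ stab c, ∑ γ' ∈ stab c', F (Perm.sumCongr γ γ') := by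
  rw [← sum_product']
  symm
  refine sum_bij (fun p _ => Perm.sumCongr p.1 p.2) ?_ ?_ ?_ (fun _ _ => rfl)
  · intro p hp
    obtain ⟨h1, h2⟩ := mem_product.1 hp
    refine mem_stab.2 ?_
    rintro (x | x)
    · simp [kronCol, mem_stab.1 h1 x]
    · simp [kronCol, mem_stab.1 h2 x]
  · intro p _ q _ h
    exact Perm.sumCongrHom_injective (a₁ := p) (a₂ := q) h
  · intro γ hγ
    have hγ' := mem_stab.1 hγ
    have hm : Set.MapsTo γ (Set.range Sum.inl) (Set.range Sum.inl) := by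
      rintro _ ⟨x, rfl⟩
      have := hγ' (Sum.inl x)
      rcases hx : γ (Sum.inl x) with y | y
      · exact ⟨y, rfl⟩
      · rw [hx] at this
        simp only [kronCol, Sum.elim_inl, Sum.elim_inr] at this
        omega
    obtain ⟨p, rfl⟩ := Perm.mem_sumCongrHom_range_of_perm_mapsTo_inl hm
    refine ⟨p, mem_product.2 ⟨mem_stab.2 fun x => ?_, mem_stab.2 fun x => ?_⟩, rfl⟩
    · simpa [kronCol] using hγ' (Sum.inl x)
    · simpa [kronCol] using hγ' (Sum.inr x)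

theorem kron_kpoly_sum (c1 r1 c2 r2 c3 r3 : Ω → ℕ) (c1' r1' c2' r2' c3' r3' : Ω' → ℕ) :
    kpoly (kronCol c1 c1') (Sum.elim r1 r1') (kronCol c2 c2') (Sum.elim r2 r2')
      (kronCol c3 c3') (Sum.elim r3 r3') =
      kpoly c1 r1 c2 r2 c3 r3 * kpoly c1' r1' c2' r2' c3' r3' := by
  simp only [kpoly, kron_sum_stab, sum_mul_sum]
  refine sum_congr rfl fun γ1 _ => sum_congr rfl fun γ1' _ => sum_congr rfl fun γ2 _ =>
    sum_congr rfl fun γ2' _ => sum_congr rfl fun γ3 _ => sum_congr rfl fun γ3' _ => ?_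
  rw [smul_mul_smul_comm, Fintype.prod_sum_type]
  congr 1
  simp only [Perm.sign_sumCongr, Units.val_mul]
  ring

theorem kron_tab_sum {μ' : ℕ → ℕ} {c r : Ω → ℕ} {c' r' : Ω' → ℕ} (h : IsTab μ c r)
    (h' : IsTab μ' c' r') :
    ∃ d : Ω ⊕ Ω' → ℕ, IsTab (μ + μ') d (Sum.elim r r') ∧ stab d = stab (kronCol c c') := by
  obtain ⟨d, hd, hd'⟩ := exists_tab_of_weak (μ := μ + μ') (c := kronCol c c')
    (r := Sum.elim r r') (h.anti.add h'.anti)
    (by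
      rintro (x | x) (y | y) h1 h2 <;>
        simp only [kronCol, Sum.elim_inl, Sum.elim_inr] at h1 h2
      · rw [h.inj x y h1 (by omega)]
      · omega
      · omega
      · rw [h'.inj x y h1 (by omega)])
    (by
      rintro (x | x) i hi
      · obtain ⟨y, h1, h2⟩ := h.surj i (c x) ((h.mem x).trans_le (h.anti (le_of_lt hi)))
        exact ⟨Sum.inl y, by simp [kronCol, h2], h1⟩
      · obtain ⟨y, h1, h2⟩ := h'.surj i (c' x) ((h'.mem x).trans_le (h'.anti (le_of_lt hi)))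
        exact ⟨Sum.inr y, by simp [kronCol, h2], h1⟩)
    (by
      intro i
      rw [Pi.add_apply, ← h.toIsGrid.card_row i, ← h'.toIsGrid.card_row i, card_filter, card_filter,
        card_filter, Fintype.sum_sum_type]
      rfl)
  refine ⟨d, hd, ?_⟩
  ext π
  simp only [mem_stab, hd']

end Add

/-- Semigroup property. -/
theorem Kron.add {μ' ν' κ' : ℕ → ℕ} (h : Kron μ ν κ) (h' : Kron μ' ν' κ') :
    Kron (μ + μ') (ν + ν') (κ + κ') := by
  obtain ⟨n, c1, r1, a1, c2, r2, a2, c3, r3, a3, h1, h2, h3, hs⟩ := h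
  obtain ⟨n', c1', r1', a1', c2', r2', a2', c3', r3', a3', h1', h2', h3', hs'⟩ := h'
  have hk := (kpoly_ne_zero_iff' c1 r1 c2 r2 c3 r3).2 ⟨a1, a2, a3, hs⟩
  have hk' := (kpoly_ne_zero_iff' c1' r1' c2' r2' c3' r3').2 ⟨a1', a2', a3', hs'⟩
  have hk2 := mul_ne_zero hk hk'
  rw [← kron_kpoly_sum] at hk2
  obtain ⟨d1, t1, e1⟩ := kron_tab_sum h1 h1'
  obtain ⟨d2, t2, e2⟩ := kron_tab_sum h2 h2'
  obtain ⟨d3, t3, e3⟩ := kron_tab_sum h3 h3'
  have hk3 : kpoly d1 (Sum.elim r1 r1') d2 (Sum.elim r2 r2') d3 (Sum.elim r3 r3') ≠ 0 := by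
    rw [kpoly, e1, e2, e3]; exact hk2
  obtain ⟨b1, b2, b3, hb⟩ := (kpoly_ne_zero_iff' _ _ _ _ _ _).1 hk3
  exact KronOn.kron (Ω := Fin n ⊕ Fin n') ⟨d1, _, b1, d2, _, b2, d3, _, b3, t1, t2, t3, hb⟩

end Crest.Agent.R195
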