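import Crest.Agent.R195.LevDefs

/-! Row 195: numerical range, kernel checks. -/

set_option autoImplicit false
set_option maxRecDepth 100000

namespace Crest.Agent.R195

theorem lev5_ok : levelOK lev3 items5 lev5 = true := by decide +kernel

theorem lev6_ok : levelOK lev4 items6 lev6 = true := by decide +kernel

theorem lev7_ok : levelOK lev5 items7 lev7 = true := by decide +kernel

theorem lev8_ok : levelOK lev6 items8 lev8 = true := by decide +kernel

theorem lev9_ok : levelOK lev7 items9 lev9 = true := by decide +kernel

theorem lev10_ok : levelOK lev8 items10 lev10 = true := by decide +kernel

end Crest.Agent.R195
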