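import Crest.Agent.R195.LevDefs

/-! Row 195: numerical range, kernel checks. -/

set_option autoImplicit false
set_option maxRecDepth 100000

namespace Crest.Agent.R195

theorem lev13_ok : levelOK lev11 items13 lev13 = true := by decide +kernel

end Crest.Agent.R195
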