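import Crest.Agent.R195.LevDefs

/-! Row 195: base states of the infinite families. -/

set_option autoImplicit false
set_option maxRecDepth 100000

namespace Crest.Agent.R195

def base0_13 : List (ℕ × ℕ × ℕ × GD × Par × Par) :=
  [(0,24,301,([24,22,20,18,16,14,11,9,7,5,3],[],[(13,1)]),⟨4,12,14,2,1⟩,⟨5,14,17,4,2⟩),
   (6,25,325,([25,23,21,19,17,15,13,11,9,7,5,3],[1],[]),⟨4,12,13,1,0⟩,⟨4,15,15,0,0⟩),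
   (12,26,349,([26,24,22,20,18,16,13,11,9,7,5,3],[],[(12,1)]),⟨4,13,13,0,0⟩,⟨5,15,16,2,0⟩),
   (18,27,373,([27,25,23,21,19,17,13,11,9,7,5],[3],[(12,1),(12,2)]),⟨5,13,14,2,0⟩,⟨9,15,17,6,1⟩),
   (19,27,377,([27,25,23,21,19,17,13,11,9,7,5,3],[15],[(13,1)]),⟨4,13,15,4,1⟩,⟨6,16,17,2,0⟩),
   (25,28,401,([28,26,24,22,20,18,13,11,9,7,5],[15,3],[(13,1),(12,2)]),⟨6,14,15,1,0⟩,⟨10,16,17,4,0⟩),
   (27,24,303,([24,22,20,18,16,14,10,8,6,4],[12,2],[(14,1)]),⟨4,12,15,3,2⟩,⟨7,14,18,5,3⟩),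
   (33,25,327,([25,23,21,19,17,15,11,9,7,5,3],[13],[(14,1)]),⟨4,12,15,5,2⟩,⟨6,15,18,3,2⟩),
   (39,26,351,([26,24,22,20,18,16,14,12,10,8,6,4,2],[],[]),⟨4,13,13,0,0⟩,⟨4,15,16,1,0⟩),
   (45,27,375,([27,25,23,21,19,17,14,12,10,8,6,4],[2],[(12,1)]),⟨4,13,14,1,0⟩,⟨6,16,16,0,0⟩),
   (51,28,399,([28,26,24,22,20,18,14,12,10,8,6,4],[],[(12,1),(12,2)]),⟨4,14,14,0,0⟩,⟨8,16,17,2,0⟩),
   (52,28,403,([28,26,24,22,20,18,13,11,9,7,5],[16,3],[(13,1),(13,2)]),⟨6,14,16,3,1⟩,⟨10,16,18,6,2⟩)]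

def base1_13 : List (ℕ × ℕ × ℕ × GD × Par) :=
  [(1,25,305,([25,22,20,18,16,14,11,9,7,5],[3],[(13,2),(2,1)]),⟨5,12,15,4,2⟩),
   (2,25,309,([25,23,20,18,16,14,11,9,7,5],[3],[(13,1),(4,2)]),⟨5,12,14,3,1⟩),
   (3,25,313,([25,23,21,18,16,14,11,9,7,5],[3],[(13,1),(6,2)]),⟨5,12,14,3,1⟩),
   (4,25,317,([25,23,21,19,16,14,11,9,7,5],[3],[(13,1),(8,2)]),⟨5,12,14,3,1⟩),
   (5,25,321,([25,23,21,19,17,14,11,9,7,5],[3],[(13,1),(10,2)]),⟨5,12,14,3,1⟩),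
   (7,26,329,([26,23,21,19,17,15,13,11,9,7,5,3],[],[(2,1)]),⟨4,13,13,0,0⟩),
   (8,26,333,([26,24,21,19,17,15,13,11,9,7,5,3],[],[(4,1)]),⟨4,13,13,0,0⟩),
   (9,26,337,([26,24,22,19,17,15,13,11,9,7,5,3],[],[(6,1)]),⟨4,13,13,0,0⟩),
   (10,26,341,([26,24,22,20,17,15,13,11,9,7,5,3],[],[(8,1)]),⟨4,13,13,0,0⟩),
   (11,26,345,([26,24,22,20,18,15,13,11,9,7,5,3],[],[(10,1)]),⟨4,13,13,0,0⟩),
   (13,27,353,([27,24,22,20,18,16,13,11,9,7,5],[3],[(12,2),(2,1)]),⟨5,13,14,2,0⟩),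
   (14,27,357,([27,25,22,20,18,16,13,11,9,7,5],[3],[(12,1),(4,2)]),⟨5,13,14,1,0⟩),
   (15,27,361,([27,25,23,20,18,16,13,11,9,7,5],[3],[(12,1),(6,2)]),⟨5,13,14,1,0⟩),
   (16,27,365,([27,25,23,21,18,16,13,11,9,7,5],[3],[(12,1),(8,2)]),⟨5,13,14,1,0⟩),
   (17,27,369,([27,25,23,21,19,16,13,11,9,7,5],[3],[(12,1),(10,2)]),⟨5,13,14,1,0⟩),
   (20,28,381,([28,25,23,21,19,17,13,11,9,7,5],[15,3],[(13,2),(2,1)]),⟨6,14,15,2,0⟩),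
   (21,28,385,([28,26,23,21,19,17,13,11,9,7,5],[15,3],[(13,1),(4,2)]),⟨6,14,15,1,0⟩),
   (22,28,389,([28,26,24,21,19,17,13,11,9,7,5],[15,3],[(13,1),(6,2)]),⟨6,14,15,1,0⟩),
   (23,28,393,([28,26,24,22,19,17,13,11,9,7,5],[15,3],[(13,1),(8,2)]),⟨6,14,15,1,0⟩),
   (24,28,397,([28,26,24,22,20,17,13,11,9,7,5],[15,3],[(13,1),(10,2)]),⟨6,14,15,1,0⟩),
   (28,25,307,([25,22,20,18,16,14,10,8,6,4],[12],[(14,2),(2,1)]),⟨5,12,16,5,3⟩),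
   (29,25,311,([25,23,20,18,16,14,10,8,6,4],[12],[(14,1),(4,2)]),⟨5,12,15,4,2⟩),
   (30,25,315,([25,23,21,18,16,14,10,8,6,4],[12],[(14,1),(6,2)]),⟨5,12,15,4,2⟩),
   (31,25,319,([25,23,21,19,16,14,10,8,6,4],[12],[(14,1),(8,2)]),⟨5,12,15,4,2⟩),
   (32,25,323,([25,23,21,19,17,14,10,8,6,4],[12],[(14,1),(10,2)]),⟨5,12,15,4,2⟩),
   (34,26,331,([26,23,21,19,17,15,11,9,7,5],[13,3],[(14,2),(2,1)]),⟨6,13,16,3,2⟩),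
   (35,26,335,([26,24,21,19,17,15,11,9,7,5],[13,3],[(14,1),(4,2)]),⟨6,13,15,2,1⟩),
   (36,26,339,([26,24,22,19,17,15,11,9,7,5],[13,3],[(14,1),(6,2)]),⟨6,13,15,2,1⟩),
   (37,26,343,([26,24,22,20,17,15,11,9,7,5],[13,3],[(14,1),(8,2)]),⟨6,13,15,2,1⟩),
   (38,26,347,([26,24,22,20,18,15,11,9,7,5],[13,3],[(14,1),(10,2)]),⟨6,13,15,2,1⟩),
   (40,27,355,([27,24,22,20,18,16,14,12,10,8,6,4],[2],[(2,1)]),⟨4,13,14,1,0⟩),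
   (41,27,359,([27,25,22,20,18,16,14,12,10,8,6,4],[2],[(4,1)]),⟨4,13,14,1,0⟩),
   (42,27,363,([27,25,23,20,18,16,14,12,10,8,6,4],[2],[(6,1)]),⟨4,13,14,1,0⟩),
   (43,27,367,([27,25,23,21,18,16,14,12,10,8,6,4],[2],[(8,1)]),⟨4,13,14,1,0⟩),
   (44,27,371,([27,25,23,21,19,16,14,12,10,8,6,4],[2],[(10,1)]),⟨4,13,14,1,0⟩),
   (46,28,379,([28,25,23,21,19,17,14,12,10,8,6,4],[],[(12,2),(2,1)]),⟨4,14,14,0,0⟩),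
   (47,28,383,([28,26,23,21,19,17,14,12,10,8,6,4],[],[(12,1),(4,2)]),⟨4,14,14,0,0⟩),
   (48,28,387,([28,26,24,21,19,17,14,12,10,8,6,4],[],[(12,1),(6,2)]),⟨4,14,14,0,0⟩),
   (49,28,391,([28,26,24,22,19,17,14,12,10,8,6,4],[],[(12,1),(8,2)]),⟨4,14,14,0,0⟩),
   (50,28,395,([28,26,24,22,20,17,14,12,10,8,6,4],[],[(12,1),(10,2)]),⟨4,14,14,0,0⟩)]

theorem base0_13_ok : base0_13.all (fun e => Nat.beq (lev13.getD e.1 []).sum e.2.2.1 &&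
    t0B (lev13.getD e.1 []) e.2.1 e.2.2.2.1 e.2.2.2.2.1 e.2.2.2.2.2) = true := by decide +kernel

theorem base1_13_ok : base1_13.all (fun e => Nat.beq (lev13.getD e.1 []).sum e.2.2.1 &&
    t1B (lev13.getD e.1 []) e.2.1 e.2.2.2.1 e.2.2.2.2) = true := by decide +kernel

def base0_14 : List (ℕ × ℕ × ℕ × GD × Par × Par) :=
  [(0,26,352,([26,24,22,20,18,16,12,10,8,6,4],[14,2],[(14,1)]),⟨4,13,15,3,1⟩,⟨7,15,18,5,2⟩),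
   (7,27,380,([27,25,23,21,19,17,15,12,10,8,6,4],[2],[(15,1)]),⟨4,13,16,4,2⟩,⟨6,16,19,3,2⟩),
   (13,28,404,([28,26,24,22,20,18,14,12,10,8,6,4],[16,2],[(13,1)]),⟨4,14,16,2,1⟩,⟨7,16,18,4,1⟩),
   (20,29,432,([29,27,25,23,21,19,15,13,11,9,7,5,3],[17],[(13,1)]),⟨4,14,17,4,2⟩,⟨6,16,19,7,2⟩),
   (27,30,460,([30,28,26,24,22,20,14,12,10,8,6,4],[18,16],[(14,1),(13,2)]),⟨6,15,18,4,2⟩,⟨10,17,20,7,2⟩),
   (29,26,354,([26,24,22,20,18,16,14,11,9,7,5,3],[],[(15,1)]),⟨4,13,16,3,2⟩,⟨5,15,19,5,3⟩),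
   (35,27,378,([27,25,23,21,19,17,15,13,11,9,7,5,3],[1],[]),⟨4,13,14,1,0⟩,⟨4,16,16,0,0⟩),
   (42,28,406,([28,26,24,22,20,18,16,14,12,10,8,6,4,2],[],[]),⟨4,14,14,0,0⟩,⟨4,16,17,1,0⟩),
   (49,29,434,([29,27,25,23,21,19,17,14,12,10,8,6,4],[2],[(14,1)]),⟨4,14,15,2,0⟩,⟨6,17,18,1,0⟩),
   (56,30,462,([30,28,26,24,22,20,18,14,12,10,8,6,4],[],[(14,1),(14,2)]),⟨4,15,16,1,0⟩,⟨8,17,19,4,1⟩)]

def base1_14 : List (ℕ × ℕ × ℕ × GD × Par) :=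
  [(1,27,356,([27,24,22,20,18,16,12,10,8,6,4],[14],[(14,2),(2,1)]),⟨5,13,16,5,2⟩),
   (2,27,360,([27,25,22,20,18,16,12,10,8,6,4],[14],[(14,1),(4,2)]),⟨5,13,15,4,1⟩),
   (3,27,364,([27,25,23,20,18,16,12,10,8,6,4],[14],[(14,1),(6,2)]),⟨5,13,15,4,1⟩),
   (4,27,368,([27,25,23,21,18,16,12,10,8,6,4],[14],[(14,1),(8,2)]),⟨5,13,15,4,1⟩),
   (5,27,372,([27,25,23,21,19,16,12,10,8,6,4],[14],[(14,1),(10,2)]),⟨5,13,15,4,1⟩),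
   (6,27,376,([27,25,23,21,19,17,12,10,8,6,4],[14],[(14,1),(12,2)]),⟨5,13,15,5,1⟩),
   (8,28,384,([28,25,23,21,19,17,15,12,10,8,6,4],[],[(15,2),(2,1)]),⟨4,14,17,3,2⟩),
   (9,28,388,([28,26,23,21,19,17,15,12,10,8,6,4],[],[(15,1),(4,2)]),⟨4,14,16,2,1⟩),
   (10,28,392,([28,26,24,21,19,17,15,12,10,8,6,4],[],[(15,1),(6,2)]),⟨4,14,16,2,1⟩),
   (11,28,396,([28,26,24,22,19,17,15,12,10,8,6,4],[],[(15,1),(8,2)]),⟨4,14,16,2,1⟩),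
   (12,28,400,([28,26,24,22,20,17,15,12,10,8,6,4],[],[(15,1),(10,2)]),⟨4,14,16,2,1⟩),
   (14,29,408,([29,26,24,22,20,18,14,12,10,8,6,4],[16],[(13,2),(2,1)]),⟨5,14,16,4,1⟩),
   (15,29,412,([29,27,24,22,20,18,14,12,10,8,6,4],[16],[(13,1),(4,2)]),⟨5,14,16,3,1⟩),
   (16,29,416,([29,27,25,22,20,18,14,12,10,8,6,4],[16],[(13,1),(6,2)]),⟨5,14,16,3,1⟩),
   (17,29,420,([29,27,25,23,20,18,14,12,10,8,6,4],[16],[(13,1),(8,2)]),⟨5,14,16,3,1⟩),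
   (18,29,424,([29,27,25,23,21,18,14,12,10,8,6,4],[16],[(13,1),(10,2)]),⟨5,14,16,3,1⟩),
   (19,29,428,([29,27,25,23,21,19,14,12,10,8,6,4],[16],[(13,1),(12,2)]),⟨5,14,16,3,1⟩),
   (21,30,436,([30,27,25,23,21,19,15,13,11,9,7,5],[17,3],[(13,2),(2,1)]),⟨6,14,17,7,2⟩),
   (22,30,440,([30,28,25,23,21,19,15,13,11,9,7,5],[17,3],[(13,1),(4,2)]),⟨6,15,17,2,1⟩),
   (23,30,444,([30,28,26,23,21,19,15,13,11,9,7,5],[17,3],[(13,1),(6,2)]),⟨6,15,17,2,1⟩),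
   (24,30,448,([30,28,26,24,21,19,15,13,11,9,7,5],[17,3],[(13,1),(8,2)]),⟨6,15,17,2,1⟩),
   (25,30,452,([30,28,26,24,22,19,15,13,11,9,7,5],[17,3],[(13,1),(10,2)]),⟨6,15,17,2,1⟩),
   (26,30,456,([30,28,26,24,22,20,15,13,11,9,7,5],[17,3],[(13,1),(12,2)]),⟨6,15,17,2,1⟩),
   (30,27,358,([27,24,22,20,18,16,14,11,9,7,5],[3],[(15,2),(2,1)]),⟨5,13,17,5,3⟩),
   (31,27,362,([27,25,22,20,18,16,14,11,9,7,5],[3],[(15,1),(4,2)]),⟨5,13,16,4,2⟩),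
   (32,27,366,([27,25,23,20,18,16,14,11,9,7,5],[3],[(15,1),(6,2)]),⟨5,13,16,4,2⟩),
   (33,27,370,([27,25,23,21,18,16,14,11,9,7,5],[3],[(15,1),(8,2)]),⟨5,13,16,4,2⟩),
   (34,27,374,([27,25,23,21,19,16,14,11,9,7,5],[3],[(15,1),(10,2)]),⟨5,13,16,4,2⟩),
   (36,28,382,([28,25,23,21,19,17,15,13,11,9,7,5,3],[],[(2,1)]),⟨4,14,14,0,0⟩),
   (37,28,386,([28,26,23,21,19,17,15,13,11,9,7,5,3],[],[(4,1)]),⟨4,14,14,0,0⟩),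
   (38,28,390,([28,26,24,21,19,17,15,13,11,9,7,5,3],[],[(6,1)]),⟨4,14,14,0,0⟩),
   (39,28,394,([28,26,24,22,19,17,15,13,11,9,7,5,3],[],[(8,1)]),⟨4,14,14,0,0⟩),
   (40,28,398,([28,26,24,22,20,17,15,13,11,9,7,5,3],[],[(10,1)]),⟨4,14,14,0,0⟩),
   (41,28,402,([28,26,24,22,20,18,15,13,11,9,7,5,3],[],[(12,1)]),⟨4,14,14,0,0⟩),
   (43,29,410,([29,26,24,22,20,18,16,14,12,10,8,6,4],[2],[(2,1)]),⟨4,14,15,1,0⟩),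
   (44,29,414,([29,27,24,22,20,18,16,14,12,10,8,6,4],[2],[(4,1)]),⟨4,14,15,1,0⟩),
   (45,29,418,([29,27,25,22,20,18,16,14,12,10,8,6,4],[2],[(6,1)]),⟨4,14,15,1,0⟩),
   (46,29,422,([29,27,25,23,20,18,16,14,12,10,8,6,4],[2],[(8,1)]),⟨4,14,15,1,0⟩),
   (47,29,426,([29,27,25,23,21,18,16,14,12,10,8,6,4],[2],[(10,1)]),⟨4,14,15,1,0⟩),
   (48,29,430,([29,27,25,23,21,19,16,14,12,10,8,6,4],[2],[(12,1)]),⟨4,14,15,1,0⟩),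
   (50,30,438,([30,27,25,23,21,19,17,14,12,10,8,6,4],[],[(14,2),(2,1)]),⟨4,15,16,1,0⟩),
   (51,30,442,([30,28,25,23,21,19,17,14,12,10,8,6,4],[],[(14,1),(4,2)]),⟨4,15,15,0,0⟩),
   (52,30,446,([30,28,26,23,21,19,17,14,12,10,8,6,4],[],[(14,1),(6,2)]),⟨4,15,15,0,0⟩),
   (53,30,450,([30,28,26,24,21,19,17,14,12,10,8,6,4],[],[(14,1),(8,2)]),⟨4,15,15,0,0⟩),
   (54,30,454,([30,28,26,24,22,19,17,14,12,10,8,6,4],[],[(14,1),(10,2)]),⟨4,15,15,0,0⟩),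
   (55,30,458,([30,28,26,24,22,20,17,14,12,10,8,6,4],[],[(14,1),(12,2)]),⟨4,15,15,0,0⟩)]

theorem base0_14_ok : base0_14.all (fun e => Nat.beq (lev14.getD e.1 []).sum e.2.2.1 &&
    t0B (lev14.getD e.1 []) e.2.1 e.2.2.2.1 e.2.2.2.2.1 e.2.2.2.2.2) = true := by decide +kernel

theorem base1_14_ok : base1_14.all (fun e => Nat.beq (lev14.getD e.1 []).sum e.2.2.1 &&
    t1B (lev14.getD e.1 []) e.2.1 e.2.2.2.1 e.2.2.2.2) = true := by decide +kernel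

end Crest.Agent.R195
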