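import Crest.Agent.R195.Data2
import Crest.Agent.R195.Data3
import Crest.Agent.R195.LevA
import Crest.Agent.R195.LevB
import Crest.Agent.R195.LevC
import Crest.Agent.R195.LevD
import Crest.Agent.R195.LevE
import Crest.Agent.R195.Fam

/-! Row 195: every `n ∉ {0, 2, 4, 9}` has a good shape; all staircases are good. -/

set_option autoImplicit false
set_option maxRecDepth 100000

namespace Crest.Agent.R195

theorem lev3_good : ∀ μ ∈ lev3, GoodL μ := by
  simp only [lev3, List.forall_mem_cons]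
  exact ⟨good_100, good_110, good_120, good_130, good_112, good_122, good_132, good_010, good_101, good_111, good_121, good_131, good_113, by simp⟩

theorem lev4_good : ∀ μ ∈ lev4, GoodL μ := by
  simp only [lev4, List.forall_mem_cons]
  exact ⟨good_1100, good_1200, good_1101, good_1120, good_1220, good_1121, good_1221, good_1122, good_1222, good_1010, good_1110, good_1210, good_1111, good_1211, good_1112, good_1212, good_1113, by simp⟩

theorem lev5_good : ∀ μ ∈ lev5, GoodL μ := levelOK_sound lev3_good lev5_ok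

theorem lev6_good : ∀ μ ∈ lev6, GoodL μ := levelOK_sound lev4_good lev6_ok

theorem lev7_good : ∀ μ ∈ lev7, GoodL μ := levelOK_sound lev5_good lev7_ok

theorem lev8_good : ∀ μ ∈ lev8, GoodL μ := levelOK_sound lev6_good lev8_ok

theorem lev9_good : ∀ μ ∈ lev9, GoodL μ := levelOK_sound lev7_good lev9_ok

theorem lev10_good : ∀ μ ∈ lev10, GoodL μ := levelOK_sound lev8_good lev10_ok

theorem lev11_good : ∀ μ ∈ lev11, GoodL μ := levelOK_sound lev9_good lev11_ok

theorem lev12_good : ∀ μ ∈ lev12, GoodL μ := levelOK_sound lev10_good lev12_ok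

theorem lev13_good : ∀ μ ∈ lev13, GoodL μ := levelOK_sound lev11_good lev13_ok

theorem lev14_good : ∀ μ ∈ lev14, GoodL μ := levelOK_sound lev12_good lev14_ok

def lev0 : List (List ℕ) :=
  [[1],
   [2, 1],
   [3, 1, 1],
   [4, 1, 1, 1],
   [3, 2, 1],
   [4, 2, 1, 1],
   [4, 3, 2, 1],
   [5, 3, 2, 1, 1],
   [5, 4, 2, 2, 1],
   [6, 4, 2, 2, 1, 1],
   [6, 5, 2, 2, 2, 1],
   [7, 5, 2, 2, 2, 1, 1],
   [13, 12, 10, 9, 7, 5, 5, 4, 4, 3, 2, 2, 1],
   [15, 14, 12, 11, 10, 8, 6, 6, 5, 5, 4, 3, 2, 2, 1]]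

theorem lev0_good : ∀ μ ∈ lev0, GoodL μ := by
  simp only [lev0, List.forall_mem_cons]
  exact ⟨good_0, good_1, good_2, good_3, good_10, good_20, good_11, good_21, good_12, good_22, good_13, good_23, good_12122, good_121122, by simp⟩

def levAll : List (List ℕ) :=
  lev0 ++ lev3 ++ lev4 ++ lev5 ++ lev6 ++ lev7 ++ lev8 ++ lev9 ++ lev10 ++ lev11 ++ lev12 ++ lev13 ++ lev14

theorem levAll_good : ∀ μ ∈ levAll, GoodL μ := by
  simp only [levAll, List.forall_mem_append]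
  exact ⟨⟨⟨⟨⟨⟨⟨⟨⟨⟨⟨⟨lev0_good, lev3_good⟩, lev4_good⟩, lev5_good⟩, lev6_good⟩, lev7_good⟩, lev8_good⟩, lev9_good⟩, lev10_good⟩, lev11_good⟩, lev12_good⟩, lev13_good⟩, lev14_good⟩

theorem getD_good {st : List (List ℕ)} (h : ∀ μ ∈ st, GoodL μ) (i : ℕ) : GoodL (st.getD i []) := by
  rw [List.getD_eq_getElem?_getD]
  cases hi : st[i]? with
  | none => exact goodL_nil
  | some x => exact h x (List.mem_of_getElem? hi)

def R0 (q n : ℕ) : Prop := ∃ μ, T0 μ q ∧ μ.sum = n

def R1 (q n : ℕ) : Prop := ∃ μ, T1 μ q ∧ μ.sum = n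

def Ln (q n m : ℕ) : Prop := R0 q n ∧ ∀ u, 1 ≤ u → u ≤ m → R1 (q + 1) (n + 4 * u)

theorem R1.step {q n : ℕ} (h : R1 q n) : R1 (q + 4) (n + 4 * q + 10) := by
  obtain ⟨μ, h, rfl⟩ := h
  exact ⟨_, h.step, sum_hook2L_N h.len⟩

theorem R0.step {q n : ℕ} (h : R0 q n) : R0 (q + 4) (n + 4 * q + 10) := by
  obtain ⟨μ, h, rfl⟩ := h
  exact ⟨_, h.step, sum_hook2L_N h.t1.len⟩

theorem R0.stepX {q n : ℕ} (h : R0 q n) : R1 (q + 5) (n + 4 * q + 14) := by
  obtain ⟨μ, h, rfl⟩ := h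
  exact ⟨_, h.stepX, sum_hook2L_X h.t1.len⟩

theorem Ln.step {q n m : ℕ} (h : Ln q n m) : Ln (q + 4) (n + 4 * q + 10) (m + 1) := by
  refine ⟨h.1.step, fun u h1 h2 => ?_⟩
  rcases Nat.eq_or_lt_of_le h1 with rfl | h3
  · exact h.1.stepX
  · have := (h.2 (u - 1) (by omega) (by omega)).step
    convert this using 1
    omega

theorem Ln.iter {q n m : ℕ} (h : Ln q n m) (k : ℕ) :
    Ln (q + 4 * k) (n + (4 * q + 2) * k + 8 * (k * k)) (m + k) := by
  induction k with
  | zero => simpa using h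
  | succ k ih =>
    have := ih.step
    convert this using 1 <;> ring

theorem Ln.good {q n m : ℕ} (h : Ln q n m) {N : ℕ} (h1 : n ≤ N) (h2 : N ≤ n + 4 * m)
    (h3 : (N - n) % 4 = 0) : ∃ μ, Good N μ := by
  rcases Nat.eq_or_lt_of_le h1 with rfl | h4
  · obtain ⟨μ, h5, e⟩ := h.1
    exact ⟨_, e ▸ h5.1.2⟩
  · obtain ⟨μ, h, e⟩ := h.2 ((N - n) / 4) (by omega) (by omega)
    have e2 : μ.sum = N := by omega
    exact ⟨_, e2 ▸ h.1.2⟩

theorem ln_13 {q n m : ℕ}
    (h : (q, n) ∈ base0_13.map (fun e => (e.2.1, e.2.2.1)) ∧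
      ∀ u ∈ List.range m, (q + 1, n + 4 * (u + 1)) ∈ base1_13.map fun e => (e.2.1, e.2.2.1)) :
    Ln q n m := by
  constructor
  · obtain ⟨e, he, h1⟩ := List.mem_map.1 h.1
    have := List.all_eq_true.1 base0_13_ok e he
    rw [Bool.and_eq_true, Nat.beq_eq] at this
    obtain ⟨rfl, rfl⟩ := Prod.ext_iff.1 h1
    exact ⟨_, t0B_sound (getD_good lev13_good _) this.2, this.1⟩
  · intro u h1 h2
    obtain ⟨e, he, h3⟩ := List.mem_map.1 (h.2 (u - 1) (List.mem_range.2 (by omega)))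
    have := List.all_eq_true.1 base1_13_ok e he
    rw [Bool.and_eq_true, Nat.beq_eq] at this
    obtain ⟨h4, h5⟩ := Prod.ext_iff.1 h3
    refine ⟨_, h4 ▸ t1B_sound (getD_good lev13_good _) this.2, ?_⟩
    rw [this.1]
    simp only at h5
    omega

theorem ln_14 {q n m : ℕ}
    (h : (q, n) ∈ base0_14.map (fun e => (e.2.1, e.2.2.1)) ∧
      ∀ u ∈ List.range m, (q + 1, n + 4 * (u + 1)) ∈ base1_14.map fun e => (e.2.1, e.2.2.1)) :
    Ln q n m := by
  constructor
  · obtain ⟨e, he, h1⟩ := List.mem_map.1 h.1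
    have := List.all_eq_true.1 base0_14_ok e he
    rw [Bool.and_eq_true, Nat.beq_eq] at this
    obtain ⟨rfl, rfl⟩ := Prod.ext_iff.1 h1
    exact ⟨_, t0B_sound (getD_good lev14_good _) this.2, this.1⟩
  · intro u h1 h2
    obtain ⟨e, he, h3⟩ := List.mem_map.1 (h.2 (u - 1) (List.mem_range.2 (by omega)))
    have := List.all_eq_true.1 base1_14_ok e he
    rw [Bool.and_eq_true, Nat.beq_eq] at this
    obtain ⟨h4, h5⟩ := Prod.ext_iff.1 h3
    refine ⟨_, h4 ▸ t1B_sound (getD_good lev14_good _) this.2, ?_⟩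
    rw [this.1]
    simp only at h5
    omega

theorem exists_level (a b n : ℕ) (h : a + b + 8 ≤ n) :
    ∃ k, 1 ≤ k ∧ a + b * k + 8 * (k * k) ≤ n ∧ n < a + b * k + 8 * (k * k) + b + 16 * k + 8 := by
  induction n, h using Nat.le_induction with
  | base => exact ⟨1, le_rfl, by omega, by omega⟩
  | succ n _ ih =>
    obtain ⟨k, h1, h2, h3⟩ := ih
    by_cases h4 : n + 1 < a + b * k + 8 * (k * k) + b + 16 * k + 8
    · exact ⟨k, h1, by omega, h4⟩
    · refine ⟨k + 1, by omega, ?_, ?_⟩ <;> nlinarith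

theorem good_odd (n : ℕ) (h : 407 ≤ n) (hp : n % 2 = 1) : ∃ μ, Good n μ := by
  obtain ⟨k, hk, h1, h2⟩ := exists_level 301 98 n h
  have l00 := (ln_13 (q := 24) (n := 301) (m := 5) (by decide +kernel)).iter k
  have l10 := (ln_13 (q := 25) (n := 325) (m := 5) (by decide +kernel)).iter k
  have l20 := (ln_13 (q := 26) (n := 349) (m := 5) (by decide +kernel)).iter k
  have l30 := (ln_13 (q := 27) (n := 373) (m := 0) (by decide +kernel)).iter k
  have l12 := (ln_13 (q := 27) (n := 377) (m := 5) (by decide +kernel)).iter k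
  have l22 := (ln_13 (q := 28) (n := 401) (m := 0) (by decide +kernel)).iter k
  have l010 := (ln_13 (q := 24) (n := 303) (m := 5) (by decide +kernel)).iter k
  have l01 := (ln_13 (q := 25) (n := 327) (m := 5) (by decide +kernel)).iter k
  have l11 := (ln_13 (q := 26) (n := 351) (m := 5) (by decide +kernel)).iter k
  have l21 := (ln_13 (q := 27) (n := 375) (m := 5) (by decide +kernel)).iter k
  have l31 := (ln_13 (q := 28) (n := 399) (m := 0) (by decide +kernel)).iter k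
  have l13 := (ln_13 (q := 28) (n := 403) (m := 0) (by decide +kernel)).iter k
  generalize k * k = K at *
  by_cases c00 : 301 + 98 * k + 8 * K ≤ n ∧ n ≤ 301 + 98 * k + 8 * K + 4 * (5 + k) ∧
      (n - (301 + 98 * k + 8 * K)) % 4 = 0
  · exact l00.good c00.1 c00.2.1 c00.2.2
  by_cases c10 : 325 + 102 * k + 8 * K ≤ n ∧ n ≤ 325 + 102 * k + 8 * K + 4 * (5 + k) ∧
      (n - (325 + 102 * k + 8 * K)) % 4 = 0
  · exact l10.good c10.1 c10.2.1 c10.2.2
  by_cases c20 : 349 + 106 * k + 8 * K ≤ n ∧ n ≤ 349 + 106 * k + 8 * K + 4 * (5 + k) ∧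
      (n - (349 + 106 * k + 8 * K)) % 4 = 0
  · exact l20.good c20.1 c20.2.1 c20.2.2
  by_cases c30 : 373 + 110 * k + 8 * K ≤ n ∧ n ≤ 373 + 110 * k + 8 * K + 4 * (0 + k) ∧
      (n - (373 + 110 * k + 8 * K)) % 4 = 0
  · exact l30.good c30.1 c30.2.1 c30.2.2
  by_cases c12 : 377 + 110 * k + 8 * K ≤ n ∧ n ≤ 377 + 110 * k + 8 * K + 4 * (5 + k) ∧
      (n - (377 + 110 * k + 8 * K)) % 4 = 0
  · exact l12.good c12.1 c12.2.1 c12.2.2
  by_cases c22 : 401 + 114 * k + 8 * K ≤ n ∧ n ≤ 401 + 114 * k + 8 * K + 4 * (0 + k) ∧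
      (n - (401 + 114 * k + 8 * K)) % 4 = 0
  · exact l22.good c22.1 c22.2.1 c22.2.2
  by_cases c010 : 303 + 98 * k + 8 * K ≤ n ∧ n ≤ 303 + 98 * k + 8 * K + 4 * (5 + k) ∧
      (n - (303 + 98 * k + 8 * K)) % 4 = 0
  · exact l010.good c010.1 c010.2.1 c010.2.2
  by_cases c01 : 327 + 102 * k + 8 * K ≤ n ∧ n ≤ 327 + 102 * k + 8 * K + 4 * (5 + k) ∧
      (n - (327 + 102 * k + 8 * K)) % 4 = 0
  · exact l01.good c01.1 c01.2.1 c01.2.2
  by_cases c11 : 351 + 106 * k + 8 * K ≤ n ∧ n ≤ 351 + 106 * k + 8 * K + 4 * (5 + k) ∧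
      (n - (351 + 106 * k + 8 * K)) % 4 = 0
  · exact l11.good c11.1 c11.2.1 c11.2.2
  by_cases c21 : 375 + 110 * k + 8 * K ≤ n ∧ n ≤ 375 + 110 * k + 8 * K + 4 * (5 + k) ∧
      (n - (375 + 110 * k + 8 * K)) % 4 = 0
  · exact l21.good c21.1 c21.2.1 c21.2.2
  by_cases c31 : 399 + 114 * k + 8 * K ≤ n ∧ n ≤ 399 + 114 * k + 8 * K + 4 * (0 + k) ∧
      (n - (399 + 114 * k + 8 * K)) % 4 = 0
  · exact l31.good c31.1 c31.2.1 c31.2.2
  by_cases c13 : 403 + 114 * k + 8 * K ≤ n ∧ n ≤ 403 + 114 * k + 8 * K + 4 * (0 + k) ∧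
      (n - (403 + 114 * k + 8 * K)) % 4 = 0
  · exact l13.good c13.1 c13.2.1 c13.2.2
  exfalso
  omega

theorem good_even (n : ℕ) (h : 466 ≤ n) (hp : n % 2 = 0) : ∃ μ, Good n μ := by
  obtain ⟨k, hk, h1, h2⟩ := exists_level 352 106 n h
  have l00 := (ln_14 (q := 26) (n := 352) (m := 6) (by decide +kernel)).iter k
  have l01 := (ln_14 (q := 27) (n := 380) (m := 5) (by decide +kernel)).iter k
  have l20 := (ln_14 (q := 28) (n := 404) (m := 6) (by decide +kernel)).iter k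
  have l21 := (ln_14 (q := 29) (n := 432) (m := 6) (by decide +kernel)).iter k
  have l22 := (ln_14 (q := 30) (n := 460) (m := 0) (by decide +kernel)).iter k
  have l010 := (ln_14 (q := 26) (n := 354) (m := 5) (by decide +kernel)).iter k
  have l10 := (ln_14 (q := 27) (n := 378) (m := 6) (by decide +kernel)).iter k
  have l11 := (ln_14 (q := 28) (n := 406) (m := 6) (by decide +kernel)).iter k
  have l12 := (ln_14 (q := 29) (n := 434) (m := 6) (by decide +kernel)).iter k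
  have l13 := (ln_14 (q := 30) (n := 462) (m := 0) (by decide +kernel)).iter k
  generalize k * k = K at *
  by_cases c00 : 352 + 106 * k + 8 * K ≤ n ∧ n ≤ 352 + 106 * k + 8 * K + 4 * (6 + k) ∧
      (n - (352 + 106 * k + 8 * K)) % 4 = 0
  · exact l00.good c00.1 c00.2.1 c00.2.2
  by_cases c01 : 380 + 110 * k + 8 * K ≤ n ∧ n ≤ 380 + 110 * k + 8 * K + 4 * (5 + k) ∧
      (n - (380 + 110 * k + 8 * K)) % 4 = 0
  · exact l01.good c01.1 c01.2.1 c01.2.2
  by_cases c20 : 404 + 114 * k + 8 * K ≤ n ∧ n ≤ 404 + 114 * k + 8 * K + 4 * (6 + k) ∧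
      (n - (404 + 114 * k + 8 * K)) % 4 = 0
  · exact l20.good c20.1 c20.2.1 c20.2.2
  by_cases c21 : 432 + 118 * k + 8 * K ≤ n ∧ n ≤ 432 + 118 * k + 8 * K + 4 * (6 + k) ∧
      (n - (432 + 118 * k + 8 * K)) % 4 = 0
  · exact l21.good c21.1 c21.2.1 c21.2.2
  by_cases c22 : 460 + 122 * k + 8 * K ≤ n ∧ n ≤ 460 + 122 * k + 8 * K + 4 * (0 + k) ∧
      (n - (460 + 122 * k + 8 * K)) % 4 = 0
  · exact l22.good c22.1 c22.2.1 c22.2.2
  by_cases c010 : 354 + 106 * k + 8 * K ≤ n ∧ n ≤ 354 + 106 * k + 8 * K + 4 * (5 + k) ∧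
      (n - (354 + 106 * k + 8 * K)) % 4 = 0
  · exact l010.good c010.1 c010.2.1 c010.2.2
  by_cases c10 : 378 + 110 * k + 8 * K ≤ n ∧ n ≤ 378 + 110 * k + 8 * K + 4 * (6 + k) ∧
      (n - (378 + 110 * k + 8 * K)) % 4 = 0
  · exact l10.good c10.1 c10.2.1 c10.2.2
  by_cases c11 : 406 + 114 * k + 8 * K ≤ n ∧ n ≤ 406 + 114 * k + 8 * K + 4 * (6 + k) ∧
      (n - (406 + 114 * k + 8 * K)) % 4 = 0
  · exact l11.good c11.1 c11.2.1 c11.2.2
  by_cases c12 : 434 + 118 * k + 8 * K ≤ n ∧ n ≤ 434 + 118 * k + 8 * K + 4 * (6 + k) ∧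
      (n - (434 + 118 * k + 8 * K)) % 4 = 0
  · exact l12.good c12.1 c12.2.1 c12.2.2
  by_cases c13 : 462 + 122 * k + 8 * K ≤ n ∧ n ≤ 462 + 122 * k + 8 * K + 4 * (0 + k) ∧
      (n - (462 + 122 * k + 8 * K)) % 4 = 0
  · exact l13.good c13.1 c13.2.1 c13.2.2
  exfalso
  omega

theorem small_mem : (List.range 467).all (fun n => n == 0 || n == 2 || n == 4 || n == 9 ||
    (Nat.ble 407 n && n % 2 == 1) || n == 466 || (levAll.map List.sum).contains n) = true := by
  decide +kernel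

theorem good_all (n : ℕ) (hn : 0 < n) (h2 : n ≠ 2) (h4 : n ≠ 4) (h9 : n ≠ 9) : ∃ μ, Good n μ := by
  by_cases ho : 407 ≤ n ∧ n % 2 = 1
  · exact good_odd n ho.1 ho.2
  by_cases he : 466 ≤ n
  · exact good_even n he (by omega)
  have := List.all_eq_true.1 small_mem n (List.mem_range.2 (by omega))
  simp only [Bool.or_eq_true, beq_iff_eq, Bool.and_eq_true, Nat.ble_eq, List.contains_iff_mem,
    List.mem_map] at this
  rcases this with (((((h | h) | h) | h) | h) | h) | ⟨μ, hμ, rfl⟩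
  · omega
  · omega
  · omega
  · omega
  · omega
  · omega
  · exact ⟨_, (levAll_good μ hμ).2⟩

/-- The staircase as a list. -/
def stairL : ℕ → List ℕ
  | 0 => []
  | m + 1 => (m + 1) :: stairL m

theorem toF_stairL (m : ℕ) : toF (stairL m) = fun i => m - i := by
  induction m with
  | zero => simp [stairL, toF_nil]
  | succ m ih =>
    rw [stairL, toF_cons, ih]
    funext i
    cases i with
    | zero => rfl
    | succ i => simp [rcons]

theorem stairL_length (m : ℕ) : (stairL m).length = m := by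
  induction m with
  | zero => rfl
  | succ m ih => simp [stairL, ih]

theorem stairL_shift (m : ℕ) : (stairL m).map (· + 2) ++ [2, 1] = stairL (m + 2) := by
  induction m with
  | zero => rfl
  | succ m ih =>
    rw [stairL, List.map_cons, List.cons_append, ih]
    rfl

theorem hook2L_stair (m : ℕ) : hook2L (m + 4) (stairL m) = stairL (m + 4) := by
  rw [hook2L_N (stairL_length m), stairL_shift]
  rfl

theorem stair_T1 (m : ℕ) (h : T1 (stairL m) m) (k : ℕ) : T1 (stairL (m + 4 * k)) (m + 4 * k) := by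
  induction k with
  | zero => exact h
  | succ k ih =>
    have := ih.step
    rw [hook2L_stair] at this
    exact this

theorem stair_base {d : List (List ℕ)} {b : List (ℕ × ℕ × ℕ × GD × Par × Par)}
    (hd : ∀ μ ∈ d, GoodL μ)
    (hb : b.all (fun e => Nat.beq (d.getD e.1 []).sum e.2.2.1 &&
      t0B (d.getD e.1 []) e.2.1 e.2.2.2.1 e.2.2.2.2.1 e.2.2.2.2.2) = true) (m : ℕ)
    (h : (stairL m, m) ∈ b.map fun e => (d.getD e.1 [], e.2.1)) : T1 (stairL m) m := by
  obtain ⟨e, he, h1⟩ := List.mem_map.1 h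
  have := List.all_eq_true.1 hb e he
  rw [Bool.and_eq_true] at this
  obtain ⟨h2, h3⟩ := Prod.ext_iff.1 h1
  have h4 := (t0B_sound (getD_good hd _) this.2).t1
  simp only at h2 h3
  rwa [h2, h3] at h4

theorem stair_small : (List.range 25).all (fun m => m == 0 || levAll.contains (stairL m)) = true := by
  decide +kernel

theorem goodL_stair (m : ℕ) (hm : 1 ≤ m) : GoodL (stairL m) := by
  by_cases h : m < 25
  · have := List.all_eq_true.1 stair_small m (List.mem_range.2 h)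
    simp only [Bool.or_eq_true, beq_iff_eq, List.contains_iff_mem] at this
    rcases this with h0 | h0
    · omega
    · exact levAll_good _ h0
  have b25 := stair_base lev13_good base0_13_ok 25 (by decide +kernel)
  have b26 := stair_base lev13_good base0_13_ok 26 (by decide +kernel)
  have b27 := stair_base lev14_good base0_14_ok 27 (by decide +kernel)
  have b28 := stair_base lev14_good base0_14_ok 28 (by decide +kernel)
  obtain ⟨k, rfl | rfl | rfl | rfl⟩ : ∃ k, m = 25 + 4 * k ∨ m = 26 + 4 * k ∨ m = 27 + 4 * k ∨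
      m = 28 + 4 * k := ⟨(m - 25) / 4, by omega⟩
  · exact (stair_T1 _ b25 k).1
  · exact (stair_T1 _ b26 k).1
  · exact (stair_T1 _ b27 k).1
  · exact (stair_T1 _ b28 k).1

theorem good_stair (m : ℕ) (hm : 1 ≤ m) : ∃ n, Good n fun i => m - i :=
  ⟨_, toF_stairL m ▸ (goodL_stair m hm).2⟩

end Crest.Agent.R195
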