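import Crest.Agent.R195.Key
import Crest.Agent.R195.Cert
import Crest.Agent.R195.ThmH

/-! Row 195: every shape with at most four rows occurs in the square of `(L, L-1)`. -/

set_option autoImplicit false
open Finset Equiv

namespace Crest.Agent.R195

theorem rich_one_eq (n : ℕ) : one n = toF [n] := by
  funext i
  rcases i with _ | i <;> simp [one, toF]

theorem rich_triv {l : List ℕ} (h : l.Pairwise (· ≥ ·)) : Kron (toF l) (toF l) (toF [l.sum]) := by
  rw [← rich_one_eq]
  exact (kron_triv (isPart_toF h)).swap12.swap23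

theorem rich_pad (a b c : ℕ) : toF [a, b, c, 0] = toF [a, b, c] := by
  funext i
  rcases i with _ | _ | _ | _ | i <;> simp [toF]

theorem rich_pad' (a b : ℕ) : toF [a, b, 0] = toF [a, b] := by
  funext i
  rcases i with _ | _ | _ | i <;> simp [toF]

theorem rich_pad'' (a : ℕ) : toF [a, 0] = toF [a] := by
  funext i
  rcases i with _ | _ | i <;> simp [toF]

theorem rich_two (L : ℕ) : two L = toF [L, L - 1] := by
  funext i
  rcases i with _ | _ | i <;> simp [two, toF]

theorem rich_step {L k a b c d p q r s L' a' b' c' d' : ℕ} (hL : 1 ≤ L)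
    (h : Kron (two L) (two L) (toF [a, b, c, d]))
    (h' : Kron (toF [k, k]) (toF [k, k]) (toF [p, q, r, s]))
    (e : L' = L + k ∧ a' = a + p ∧ b' = b + q ∧ c' = c + r ∧ d' = d + s) :
    Kron (two L') (two L') (toF [a', b', c', d']) := by
  obtain ⟨rfl, rfl, rfl, rfl, rfl⟩ := e
  have e1 : two L + toF [k, k] = two (L + k) := by
    funext i
    rcases i with _ | _ | i <;> simp [two, toF]
    omega
  have e2 : toF [a, b, c, d] + toF [p, q, r, s] = toF [a + p, b + q, c + r, d + s] := by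
    funext i
    rcases i with _ | _ | _ | _ | i <;> simp [toF]
  have := h.add h'
  rwa [e1, e2] at this

theorem rich_g1 : Kron (toF [1, 1]) (toF [1, 1]) (toF [2, 0, 0, 0]) := by
  rw [rich_pad, rich_pad', rich_pad'']
  exact rich_triv (l := [1, 1]) (by decide)

theorem rich_g2 : Kron (toF [2, 2]) (toF [2, 2]) (toF [2, 2, 0, 0]) := by
  rw [rich_pad, rich_pad']
  exact special4

theorem rich_g3 : Kron (toF [3, 3]) (toF [3, 3]) (toF [2, 2, 2, 0]) := by
  rw [rich_pad]
  exact special6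

theorem rich_g4 : Kron (toF [2, 2]) (toF [2, 2]) (toF [1, 1, 1, 1]) :=
  (rich_triv (l := [2, 2]) (by decide)).conj23 (isConj_conjL (l := [2, 2]) (by decide))
    (isConj_conjL (l := [4]) (by decide))

theorem rich_b1 : Kron (two 1) (two 1) (toF [1, 0, 0, 0]) := by
  rw [rich_pad, rich_pad', rich_pad'', rich_two, rich_pad'']
  exact rich_triv (l := [1]) (by decide)

theorem rich_b2 : Kron (two 2) (two 2) (toF [2, 1, 0, 0]) := by
  rw [rich_pad, rich_pad', rich_two, toF_cons]
  refine thmH (θ := toF [1]) (m := 1) (rich_triv (l := [1]) (by decide))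
    (isPart_toF (l := [1]) (by decide)) ?_ ?_ ?_ (by simp [toF]) (by simp [toF]) ?_
  · rw [← toF_cons]
    exact isPart_toF (l := [2, 1]) (by decide)
  · intro i
    rcases i with _ | i <;> simp [toF, rcons]
  · intro i
    simp [rcons]
  · intro t
    rcases t with _ | t <;> simp [toF]

theorem rich_b3 : Kron (two 2) (two 2) (toF [1, 1, 1, 0]) := by
  rw [rich_pad, rich_two]
  exact (rich_triv (l := [2, 1]) (by decide)).conj23 (isConj_conjL (l := [2, 1]) (by decide))
    (isConj_conjL (l := [3]) (by decide))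

theorem rich_b4 : Kron (two 3) (two 3) (toF [2, 2, 1, 0]) := by
  rw [rich_pad, rich_two]
  exact special5

theorem rich_aux (L : ℕ) : ∀ a b c d : ℕ, b ≤ a → c ≤ b → d ≤ c → a + b + c + d + 1 = 2 * L →
    Kron (two L) (two L) (toF [a, b, c, d]) := by
  induction L using Nat.strong_induction_on with
  | _ L ih =>
    intro a b c d h1 h2 h3 hs
    by_cases hd : 1 ≤ d
    · exact rich_step (by omega) (ih (L - 2) (by omega) (a - 1) (b - 1) (c - 1) (d - 1)
        (by omega) (by omega) (by omega) (by omega)) rich_g4 (by omega)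
    by_cases hc : 2 ≤ c
    · exact rich_step (by omega) (ih (L - 3) (by omega) (a - 2) (b - 2) (c - 2) d
        (by omega) (by omega) (by omega) (by omega)) rich_g3 (by omega)
    by_cases hb : c + 2 ≤ b
    · exact rich_step (by omega) (ih (L - 2) (by omega) (a - 2) (b - 2) c d
        (by omega) (by omega) (by omega) (by omega)) rich_g2 (by omega)
    by_cases ha : b + 2 ≤ a
    · exact rich_step (by omega) (ih (L - 1) (by omega) (a - 2) b c d
        (by omega) (by omega) (by omega) (by omega)) rich_g1 (by omega)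
    have : (L = 1 ∧ a = 1 ∧ b = 0 ∧ c = 0 ∧ d = 0) ∨ (L = 2 ∧ a = 2 ∧ b = 1 ∧ c = 0 ∧ d = 0) ∨
        (L = 2 ∧ a = 1 ∧ b = 1 ∧ c = 1 ∧ d = 0) ∨ (L = 3 ∧ a = 2 ∧ b = 2 ∧ c = 1 ∧ d = 0) := by
      omega
    rcases this with ⟨rfl, rfl, rfl, rfl, rfl⟩ | ⟨rfl, rfl, rfl, rfl, rfl⟩ |
      ⟨rfl, rfl, rfl, rfl, rfl⟩ | ⟨rfl, rfl, rfl, rfl, rfl⟩
    · exact rich_b1
    · exact rich_b2
    · exact rich_b3
    · exact rich_b4

theorem rich {L : ℕ} (hL : 1 ≤ L) {κ : ℕ → ℕ} (hκ : IsPart (2 * L - 1) κ) (h4 : κ 4 = 0) :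
    Kron (two L) (two L) κ := by
  have h0 : ∀ i, κ (i + 4) = 0 := fun i =>
    Nat.eq_zero_of_le_zero (h4 ▸ hκ.1 (Nat.le_add_left 4 i))
  have e : κ = toF [κ 0, κ 1, κ 2, κ 3] := by
    funext i
    rcases i with _ | _ | _ | _ | i
    · rfl
    · rfl
    · rfl
    · rfl
    · simpa [toF] using h0 i
  have hs : κ 0 + κ 1 + κ 2 + κ 3 = 2 * L - 1 := by
    have h1 := hκ.unique (isPart_of hκ.1 h4 rfl)
    rw [h1]
    simp [psum, Finset.sum_range_succ]
  rw [e]
  exact rich_aux L _ _ _ _ (hκ.1 (by norm_num)) (hκ.1 (by norm_num)) (hκ.1 (by norm_num))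
    (by omega)

end Crest.Agent.R195
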