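import Crest.Agent.R195.Kron
import Crest.Agent.R195.Reach

/-! Row 195: the core claim of Theorem H. -/

set_option autoImplicit false
open Finset Equiv

namespace Crest.Agent.R195

variable {Ω : Type} [Fintype Ω] [DecidableEq Ω]

/-- The product of the two polytabloid coefficients. -/
noncomputable def thmHF (c1 r1 a1 c2 r2 a2 : Ω → ℕ) (σ : Perm Ω) : ℝ :=
  ((eps c1 r1 (a1 ∘ σ) * eps c2 r2 (a2 ∘ σ) : ℤ) : ℝ)

/-- Functions orthogonal to all products of matrix coefficients of shapes `μ`, `ν`. -/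
def thmHI (μ ν : ℕ → ℕ) (z : Perm Ω → ℝ) : Prop :=
  ∀ c1 r1 a1 c2 r2 a2 : Ω → ℕ, IsTab μ c1 r1 → IsTab ν c2 r2 →
    ∑ σ : Perm Ω, thmHF c1 r1 a1 c2 r2 a2 σ * z σ = 0

/-- The setwise stabiliser of `M`. -/
def thmHS (M : Finset Ω) : Finset (Perm Ω) := univ.filter fun h => ∀ x, h x ∈ M ↔ x ∈ M

theorem mem_thmHS {M : Finset Ω} {h : Perm Ω} : h ∈ thmHS M ↔ ∀ x, h x ∈ M ↔ x ∈ M := by
  simp [thmHS]

theorem thmH_eps_mul_inv (c r a : Ω → ℕ) (σ g : Perm Ω) :
    eps c r (a ∘ ⇑(σ * g⁻¹)) = eps (c ∘ g) (r ∘ g) (a ∘ σ) := by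
  rw [← eps_comp_equiv c r _ g]
  congr 1
  funext x
  simp

theorem thmHI.right {μ ν : ℕ → ℕ} {z : Perm Ω → ℝ} (h : thmHI μ ν z) (g : Perm Ω) :
    thmHI μ ν fun σ => z (σ * g) := by
  intro c1 r1 a1 c2 r2 a2 h1 h2
  have := h _ _ a1 _ _ a2 (h1.comp_equiv g) (h2.comp_equiv g)
  rw [← this]
  refine Fintype.sum_equiv (Equiv.mulRight g) _ _ fun σ => ?_
  simp only [Equiv.coe_mulRight, thmHF]
  rw [← thmH_eps_mul_inv, ← thmH_eps_mul_inv, mul_inv_cancel_right]

theorem thmH_eps_row0 (Z : Ω → Prop) [DecidablePred Z] {c r a : Ω → ℕ} (hr : ∀ x, r x = 0 ↔ Z x)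
    (ha : ∀ x, a x = 0 ↔ Z x) (hc : ∀ x y, r x = r y → c x = c y → x = y) :
    eps c r a = eps (fun x : {x // ¬ Z x} => c x) (fun x => r x) (fun x => a x) := by
  rw [eps_split c r a Z fun x y _ h2 hy => (ha x).1 (h2.trans ((hr y).2 hy))]
  have e : (fun x : {x // Z x} => a x) = fun x : {x // Z x} => r x := by
    funext x
    rw [(ha x).2 x.2, (hr x).2 x.2]
  rw [e, eps_self fun x y h1 h2 => Subtype.ext (hc _ _ h1 h2), one_mul]

/-- The order of the first row is irrelevant for words with the same zero set. -/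
theorem thmH_eps_indep (M : Finset Ω) {c c' r a : Ω → ℕ} (hr : ∀ x, r x = 0 ↔ x ∈ M)
    (ha : ∀ x, a x = 0 ↔ x ∈ M) (hc : ∀ x y, r x = r y → c x = c y → x = y)
    (hc' : ∀ x y, r x = r y → c' x = c' y → x = y) (h : ∀ x, x ∉ M → c' x = c x) :
    eps c' r a = eps c r a := by
  rw [thmH_eps_row0 (· ∈ M) hr ha hc, thmH_eps_row0 (· ∈ M) hr ha hc']
  congr 1
  funext x
  exact h x x.2

theorem thmH_sign_sq (π : Perm Ω) : ((Perm.sign π : ℤˣ) : ℤ) * ((Perm.sign π : ℤˣ) : ℤ) = 1 := by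
  rw [← Units.val_mul, Int.units_mul_self, Units.val_one]

theorem thmHF_mul_par {c1 r1 a1 c2 r2 a2 : Ω → ℕ} (h π : Perm Ω) (h1 : ∀ y, c1 (π y) = c1 y)
    (h2 : ∀ y, c2 (π y) = c2 y) :
    thmHF c1 r1 a1 c2 r2 a2 (h * π) = thmHF c1 r1 a1 c2 r2 a2 h := by
  unfold thmHF
  rw [Perm.coe_mul, ← Function.comp_assoc, ← Function.comp_assoc, eps_comp_col _ _ _ π h1,
    eps_comp_col _ _ _ π h2, mul_mul_mul_comm, thmH_sign_sq, one_mul]

/-- A nonzero term moves the first row onto `σ⁻¹ M` by a column permutation. -/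
theorem thmH_exists_col {M : Finset Ω} {c r a : Ω → ℕ} (hr : ∀ x, r x = 0 ↔ x ∈ M)
    (ha : ∀ x, a x = 0 ↔ x ∈ M) {σ : Perm Ω} (h : eps c r (a ∘ σ) ≠ 0) :
    ∃ γ : Perm Ω, (∀ y, c (γ y) = c y) ∧ ∀ y, σ (γ y) ∈ M ↔ y ∈ M := by
  obtain ⟨γ, h1, h2⟩ := exists_of_eps_ne h
  exact ⟨γ, h1, fun y => by rw [← ha, ← hr, ← h2 y]; rfl⟩

/-- The Reach property of the position colouring. -/
theorem thmH_reach {α β : ℕ → ℕ} {b : ℕ} (M : Finset Ω)
    (hc : ∀ t, α t + β t ≤ b ∨ α t + β t + t + 1 ≤ 2 * b) {c1 r1 c2 r2 : Ω → ℕ}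
    (h1 : IsTab (rcons b α) c1 r1) (h2 : IsTab (rcons b β) c2 r2)
    (hr1 : ∀ x, r1 x = 0 ↔ x ∈ M) (hr2 : ∀ x, r2 x = 0 ↔ x ∈ M)
    (hD : ∀ x ∈ M, c1 x + c2 x + 1 = b) :
    Reach (fun x => (c1 x, c2 x)) (blob M fun x => (c1 x, c2 x)) := by
  have hM : M.card = b := by
    have := h1.card_row 0
    rw [show rcons b α 0 = b from rfl] at this
    rw [← this]
    congr 1
    ext x
    simp [hr1]
  have key : ∀ {μ : ℕ → ℕ} {c r : Ω → ℕ}, IsTab (rcons b μ) c r → (∀ x, r x = 0 ↔ x ∈ M) →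
      ∀ (t j : ℕ) (Y : Finset Ω), (∀ y ∈ Y, y ∉ M ∧ c y = j) → t < Y.card → j < μ t := by
    intro μ c r h hr t j Y hY ht
    by_contra hcon
    have : Y.card ≤ (Ioc 0 t).card := by
      refine card_le_card_of_injOn r (fun y hy => ?_) fun x hx y hy e => ?_
      · have hy' := hY y hy
        have h0 : r y ≠ 0 := fun e => hy'.1 ((hr y).1 e)
        have h3 := h.mem y
        have : r y ≤ t := by
          by_contra h4
          have h5 : rcons b μ (r y) ≤ rcons b μ (t + 1) := h.anti (by omega)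
          rw [show rcons b μ (t + 1) = μ t from rfl] at h5
          omega
        simp only [coe_Ioc, Set.mem_Ioc]
        omega
      · exact h.inj x y e ((hY x hx).2.trans (hY y hy).2.symm)
    simp only [Nat.card_Ioc] at this
    omega
  refine reach_moves _ _ M M Subset.rfl (fun x hx y hy e => ?_) (fun m _ y _ e => e) (fun t => ?_)
    (reach_of_coarser fun x y e => ?_)
  · exact h1.inj x y (((hr1 x).2 hx).trans ((hr1 y).2 hy).symm) (congrArg Prod.fst e)
  · have hβ : β t ≤ b := h2.anti (Nat.zero_le (t + 1))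
    have : (M.filter fun m => t < (univ.filter fun y => y ∉ M ∧
        (c1 y, c2 y) = (c1 m, c2 m)).card).card ≤ (Ico (b - β t) (α t)).card := by
      refine card_le_card_of_injOn c1 (fun m hm => ?_) fun x hx y hy e => ?_
      · simp only [coe_filter, Set.mem_ofPred_eq] at hm
        have h3 := key h1 hr1 t (c1 m) _ (fun y hy => by
          simp only [mem_filter, mem_univ, true_and, Prod.mk.injEq] at hy
          exact ⟨hy.1, hy.2.1⟩) hm.2
        have h4 := key h2 hr2 t (c2 m) _ (fun y hy => by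
          simp only [mem_filter, mem_univ, true_and, Prod.mk.injEq] at hy
          exact ⟨hy.1, hy.2.2⟩) hm.2
        have h5 := hD m hm.1
        simp only [coe_Ico, Set.mem_Ico]
        omega
      · simp only [coe_filter, Set.mem_ofPred_eq] at hx hy
        exact h1.inj x y (((hr1 x).2 hx.1).trans ((hr1 y).2 hy.1).symm) e
    rw [Nat.card_Ico] at this
    have := hc t
    omega
  · simp only [blob, sdiff_self, bot_eq_empty, notMem_empty, if_false]
    exact congrArg some e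

/-- The tie part: if the sum over the permutations with `σ⁻¹ M` on the antidiagonal vanishes for
all right translates of `z`, the inner sum vanishes. -/
theorem thmH_tie {α β : ℕ → ℕ} {b : ℕ} (M : Finset Ω)
    (hc : ∀ t, α t + β t ≤ b ∨ α t + β t + t + 1 ≤ 2 * b) {c1 r1 a1 c2 r2 a2 : Ω → ℕ}
    (h1 : IsTab (rcons b α) c1 r1) (h2 : IsTab (rcons b β) c2 r2)
    (hr1 : ∀ x, r1 x = 0 ↔ x ∈ M) (hr2 : ∀ x, r2 x = 0 ↔ x ∈ M)
    (ha1 : ∀ x, a1 x = 0 ↔ x ∈ M) (ha2 : ∀ x, a2 x = 0 ↔ x ∈ M)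
    (hD : ∀ x ∈ M, c1 x + c2 x + 1 = b) (z : Perm Ω → ℝ)
    (hz : ∀ g, ∑ σ : Perm Ω, (if ∀ x, σ x ∈ M → c1 x + c2 x + 1 = b then
      thmHF c1 r1 a1 c2 r2 a2 σ * z (σ * g) else 0) = 0) :
    ∑ h ∈ thmHS M, thmHF c1 r1 a1 c2 r2 a2 h * z h = 0 := by
  set pos : Ω → ℕ × ℕ := fun x => (c1 x, c2 x) with hpos
  set u : Perm Ω → ℝ := fun g => ∑ h ∈ thmHS M, thmHF c1 r1 a1 c2 r2 a2 h * z (h * g) with hu
  have hpar : ∀ {π : Perm Ω}, π ∈ stab pos ↔ (∀ y, c1 (π y) = c1 y) ∧ ∀ y, c2 (π y) = c2 y := by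
    intro π
    simp only [mem_stab, hpos, Prod.mk.injEq, forall_and]
  obtain ⟨C, hC, hsum⟩ := sum_mul_subgroups (thmHS M) (stab pos) (by simp [mem_thmHS])
    (fun x hx y hy => by
      rw [mem_thmHS] at hx hy ⊢
      intro w
      rw [Perm.mul_apply, hx, ← hy, Perm.coe_inv, apply_symm_apply])
    (by simp [mem_stab])
    (fun x hx y hy => by
      rw [mem_stab] at hx hy ⊢
      intro w
      rw [Perm.mul_apply, hx, ← hy, Perm.coe_inv, apply_symm_apply])
  have hsym : symz pos u = 0 := by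
    funext g
    have := hsum (fun σ => if ∀ x, σ x ∈ M → c1 x + c2 x + 1 = b then
      thmHF c1 r1 a1 c2 r2 a2 σ * z (σ * g) else 0) fun σ hσ => ?_
    · rw [hz g, mul_zero, sum_comm] at this
      rw [Pi.zero_apply, ← this, symz]
      refine sum_congr rfl fun π hπ => sum_congr rfl fun h hh => ?_
      rw [hpar] at hπ
      rw [if_pos, thmHF_mul_par _ _ hπ.1 hπ.2, mul_assoc]
      intro x hx
      rw [Perm.mul_apply, mem_thmHS.1 hh] at hx
      rw [← hπ.1, ← hπ.2]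
      exact hD _ hx
    · have hσ1 : ∀ x, σ x ∈ M → c1 x + c2 x + 1 = b := by
        by_contra hcon
        exact hσ (if_neg hcon)
      rw [if_pos hσ1] at hσ
      have hne : eps c1 r1 (a1 ∘ σ) ≠ 0 := fun e => hσ (by simp [thmHF, e])
      obtain ⟨γ, hγc, hγM⟩ := thmH_exists_col hr1 ha1 hne
      have hγp : ∀ y ∈ M, pos (γ y) = pos y := by
        intro y hy
        have h3 := hσ1 _ ((hγM y).2 hy)
        have h4 := hD y hy
        have h5 := hγc y
        simp only [hpos, Prod.mk.injEq]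
        omega
      have hT : ∀ p, (univ.filter fun x => pos x = p ∧ x ∈ M).card =
          (univ.filter fun x => pos x = p ∧ σ x ∈ M).card := by
        intro p
        refine card_bij (fun x _ => γ x) (fun x hx => ?_) (fun x _ y _ e => γ.injective e)
          fun y hy => ?_
        · simp only [mem_filter, mem_univ, true_and] at hx ⊢
          exact ⟨(hγp x hx.2).trans hx.1, (hγM x).2 hx.2⟩
        · simp only [mem_filter, mem_univ, true_and] at hy ⊢
          have h3 : γ.symm y ∈ M := by rw [← hγM, apply_symm_apply]; exact hy.2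
          refine ⟨γ.symm y, ⟨?_, h3⟩, apply_symm_apply _ _⟩
          rw [← hγp _ h3, apply_symm_apply]
          exact hy.1
      obtain ⟨e, he⟩ := exists_equiv_of_card_fiber (fun x => (pos x, decide (x ∈ M)))
        (fun x => (pos x, decide (σ x ∈ M))) (by
          rintro ⟨p, _ | _⟩
          · have h3 := card_filter_add_card_filter_not (s := univ.filter fun x => pos x = p)
              (fun x => x ∈ M)
            have h4 := card_filter_add_card_filter_not (s := univ.filter fun x => pos x = p)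
              (fun x => σ x ∈ M)
            have h5 := hT p
            simp only [filter_filter] at h3 h4
            simp only [Prod.mk.injEq, decide_eq_false_iff_not]
            omega
          · simpa only [Prod.mk.injEq, decide_eq_true_eq] using hT p)
      simp only [Prod.mk.injEq, decide_eq_decide] at he
      refine ⟨σ * e, mem_thmHS.2 fun x => (he x).2, (e : Perm Ω)⁻¹, mem_stab.2 fun x => ?_, by
        rw [mul_inv_cancel_right]⟩
      rw [← (he _).1, Perm.coe_inv, apply_symm_apply]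
  have hinv : LInv (blob M pos) u := by
    intro x y hxy g
    have hM : x ∈ M ↔ y ∈ M := by
      unfold blob at hxy
      split_ifs at hxy <;> simp [*]
    have hs : ∀ w, swap x y w ∈ M ↔ w ∈ M := by
      intro w
      rw [swap_apply_def]
      split_ifs with h3 h4
      · rw [h3, hM]
      · rw [h4, hM]
      · rfl
    simp only [hu]
    refine sum_equiv (Equiv.mulRight (swap x y)) (fun h => ?_) fun h hh => ?_
    · simp only [mem_thmHS, Equiv.coe_mulRight, Perm.mul_apply]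
      refine ⟨fun H w => by rw [H, hs], fun H w => ?_⟩
      have := H (swap x y w)
      rwa [swap_apply_self, hs] at this
    · rw [Equiv.coe_mulRight, mul_assoc]
      congr 1
      by_cases hx : x ∈ M
      · have hy := hM.1 hx
        have key : ∀ a : Ω → ℕ, (∀ x, a x = 0 ↔ x ∈ M) → a ∘ ⇑(h * swap x y) = a ∘ h := by
          intro a ha
          funext w
          simp only [Function.comp_apply, Perm.mul_apply]
          by_cases hw : w ∈ M
          · rw [(ha _).2 ((mem_thmHS.1 hh _).2 hw),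
              (ha _).2 ((mem_thmHS.1 hh _).2 ((hs w).2 hw))]
          · rw [swap_apply_of_ne_of_ne (ne_of_mem_of_not_mem hx hw).symm
              (ne_of_mem_of_not_mem hy hw).symm]
        unfold thmHF
        rw [key a1 ha1, key a2 ha2]
      · have hy : y ∉ M := fun h => hx (hM.2 h)
        simp only [blob, hx, hy, if_false, Option.some.injEq, hpos, Prod.mk.injEq] at hxy
        refine (thmHF_mul_par _ _ (fun w => ?_) fun w => ?_).symm
        · exact apply_swap_eq_self hxy.1 w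
        · exact apply_swap_eq_self hxy.2 w
  have := congrFun (thmH_reach M hc h1 h2 hr1 hr2 hD u hinv hsym) 1
  simpa only [hu, mul_one, Pi.zero_apply] using this

/-- Translating by a column permutation of the first tableau changes the configuration. -/
theorem thmHF_mul_inv {c1 r1 a1 c2 r2 a2 : Ω → ℕ} (γ1 γ2 : Perm Ω) (h1 : ∀ y, c1 (γ1 y) = c1 y)
    (h2 : ∀ y, c2 (γ2 y) = c2 y) : ∃ s : ℝ, ∀ h : Perm Ω,
    thmHF c1 r1 a1 c2 r2 a2 (h * γ1⁻¹) =
      s * thmHF c1 r1 a1 (c2 ∘ ⇑(γ2⁻¹ * γ1)) (r2 ∘ ⇑(γ2⁻¹ * γ1)) a2 h := by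
  refine ⟨((((Perm.sign γ1⁻¹ : ℤˣ) : ℤ) * ((Perm.sign γ2⁻¹ : ℤˣ) : ℤ) : ℤ) : ℝ), fun h => ?_⟩
  unfold thmHF
  have e1 : eps c1 r1 (a1 ∘ ⇑(h * γ1⁻¹)) = ((Perm.sign γ1⁻¹ : ℤˣ) : ℤ) * eps c1 r1 (a1 ∘ h) := by
    rw [Perm.coe_mul, ← Function.comp_assoc]
    exact eps_comp_col _ _ _ _ fun y => by rw [← h1, Perm.coe_inv, apply_symm_apply]
  have e2 : eps c2 r2 (a2 ∘ ⇑(h * γ1⁻¹)) = ((Perm.sign γ2⁻¹ : ℤˣ) : ℤ) *
      eps (c2 ∘ ⇑(γ2⁻¹ * γ1)) (r2 ∘ ⇑(γ2⁻¹ * γ1)) (a2 ∘ h) := by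
    rw [← thmH_eps_mul_inv, ← eps_comp_col _ _ _ γ2⁻¹ fun y => by
      rw [← h2, Perm.coe_inv, apply_symm_apply]]
    congr 1
    funext x
    simp
  rw [e1, e2]
  push_cast
  ring

/-- The core claim. -/
theorem thmH_core {α β : ℕ → ℕ} {b : ℕ} (M : Finset Ω)
    (hc : ∀ t, α t + β t ≤ b ∨ α t + β t + t + 1 ≤ 2 * b) {c1 r1 a1 a2 : Ω → ℕ}
    (h1 : IsTab (rcons b α) c1 r1) (hr1 : ∀ x, r1 x = 0 ↔ x ∈ M)
    (ha1 : ∀ x, a1 x = 0 ↔ x ∈ M) (ha2 : ∀ x, a2 x = 0 ↔ x ∈ M) (p : ℕ) :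
    ∀ (c2 r2 : Ω → ℕ), IsTab (rcons b β) c2 r2 → (∀ x, r2 x = 0 ↔ x ∈ M) →
      (univ.filter fun x => x ∉ M ∧ c1 x + c2 x + 1 ≠ b).card = p →
      ∀ z, thmHI (rcons b α) (rcons b β) z →
        ∑ h ∈ thmHS M, thmHF c1 r1 a1 c2 r2 a2 h * z h = 0 := by
  induction p using Nat.strong_induction_on with
  | _ p ih =>
  intro c0 r2 h0 hr2 hp z hz
  -- put `M` on the antidiagonal
  set c2 : Ω → ℕ := fun x => if x ∈ M then b - 1 - c1 x else c0 x with hc2
  have hlt : ∀ x ∈ M, c1 x < b := fun x hx => by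
    have := h1.mem x
    rwa [(hr1 x).2 hx] at this
  have hD : ∀ x ∈ M, c1 x + c2 x + 1 = b := fun x hx => by
    have := hlt x hx
    simp only [hc2, hx, if_true]
    omega
  have hoff : ∀ x, x ∉ M → c2 x = c0 x := fun x hx => by simp only [hc2, hx, if_false]
  have h2 : IsTab (rcons b β) c2 r2 := by
    refine ⟨⟨fun x y e1 e2 => ?_, fun x => ?_, fun i j hj => ?_⟩, h0.anti⟩
    · by_cases hx : x ∈ M
      · have hy : y ∈ M := (hr2 y).1 (e1 ▸ (hr2 x).2 hx)
        have h3 := hD x hx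
        have h4 := hD y hy
        exact h1.inj x y (((hr1 x).2 hx).trans ((hr1 y).2 hy).symm) (by omega)
      · have hy : y ∉ M := fun hy => hx ((hr2 x).1 (e1 ▸ (hr2 y).2 hy))
        rw [hoff x hx, hoff y hy] at e2
        exact h0.inj x y e1 e2
    · by_cases hx : x ∈ M
      · have := hD x hx
        rw [(hr2 x).2 hx, show rcons b β 0 = b from rfl]
        omega
      · rw [hoff x hx]; exact h0.mem x
    · rcases i with _ | i
      · rw [show rcons b β 0 = b from rfl] at hj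
        obtain ⟨x, e1, e2⟩ := h1.surj 0 (b - 1 - j) (by rw [show rcons b α 0 = b from rfl]; omega)
        have hx := (hr1 x).1 e1
        have := hD x hx
        exact ⟨x, (hr2 x).2 hx, by omega⟩
      · obtain ⟨x, e1, e2⟩ := h0.surj _ j hj
        have hx : x ∉ M := fun hx => by have := (hr2 x).2 hx; omega
        exact ⟨x, e1, (hoff x hx).trans e2⟩
  have hp2 : (univ.filter fun x => x ∉ M ∧ c1 x + c2 x + 1 ≠ b).card = p := by
    rw [← hp]
    congr 1
    refine filter_congr fun x _ => and_congr_right fun hx => by rw [hoff x hx]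
  have hsame : ∀ h ∈ thmHS M, thmHF c1 r1 a1 c0 r2 a2 h * z h =
      thmHF c1 r1 a1 c2 r2 a2 h * z h := by
    intro h hh
    unfold thmHF
    rw [thmH_eps_indep M (a := a2 ∘ h) hr2 (fun x => (ha2 _).trans (mem_thmHS.1 hh x)) h0.inj h2.inj hoff]
  rw [sum_congr rfl hsame]
  refine thmH_tie M hc h1 h2 hr1 hr2 ha1 ha2 hD z fun g => ?_
  have hzg := hz.right g
  set w : Perm Ω → ℝ := fun σ => z (σ * g) with hw
  have hfull := hzg c1 r1 a1 c2 r2 a2 h1 h2
  have hnon : ∑ σ : Perm Ω, (if ∀ x, σ x ∈ M → c1 x + c2 x + 1 = b then 0 else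
      thmHF c1 r1 a1 c2 r2 a2 σ * w σ) = 0 := by
    rw [← sum_fiberwise univ fun σ : Perm Ω => univ.filter fun x => σ x ∈ M]
    refine sum_eq_zero fun N _ => ?_
    have hN : ∀ σ : Perm Ω, σ ∈ (univ.filter fun σ : Perm Ω =>
        (univ.filter fun x => σ x ∈ M) = N) ↔ ∀ x, σ x ∈ M ↔ x ∈ N := by
      intro σ
      simp only [mem_filter, mem_univ, true_and, Finset.ext_iff]
    by_contra hne
    obtain ⟨σ0, hσ0, hne0⟩ := exists_ne_zero_of_sum_ne_zero hne
    rw [hN] at hσ0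
    have hnt : ¬ ∀ x, σ0 x ∈ M → c1 x + c2 x + 1 = b := fun h => hne0 (if_pos h)
    rw [if_neg hnt] at hne0
    obtain ⟨γ1, hγ1c, hγ1⟩ := thmH_exists_col hr1 ha1 (σ := σ0) (c := c1)
      fun e => hne0 (by simp [thmHF, e])
    obtain ⟨γ2, hγ2c, hγ2⟩ := thmH_exists_col hr2 ha2 (σ := σ0) (c := c2)
      fun e => hne0 (by simp [thmHF, e])
    simp only [hσ0] at hγ1 hγ2 hnt
    push Not at hnt
    obtain ⟨y0, hy0, hy0'⟩ := hnt
    obtain ⟨s, hs⟩ := thmHF_mul_inv (r1 := r1) (a1 := a1) (r2 := r2) (a2 := a2) γ1 γ2 hγ1c hγ2c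
    have hcol : ∀ x, c2 (γ2⁻¹ (γ1 x)) = c2 (γ1 x) := fun x => by
      rw [← hγ2c, Perm.coe_inv, apply_symm_apply]
    have hih := ih _ ?_ _ _ (h2.comp_equiv (γ2⁻¹ * γ1 : Perm Ω)) (fun x => ?_) rfl _
      (hzg.right γ1⁻¹)
    · apply hne
      rw [← mul_zero s, ← hih, mul_sum]
      symm
      refine sum_equiv (Equiv.mulRight γ1⁻¹) (fun h => ?_) fun h hh => ?_
      · rw [hN, mem_thmHS]
        simp only [Equiv.coe_mulRight, Perm.mul_apply]
        refine ⟨fun H x => ?_, fun H x => ?_⟩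
        · rw [H, ← hγ1, Perm.coe_inv, apply_symm_apply]
        · have := H (γ1 x)
          rwa [Perm.coe_inv, symm_apply_apply, hγ1] at this
      · rw [Equiv.coe_mulRight, if_neg, hs, mul_assoc]
        intro H
        refine hy0' (H y0 ?_)
        rw [Perm.mul_apply, mem_thmHS.1 hh, ← hγ1, Perm.coe_inv, apply_symm_apply]
        exact hy0
    · rw [← hp2]
      have hy0M : y0 ∉ M := fun h => hy0' (hD y0 h)
      refine lt_of_le_of_lt (card_le_card_of_injOn γ1 (fun x hx => ?_) γ1.injective.injOn)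
        (card_erase_lt_of_mem (a := y0) (by simp [hy0M, hy0']))
      simp only [coe_filter, mem_univ, true_and, Set.mem_ofPred_eq, Function.comp_apply,
        Perm.mul_apply, hcol] at hx
      have h3 : c1 (γ1 x) + c2 (γ1 x) + 1 ≠ b := by rw [hγ1c]; exact hx.2
      simp only [coe_erase, coe_filter, mem_univ, true_and, Set.mem_sdiff, Set.mem_ofPred_eq,
        Set.mem_singleton_iff]
      exact ⟨⟨fun h => h3 (hD _ h), h3⟩, fun e => hx.1 ((hγ1 x).1 (e ▸ hy0))⟩
    · rw [Function.comp_apply, hr2, Perm.mul_apply, ← hγ2, Perm.coe_inv, apply_symm_apply, hγ1]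
  refine ((add_zero _).symm.trans ((congrArg _ hnon.symm).trans ?_)).trans hfull
  rw [← sum_add_distrib]
  refine sum_congr rfl fun σ _ => ?_
  split_ifs <;> simp [hw]

end Crest.Agent.R195
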